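import Mathlib

/-!
# Row 220 (S0341): basic calculus on the plane `P = ℝ × ℝ`

Directional derivatives `dd v f z`, the notation `∂₁`, `∂₂`, the square `O` and the compact square
`K`, positive-part powers, the divergence theorem for compactly supported fields, mean value bounds.
-/

set_option autoImplicit false

open Set MeasureTheory Filter Topology
open scoped ContDiff

namespace Crest.Agent.R220

/-- The model plane (sup norm). -/
abbrev P : Type := ℝ × ℝ

/-- Directional derivative of a scalar function. -/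
noncomputable def dd (v : P) (f : P → ℝ) (z : P) : ℝ := fderiv ℝ f z v

def e1 : P := (1, 0)
def e2 : P := (0, 1)

@[simp] lemma e1_fst : e1.1 = 1 := rfl
@[simp] lemma e1_snd : e1.2 = 0 := rfl
@[simp] lemma e2_fst : e2.1 = 0 := rfl
@[simp] lemma e2_snd : e2.2 = 1 := rfl

@[inherit_doc dd] scoped notation "∂₁" => dd e1
@[inherit_doc dd] scoped notation "∂₂" => dd e2

/-- The open square `(-2,2)²`. -/
def O : Set P := Metric.ball 0 2
/-- The compact square `[-8/5,8/5]²`. -/
def K : Set P := Metric.closedBall 0 (8 / 5)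

lemma isOpen_O : IsOpen O := Metric.isOpen_ball
lemma convex_O : Convex ℝ O := convex_ball _ _
lemma isCompact_K : IsCompact K := isCompact_closedBall _ _
lemma measurableSet_K : MeasurableSet K := isCompact_K.isClosed.measurableSet
lemma K_subset_O : K ⊆ O := Metric.closedBall_subset_ball (by norm_num)
lemma zero_mem_O : (0 : P) ∈ O := Metric.mem_ball_self (by norm_num)
lemma zero_mem_K : (0 : P) ∈ K := Metric.mem_closedBall_self (by norm_num)
lemma mem_O_iff {z : P} : z ∈ O ↔ |z.1| < 2 ∧ |z.2| < 2 := by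
  simp [O, Prod.norm_def]
lemma mem_K_iff {z : P} : z ∈ K ↔ |z.1| ≤ 8 / 5 ∧ |z.2| ≤ 8 / 5 := by
  simp [K, Prod.norm_def]
lemma O_mem_nhds {z : P} (hz : z ∈ O) : O ∈ 𝓝 z := isOpen_O.mem_nhds hz
lemma abs_fst_le_norm (z : P) : |z.1| ≤ ‖z‖ := by simpa using norm_fst_le z
lemma abs_snd_le_norm (z : P) : |z.2| ≤ ‖z‖ := by simpa using norm_snd_le z
lemma norm_eq_max (z : P) : ‖z‖ = max |z.1| |z.2| := by simp [Prod.norm_def]
lemma volume_real_K : (volume K).toReal = 256 / 25 := by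
  have : K = Icc (-(8 / 5) : ℝ) (8 / 5) ×ˢ Icc (-(8 / 5) : ℝ) (8 / 5) := by
    ext z; simp only [mem_K_iff, abs_le, mem_prod, mem_Icc]
  rw [this, Measure.volume_eq_prod, Measure.prod_prod, Real.volume_Icc, ← ENNReal.ofReal_mul (by norm_num),
    ENNReal.toReal_ofReal (by norm_num)]
  norm_num

/-! ### Differentiation rules -/

section rules
variable {v z : P} {f g : P → ℝ}

lemma dd_of_hasFDerivAt {f' : P →L[ℝ] ℝ} (h : HasFDerivAt f f' z) : dd v f z = f' v := by
  rw [dd, h.fderiv]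

lemma dd_congr (h : f =ᶠ[𝓝 z] g) : dd v f z = dd v g z := by
  rw [dd, dd, h.fderiv_eq]

lemma dd_congr_on {U : Set P} (hU : IsOpen U) (h : ∀ x ∈ U, f x = g x) (hz : z ∈ U) :
    dd v f z = dd v g z :=
  dd_congr (Filter.eventually_of_mem (hU.mem_nhds hz) h)

@[simp] lemma dd_const (c : ℝ) : dd v (fun _ => c) z = 0 := by simp [dd]

lemma dd_fst : dd v (fun x : P => x.1) z = v.1 := by
  rw [dd_of_hasFDerivAt hasFDerivAt_fst]; rfl

lemma dd_snd : dd v (fun x : P => x.2) z = v.2 := by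
  rw [dd_of_hasFDerivAt hasFDerivAt_snd]; rfl

lemma dd_add (hf : DifferentiableAt ℝ f z) (hg : DifferentiableAt ℝ g z) :
    dd v (fun x => f x + g x) z = dd v f z + dd v g z := by
  rw [dd_of_hasFDerivAt (hf.hasFDerivAt.fun_add hg.hasFDerivAt)]; rfl

lemma dd_sub (hf : DifferentiableAt ℝ f z) (hg : DifferentiableAt ℝ g z) :
    dd v (fun x => f x - g x) z = dd v f z - dd v g z := by
  rw [dd_of_hasFDerivAt (hf.hasFDerivAt.fun_sub hg.hasFDerivAt)]; rfl

lemma dd_neg : dd v (fun x => - f x) z = - dd v f z := by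
  simp [dd, fderiv_fun_neg]

lemma dd_mul (hf : DifferentiableAt ℝ f z) (hg : DifferentiableAt ℝ g z) :
    dd v (fun x => f x * g x) z = dd v f z * g z + f z * dd v g z := by
  rw [dd_of_hasFDerivAt (hf.hasFDerivAt.fun_mul hg.hasFDerivAt)]
  simp [dd]; ring

lemma dd_const_mul (c : ℝ) (hf : DifferentiableAt ℝ f z) :
    dd v (fun x => c * f x) z = c * dd v f z := by
  rw [dd_mul (by fun_prop) hf]; simp

lemma dd_mul_const (c : ℝ) (hf : DifferentiableAt ℝ f z) :
    dd v (fun x => f x * c) z = dd v f z * c := by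
  rw [dd_mul hf (by fun_prop)]; simp

lemma dd_div_const (c : ℝ) (hf : DifferentiableAt ℝ f z) :
    dd v (fun x => f x / c) z = dd v f z / c := by
  simp only [div_eq_mul_inv]; exact dd_mul_const _ hf

/-- chain rule with an outer scalar function -/
lemma dd_comp {h : ℝ → ℝ} {h' : ℝ} (hh : HasDerivAt h h' (f z)) (hf : DifferentiableAt ℝ f z) :
    dd v (fun x => h (f x)) z = h' * dd v f z := by
  have := hh.comp_hasFDerivAt z hf.hasFDerivAt
  rw [show (fun x => h (f x)) = h ∘ f from rfl, dd_of_hasFDerivAt this]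
  simp [dd]

lemma dd_pow (n : ℕ) (hf : DifferentiableAt ℝ f z) :
    dd v (fun x => f x ^ n) z = n * f z ^ (n - 1) * dd v f z :=
  dd_comp (h := fun t => t ^ n) (hasDerivAt_pow n (f z)) hf

lemma dd_sq (hf : DifferentiableAt ℝ f z) :
    dd v (fun x => f x ^ 2) z = 2 * f z * dd v f z := by
  rw [dd_pow 2 hf]; simp

lemma dd_exp (hf : DifferentiableAt ℝ f z) :
    dd v (fun x => Real.exp (f x)) z = Real.exp (f z) * dd v f z :=
  dd_comp (Real.hasDerivAt_exp (f z)) hf

lemma dd_inv (hf : DifferentiableAt ℝ f z) (h0 : f z ≠ 0) :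
    dd v (fun x => (f x)⁻¹) z = - dd v f z / f z ^ 2 := by
  rw [dd_comp (h := fun t => t⁻¹) (hasDerivAt_inv h0) hf]; field_simp

lemma dd_div (hf : DifferentiableAt ℝ f z) (hg : DifferentiableAt ℝ g z) (h0 : g z ≠ 0) :
    dd v (fun x => f x / g x) z = (dd v f z * g z - f z * dd v g z) / g z ^ 2 := by
  simp only [div_eq_mul_inv]
  rw [dd_mul hf (hg.fun_inv h0), dd_inv hg h0]; field_simp; ring

lemma dd_sum {ι : Type*} (s : Finset ι) {F : ι → P → ℝ}
    (hF : ∀ i ∈ s, DifferentiableAt ℝ (F i) z) :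
    dd v (fun x => ∑ i ∈ s, F i x) z = ∑ i ∈ s, dd v (F i) z := by
  rw [dd_of_hasFDerivAt (HasFDerivAt.fun_sum fun i hi => (hF i hi).hasFDerivAt)]
  simp [dd]

lemma fderiv_apply_eq (f : P → ℝ) (z v : P) :
    fderiv ℝ f z v = v.1 * ∂₁ f z + v.2 * ∂₂ f z := by
  have : v = v.1 • e1 + v.2 • e2 := by ext <;> simp
  conv_lhs => rw [this]
  simp [dd]

lemma dd_eq (f : P → ℝ) (z v : P) : dd v f z = v.1 * ∂₁ f z + v.2 * ∂₂ f z :=
  fderiv_apply_eq f z v

lemma norm_fderiv_le (f : P → ℝ) (z : P) : ‖fderiv ℝ f z‖ ≤ |∂₁ f z| + |∂₂ f z| := by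
  refine ContinuousLinearMap.opNorm_le_bound _ (by positivity) fun v => ?_
  rw [fderiv_apply_eq, Real.norm_eq_abs]
  have h1 := abs_fst_le_norm v
  have h2 := abs_snd_le_norm v
  calc |v.1 * ∂₁ f z + v.2 * ∂₂ f z| ≤ |v.1| * |∂₁ f z| + |v.2| * |∂₂ f z| := by
        rw [← abs_mul, ← abs_mul]; exact abs_add_le _ _
    _ ≤ ‖v‖ * |∂₁ f z| + ‖v‖ * |∂₂ f z| := by gcongr
    _ = (|∂₁ f z| + |∂₂ f z|) * ‖v‖ := by ring

/-- if `f` vanishes near `z` so do its derivatives -/
lemma dd_eq_zero_of_eventually (h : ∀ᶠ x in 𝓝 z, f x = 0) : dd v f z = 0 := by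
  rw [dd_congr (g := fun _ => 0) h]; simp

end rules

/-! ### Smoothness -/

section smooth
variable {U : Set P} {f : P → ℝ} {z : P}

lemma ContDiffAt.dd_top (v : P) (hf : ContDiffAt ℝ ∞ f z) : ContDiffAt ℝ ∞ (dd v f) z := by
  have : ContDiffAt ℝ ∞ (fderiv ℝ f) z := hf.fderiv_right (m := ∞) (by simp)
  exact this.clm_apply contDiffAt_const

lemma contDiffOn_dd (hU : IsOpen U) (v : P) (hf : ContDiffOn ℝ ∞ f U) :
    ContDiffOn ℝ ∞ (dd v f) U := fun x hx =>
  (ContDiffAt.dd_top v ((hf x hx).contDiffAt (hU.mem_nhds hx))).contDiffWithinAt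

lemma contDiff_dd (v : P) (hf : ContDiff ℝ ∞ f) : ContDiff ℝ ∞ (dd v f) :=
  contDiff_iff_contDiffAt.2 fun _ => ContDiffAt.dd_top v hf.contDiffAt

lemma continuousOn_dd (hU : IsOpen U) (v : P) (hf : ContDiffOn ℝ 1 f U) :
    ContinuousOn (dd v f) U := by
  have := hf.continuousOn_fderiv_of_isOpen hU le_rfl
  exact this.clm_apply continuousOn_const

lemma continuous_dd (v : P) (hf : ContDiff ℝ 1 f) : Continuous (dd v f) := by
  have := hf.continuous_fderiv (by simp)
  exact this.clm_apply continuous_const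

lemma ContDiffOn.diffAt {n : WithTop ℕ∞} (hU : IsOpen U) (hf : ContDiffOn ℝ n f U) (hn : n ≠ 0)
    (hz : z ∈ U) : DifferentiableAt ℝ f z :=
  ((hf z hz).contDiffAt (hU.mem_nhds hz)).differentiableAt hn

lemma diffAt_top (hU : IsOpen U) (hf : ContDiffOn ℝ ∞ f U) (hz : z ∈ U) :
    DifferentiableAt ℝ f z := ContDiffOn.diffAt hU hf (by simp) hz

lemma diffAt_one (hU : IsOpen U) (hf : ContDiffOn ℝ 1 f U) (hz : z ∈ U) :
    DifferentiableAt ℝ f z := ContDiffOn.diffAt hU hf (by simp) hz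

lemma ContDiffOn.top_one (hf : ContDiffOn ℝ ∞ f U) : ContDiffOn ℝ 1 f U :=
  hf.of_le (by exact_mod_cast le_top)

/-- symmetry of second derivatives -/
lemma dd_comm (v w : P) (hf : ContDiffAt ℝ ∞ f z) : dd v (dd w f) z = dd w (dd v f) z := by
  have h2 : ContDiffAt ℝ 2 f z := hf.of_le (WithTop.coe_le_coe.2 (le_top : ((2 : ℕ) : ℕ∞) ≤ ⊤))
  have hs := h2.isSymmSndFDerivAt (by simp)
  have hd : DifferentiableAt ℝ (fderiv ℝ f) z :=
    (hf.fderiv_right (m := ∞) (by simp)).differentiableAt (by simp)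
  have key : ∀ a b : P, dd a (dd b f) z = fderiv ℝ (fderiv ℝ f) z a b := by
    intro a b
    have := hd.hasFDerivAt.clm_apply (hasFDerivAt_const b z)
    rw [show dd b f = fun y => fderiv ℝ f y b from rfl, dd_of_hasFDerivAt this]
    simp
  rw [key, key, hs.eq]

lemma dd_comm_on (hU : IsOpen U) (v w : P) (hf : ContDiffOn ℝ ∞ f U) (hz : z ∈ U) :
    dd v (dd w f) z = dd w (dd v f) z :=
  dd_comm v w ((hf z hz).contDiffAt (hU.mem_nhds hz))

end smooth

/-! ### Positive part powers -/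

/-- `pp n t = (max t 0) ^ n`. -/
noncomputable def pp (n : ℕ) (t : ℝ) : ℝ := (max t 0) ^ n

lemma pp_nonneg (n : ℕ) (t : ℝ) : 0 ≤ pp n t := pow_nonneg (le_max_right _ _) _
lemma pp_of_nonneg {n : ℕ} {t : ℝ} (ht : 0 ≤ t) : pp n t = t ^ n := by simp [pp, ht]
lemma pp_of_nonpos {n : ℕ} (hn : n ≠ 0) {t : ℝ} (ht : t ≤ 0) : pp n t = 0 := by simp [pp, ht, hn]
lemma continuous_pp (n : ℕ) : Continuous (pp n) := by unfold pp; fun_prop

lemma hasDerivAt_pp {n : ℕ} (hn : 2 ≤ n) (t : ℝ) :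
    HasDerivAt (pp n) (n * pp (n - 1) t) t := by
  rcases lt_trichotomy t 0 with ht | rfl | ht
  · have : pp n =ᶠ[𝓝 t] fun _ => 0 := by
      filter_upwards [Iio_mem_nhds ht] with s hs using pp_of_nonpos (by omega) (le_of_lt hs)
    rw [pp_of_nonpos (by omega) ht.le, mul_zero]
    exact (hasDerivAt_const t (0 : ℝ)).congr_of_eventuallyEq this
  · rw [pp_of_nonpos (by omega) le_rfl, mul_zero, hasDerivAt_iff_isLittleO_nhds_zero]
    have h1 : (fun h : ℝ => h ^ n) =o[𝓝 0] fun h => h := Asymptotics.isLittleO_pow_id (by omega)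
    refine Asymptotics.IsBigO.trans_isLittleO (g := fun h : ℝ => h ^ n) ?_ h1
    refine Asymptotics.IsBigO.of_bound 1 (Filter.Eventually.of_forall fun h => ?_)
    simp only [zero_add, smul_zero, sub_zero, one_mul, Real.norm_eq_abs]
    rw [pp_of_nonpos (by omega) le_rfl, sub_zero, abs_of_nonneg (pp_nonneg _ _), abs_pow, pp]
    gcongr
    exact max_le (le_abs_self _) (abs_nonneg _)
  · have : pp n =ᶠ[𝓝 t] fun s => s ^ n := by
      filter_upwards [Ioi_mem_nhds ht] with s hs using pp_of_nonneg (le_of_lt hs)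
    rw [pp_of_nonneg ht.le]
    exact (hasDerivAt_pow n t).congr_of_eventuallyEq this

lemma contDiff_one_pp {n : ℕ} (hn : 2 ≤ n) : ContDiff ℝ 1 (pp n) := by
  rw [contDiff_one_iff_deriv]
  refine ⟨fun t => (hasDerivAt_pp hn t).differentiableAt, ?_⟩
  have : deriv (pp n) = fun t => n * pp (n - 1) t := funext fun t => (hasDerivAt_pp hn t).deriv
  rw [this]
  exact continuous_const.mul (continuous_pp _)

@[fun_prop] lemma differentiableAt_pp_comp {n : ℕ} {f : P → ℝ} {z : P}
    (hf : DifferentiableAt ℝ f z) (hn : 2 ≤ n) : DifferentiableAt ℝ (fun x => pp n (f x)) z :=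
  (hasDerivAt_pp hn (f z)).differentiableAt.comp z hf

lemma dd_pp {n : ℕ} (hn : 2 ≤ n) {f : P → ℝ} {z v : P} (hf : DifferentiableAt ℝ f z) :
    dd v (fun x => pp n (f x)) z = n * pp (n - 1) (f z) * dd v f z :=
  dd_comp (hasDerivAt_pp hn (f z)) hf

lemma contDiffOn_pp_comp {n : ℕ} (hn : 2 ≤ n) {f : P → ℝ} {U : Set P} (hf : ContDiffOn ℝ 1 f U) :
    ContDiffOn ℝ 1 (fun x => pp n (f x)) U :=
  (contDiff_one_pp hn).comp_contDiffOn hf

/-! ### The divergence theorem for compactly supported fields -/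

lemma integral_dd_eq_zero_of_compact {f : P → ℝ} (hf : ContDiff ℝ 1 f) (hc : HasCompactSupport f)
    (v : P) : ∫ z, dd v f z = 0 := by
  have h1 : Integrable (fun z => dd v f z) :=
    (continuous_dd v hf).integrable_of_hasCompactSupport
      ((hc.fderiv ℝ).comp_left (g := fun L : P →L[ℝ] ℝ => L v) (by simp))
  have h0 : Integrable f := hf.continuous.integrable_of_hasCompactSupport hc
  have := integral_mul_fderiv_eq_neg_fderiv_mul_of_integrable (μ := (volume : Measure P))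
    (f := fun _ => (1 : ℝ)) (g := f) (v := v) (by simp) (by simpa [dd] using h1) (by simpa using h0)
    (fun _ _ => by fun_prop) (fun x _ => hf.differentiable (by simp) x)
  simpa [dd] using this

/-- A function that is `C¹` on an open set `U` and vanishes on `U \ C` for a compact `C ⊆ U`,
extended by zero, is `C¹` with compact support. -/
lemma contDiff_indicator {U C : Set P} (hU : IsOpen U) (hC : IsCompact C) (hCU : C ⊆ U)
    {n : WithTop ℕ∞} {f : P → ℝ} (hf : ContDiffOn ℝ n f U) (h0 : ∀ z ∈ U, z ∉ C → f z = 0) :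
    ContDiff ℝ n (U.indicator f) ∧ (∀ z, z ∉ C → U.indicator f z = 0) ∧
      (∀ z ∈ U, U.indicator f =ᶠ[𝓝 z] f) := by
  have hz : ∀ z, z ∉ C → U.indicator f z = 0 := by
    intro z hz
    by_cases hzU : z ∈ U
    · rw [indicator_of_mem hzU, h0 z hzU hz]
    · rw [indicator_of_notMem hzU]
  have hev : ∀ z ∈ U, U.indicator f =ᶠ[𝓝 z] f := by
    intro z hzU
    filter_upwards [hU.mem_nhds hzU] with x hx using indicator_of_mem hx f
  refine ⟨contDiff_iff_contDiffAt.2 fun z => ?_, hz, hev⟩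
  by_cases hzU : z ∈ U
  · exact ((hf z hzU).contDiffAt (hU.mem_nhds hzU)).congr_of_eventuallyEq (hev z hzU)
  · have hzC : z ∉ C := fun h => hzU (hCU h)
    have : U.indicator f =ᶠ[𝓝 z] fun _ => 0 := by
      filter_upwards [hC.isClosed.isOpen_compl.mem_nhds hzC] with x hx using hz x hx
    exact contDiffAt_const.congr_of_eventuallyEq this

/-- Divergence theorem: if `J` is `C¹` on the open set `U` and vanishes on `U \ C`, `C ⊆ U` compact,
then `∫_C ∂_v J = 0`. -/
lemma setIntegral_dd_eq_zero {U C : Set P} (hU : IsOpen U) (hC : IsCompact C) (hCU : C ⊆ U)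
    {J : P → ℝ} (hJ : ContDiffOn ℝ 1 J U) (h0 : ∀ z ∈ U, z ∉ C → J z = 0) (v : P) :
    ∫ z in C, dd v J z = 0 := by
  obtain ⟨h1, h2, h3⟩ := contDiff_indicator hU hC hCU hJ h0
  have hcs : HasCompactSupport (U.indicator J) := HasCompactSupport.intro hC h2
  have h4 := integral_dd_eq_zero_of_compact h1 hcs v
  rw [← setIntegral_eq_integral_of_forall_compl_eq_zero (s := C)] at h4
  · rw [← h4]
    refine setIntegral_congr_fun hC.isClosed.measurableSet fun z hz => ?_
    exact (dd_congr (h3 z (hCU hz))).symm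
  · intro z hz
    refine dd_eq_zero_of_eventually ?_
    filter_upwards [hC.isClosed.isOpen_compl.mem_nhds hz] with x hx using h2 x hx

/-- The form used by the multiplier estimates, on `K ⊆ O`. -/
lemma integral_div_eq_zero {J1 J2 : P → ℝ} (h1 : ContDiffOn ℝ 1 J1 O) (h2 : ContDiffOn ℝ 1 J2 O)
    (h10 : ∀ z ∈ O, z ∉ K → J1 z = 0) (h20 : ∀ z ∈ O, z ∉ K → J2 z = 0) :
    ∫ z in K, (∂₁ J1 z + ∂₂ J2 z) = 0 := by
  rw [integral_add, setIntegral_dd_eq_zero isOpen_O isCompact_K K_subset_O h1 h10,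
    setIntegral_dd_eq_zero isOpen_O isCompact_K K_subset_O h2 h20, add_zero]
  · exact ((continuousOn_dd isOpen_O _ h1).mono K_subset_O).integrableOn_compact isCompact_K
  · exact ((continuousOn_dd isOpen_O _ h2).mono K_subset_O).integrableOn_compact isCompact_K

lemma ContinuousOn.integrableOn_K {f : P → ℝ} (hf : ContinuousOn f O) : IntegrableOn f K :=
  (hf.mono K_subset_O).integrableOn_compact isCompact_K

/-! ### Mean value bounds on `O` -/

lemma abs_sub_le_of_dd_bound {f : P → ℝ} (hf : ∀ z ∈ O, DifferentiableAt ℝ f z) {B : ℝ}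
    (h1 : ∀ z ∈ O, |∂₁ f z| ≤ B) (h2 : ∀ z ∈ O, |∂₂ f z| ≤ B) {x y : P} (hx : x ∈ O) (hy : y ∈ O) :
    |f y - f x| ≤ 2 * B * ‖y - x‖ := by
  have := convex_O.norm_image_sub_le_of_norm_fderiv_le (𝕜 := ℝ) (C := 2 * B) hf
    (fun z hz => (norm_fderiv_le f z).trans (by linarith [h1 z hz, h2 z hz])) hx hy
  simpa using this

end Crest.Agent.R220
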