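import Crest.Agent.R220.Basic

/-! # Row 220: a small tool for bounding absolute values of polynomial expressions

`bd` solves goals `|e| ≤ ?C` from hypotheses `|x| ≤ c` on the atoms; use it as
`refine le_trans (by bd) (by norm_num)` or `apply le_trans; · bd; · norm_num`. -/

set_option autoImplicit false

namespace Crest.Agent.R220

variable {a b A B : ℝ}

lemma bd_add (ha : |a| ≤ A) (hb : |b| ≤ B) : |a + b| ≤ A + B :=
  (abs_add_le a b).trans (add_le_add ha hb)
lemma bd_sub (ha : |a| ≤ A) (hb : |b| ≤ B) : |a - b| ≤ A + B :=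
  (abs_sub a b).trans (add_le_add ha hb)
lemma bd_mul (ha : |a| ≤ A) (hb : |b| ≤ B) : |a * b| ≤ A * B := by
  rw [abs_mul]; exact mul_le_mul ha hb (abs_nonneg _) ((abs_nonneg _).trans ha)
lemma bd_neg (ha : |a| ≤ A) : |-a| ≤ A := by rwa [abs_neg]
lemma bd_div (ha : |a| ≤ A) : |a / b| ≤ A / |b| := by
  rw [abs_div]; exact div_le_div_of_nonneg_right ha (abs_nonneg _)
lemma bd_pow (n : ℕ) (ha : |a| ≤ A) : |a ^ n| ≤ A ^ n := by
  rw [abs_pow]; exact pow_le_pow_left₀ (abs_nonneg _) ha n

/-- bound `|e| ≤ ?C` structurally -/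
macro "bd" : tactic => `(tactic| repeat' first
  | assumption
  | with_reducible apply bd_add
  | with_reducible apply bd_sub
  | with_reducible apply bd_mul
  | with_reducible apply bd_neg
  | with_reducible apply bd_div
  | with_reducible apply bd_pow
  | exact le_refl _)

example (x y z : ℝ) (hx : |x| ≤ 2) (hy : |y| ≤ 3) (hz : |z| ≤ 1 / 10) :
    |40 * x * y ^ 2 - (x + z) / 2 + -z| ≤ 722 := by
  apply le_trans
  · bd
  · norm_num

end Crest.Agent.R220
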