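/-!
# Row 220 (S0341): blueprint of the proof (comments only)

Goal: a smooth `φ : P → ℝ` (P = ℝ×ℝ) such that `e^{2φ}(dx²+dy²)` has no smooth isometric immersion
into ℝ³ near 0.  Notation: `∂₁ ∂₂` partials, `O = (-2,2)²`, `K = [-8/5,8/5]²`, `rr = x²+y²`,
`kk = rr - 1`, `D f := Dt μ f = ∂₂ f - μ ∂₁ f`, θ = 1/1000, `pp n t = (t₊)^n`.
All integrals are over `K`; every multiplier vanishes on `O \ K`, so `integral_div_eq_zero` applies.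

## Geom.  For `Iso U ψ G`, E = e^{2ψ}, G₁ = ∂₁G, G₂ = ∂₂G, n = E⁻¹ G₁×G₂.
Differentiate h11,h12,h22 (they hold near z): ⟨G11,G1⟩ = Eψ₁, ⟨G12,G1⟩ = Eψ₂, ⟨G12,G2⟩ = Eψ₁,
⟨G22,G2⟩ = Eψ₂, ⟨G11,G2⟩ = -Eψ₂, ⟨G22,G1⟩ = -Eψ₁.  `expand` is the algebraic identity
E² a = E⟨a,G1⟩G1 + E⟨a,G2⟩G2 + ⟨a,G1×G2⟩ G1×G2 (valid when |G1|²=|G2|²=E, ⟨G1,G2⟩=0).
Weingarten: differentiate ⟨n,n⟩=1, ⟨n,Gj⟩=0 and expand.  Codazzi and Gauss: apply ∂₂ to gauss11 and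
∂₁ to gauss21 (equal by symmetry of third derivatives), take the inner product with n resp. G₂;
or: L₂ - M₁ = ⟨G11,n₂⟩ - ⟨G12,n₁⟩ and ⟨G11,G22⟩ - |G12|² = -(E₁₁+E₂₂)/2.

## The system.  For surfaces a,b: (L,M,N) of a, ρ = L, μ = M/L, κ = (LN-M²)/L², ϱ = 1/L²,
ξ = -⟨n,G₁(0)⟩/(wL0).  ξ₁ = L z¹ + M z², ξ₂ = M z¹ + N z², z^j = E⁻¹⟨G_j,G₁(0)⟩, Dξ = κ L z².
Dϱ + 2μ₁ϱ = -2 L⁻³ ψ₂ (L+N);  Dμ - κ₁ = κ L₁/L - (ψ₁+μψ₂)(L+N)/L;  κ = ε² k̂ E ϱ with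
k̂ = -(εwL0)⁻² Δψ = kk - (εwL0)⁻² Δχ.
p = L_b-L_a, q' = M_b-M_a, r = N_b-N_a, q = q' - μ p, S0 = det II_b - det II_a, Gd = p r - q'²:
L r - 2 M q' + N p + Gd = S0,  F1 = p₂ - q'₁ =: c1,  F2 = c2 - μ c1 + ∂₁((S0 - Gd)/L),
c2 := q'₂ - r₁,  c1 = ψ_{a,2}(p+r) + δχ₂ (L_b+N_b),  c2 = -ψ_{a,1}(p+r) - δχ₁ (L_b+N_b),
r L_b = S0 + 2 M q' - N p + q'².

## Divergence identity (Lemma A).  For C¹ multipliers β γ α and a C¹ potential u put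
J2 = β p q + γ (q² - κ p²)/2 + α u q,  J1 = -μ J2 + β (κ p² - q²)/2 + γ κ p q + α κ u p.
With g1 = u₁ - p, g2 = Du - q:  -(∂₁J1 + ∂₂J2) = A q² + B p q + C p² - R,
 A = β₁/2 - Dγ/2 - 3μ₁γ/2 - α,   B = -(Dβ + 2μ₁β) - γ₁κ + γ Dμ,
 C = β(Dμ + κ₁/2) - β₁κ/2 + κμ₁γ/2 + κ Dγ/2 + γ Dκ/2 - ακ,
 R = β(p F2 + q F1) + γ(q F2 - κ p F1) + α u F2 + α(q g2 + κ p g1)
     + u[(Dα + μ₁α) q + (α₁κ - α Dμ) p].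

## mainEst (Lemma B).  o = (oo c)₊, t = (sξ - t0)₊, v = (rr-3/2)₊, n = 40, b = oⁿtⁿ = wt²,
β = s b ϱ, γ = y b ϱ, α = -(1 + kk/2) β'/2 - (100/ε²) ω, β' = n oⁿ tⁿ⁻¹ ξ₁ ϱ, ω = n oⁿ⁻¹ tⁿ v² ϱ.
Then A ≥ .7β' - .6 bϱ + (100/ε² - 13) ω, C/ε² ≥ .12 k²β' + .7 bϱ + ..ω, |B| ≤ 3ε²|k|β' + 11ω + 9θε bϱ,
β' ≥ 21 bϱ, hence -div J ≥ (ε²/20) b (p²+q²) - C Λ 1_{o>0,t>0}.

## hypEst (Lemma C).  γ = α = 0, β = -s ϱ t'² t², t = (τ0 - tau)₊, t' = (sξ + ε/20)₊.  On the support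
‖z‖ < .26, κ ≤ -.92ε², |D tau| ≤ .46ε, t ≤ .052ε.  β₁ = 2ϱ t t'² ξ₁ - 2ϱ t² t' ξ₁ - sϱ₁ t²t'².
Main form 2tt'²ϱ[ξ₁q²/2 + ξ₁|κ|p²/2 - |D tau||pq|] ≥ .3 t t'²(q²+ε²p²); the bad term (t² t') is
absorbed where sξ ≥ -ε/1000 (there t ≤ .05 t') and bounded by C ϖ (p²+q²) elsewhere.

## localEst.  ϖ-weight for hypEst with sign s: wt(1/4)(ε/1200)(-s)ξ² / ((1/4)^40 (ε/6000)^40).
tau(0) = ε/1600.  Annulus: τ0 = ε/1600 - 2ϖ (then t = 0 where S ≠ 0); for z in the annulus choose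
s = -sign ξ(z), σ = sign y: tau z - tau 0 ≤ -ε‖z‖/40 ≤ -3ϖ so t ≥ ϖ, t' ≥ ε/40; sum the 4 estimates.
Ball: R = 120ϖ/ε, τ0 = ε/1600 + 6R, t ∈ [3R, 9R] on ‖z‖ ≤ 2R.

## chain.  η = ε/3000, g = η/J, c_i = 1 - i/(2J), t_i = η(1+i/J), a0 ∈ S fixed,
ω_i = wt c_i t_i s ξ_{a0}, m = (g/(4J))^20, Z_i(a,b) = ∫ ω_i² Lam a b.  Claim: ∃ S_i with
Z_i ≤ C0/4^i on S_i, card S ≤ exp(C J^120)^i card S_i.  Step: pick a ∈ S_i,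
ω' = wt c_{i+1} (t_{i+1} - g/4) s ξ_a; ω_{i+1} ≤ ω' on K and ω_i ≥ m where ω' ≠ 0; there χ's vanish
near z.  mainEst with ϖ = ω_i²/m², Λ = C Lam gives ∫ω'²(p²+q²) ≤ C Z_i/m²; f_b = ω' W a b i has
H¹ norm² ≤ C Z_i / m² (pair_hess; |∇ω'| ≤ C); l2Cover with λ² = m²/(24 C) finishes the step.
Last: mainEst with c = 1/4, t0 = ε/1200 = 5η/2 (ω_J ≥ (η/16)^20 on its support).

## detect.  ϖ = 5nh, R = 120ϖ/ε, S = C sd(δχ) ≤ C n h^{M-3}.  μ0 = μ(0), κ0 = κ(0) < 0,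
a± = μ0 ± √(-κ0), ω1 = q' - a₋ p, ω2 = r - a₋ q' so ω2 - a₊ω1 = r - 2μ0 q' + ν0 p, ν0 = N(0)/L(0).
T̃(s) = s³ζ(s)/3 (ζ smooth bump, 1 on [-2,2], 0 off [-3,3]), T(z) = h T̃((x - 5ih + a₊y)/h),
cut-off ζR (1 on ‖z‖ ≤ R, 0 for ‖z‖ ≥ 2R, |∇ζR| ≤ C/R).  Divergence theorem for ζR T (ω2, -ω1):
∫ζR T̃'(..)(ω2 - a₊ω1) = -∫T(ζR₁ω2 - ζR₂ω1) + ∫ζR T (c2 - a₋c1).  On ‖z‖ ≤ 2R:
L(0)(ω2 - a₊ω1) = S0 - Gd + O(R)(|p|+|q'|+|r|) and S0 = -(wL0)⁻² e^{2ψ_b(0)} Δδχ + O(R)|Δδχ| + O(|δχ|).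
`test_lap_chi` gives the main term ≥ c h^M; all other terms are O(n^10 h^{M+1} + δ2/h^{M+2})
by `localEst` and |x| ≤ x²/λ + λ.

## core.  w ≤ w0 (exists_fine), ε small (Par, and (εwL0)² Φ ζ is C^m-small, ζ = bump 1 on O, 0 off
‖z‖<3), M = m+4, h = 2^{-ℓ}, n = ℓ^122, J = (M+2) ℓ... (4^{-J} = h^{2M+4}).  If all 2ⁿ configurations
α had a surface: supCover on (L,M,N,L₁,M₁,N₁,ξ) with τ = min(ε²/10⁵, ε/(12000J)), chain for s = 1,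
chain for s = -1; total loss exp(C ℓ^121) < 2ⁿ so two different configurations survive;
detect gives h^M ≤ C(n^10 h^{M+1} + C h^{M+2}), false for large ℓ.

## global.  Z = parabola y = x², H = x² - y.  Island j: (q_j, θ_j, L_j) runs through all of
ℚ×ℚ×ℚ infinitely often (L_j = 0 replaced by 1), centre c_j = (q_j, q_j² - 4^{-j}), frame
(cos θ_j, sin θ_j), `core` with N = j, r0 = 4^{-j}/(100(1+|q_j|)), φ_j = ψ_j ∘ aff⁻¹, C^j norm ≤ 2^{-j};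
H ∈ [.6,1.4]4^{-j} on its support.  Dent j: -η_j bump at (0, t_j²), t_j = 2^{-j}, radius t_j²/4 (H<0).
φ = Σ (island + dent), smooth by `contDiff_tsum_of_eventually`; φ = 0 and dφ = 0 on Z; φ ≤ 0 on
{H ≤ 0}, φ(0,t_j²) < 0.  Given `Iso U φ F`, 0 ∈ U: if II = 0 on Z ∩ {|x| ≤ t_j} ⊆ U then (gauss11..22)
∇F is constant there, F(t,t²) - F(-t,t²) = 2t v, v = ∂₁F(0), |v| = 1; but along the chord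
d/ds⟨v,F(s,t²)⟩ ≤ (1+e^{2φ})/2 ≤ 1, < 1 at s = 0: contradiction.  So II(q) ≠ 0 at some q ∈ Z ∩ U; IVT
gives an angle θ with rotated M = 0 and rotated L ≠ 0; by continuity and density some island j
(j ≥ N from `exists_QB_rot`, inside a compact ball around q) satisfies the hypotheses of `core`
through `Iso.rot`: contradiction.
-/
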