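import Crest.Agent.R220.QB

/-! # Row 220: the bumps and the polynomial profile -/

set_option autoImplicit false

open Set MeasureTheory Filter Topology
open scoped ContDiff

namespace Crest.Agent.R220

lemma contDiff_rr : ContDiff ℝ ∞ rr := by
  unfold rr; fun_prop
lemma contDiff_kk : ContDiff ℝ ∞ kk := by
  exact contDiff_rr.sub contDiff_const
lemma contDiff_Phi : ContDiff ℝ ∞ Phi := by
  exact (contDiff_rr.div_const _).sub ((contDiff_rr.pow 2).div_const _)
lemma bm_dd_rr (v z : P) : dd v rr z = 2 * z.1 * v.1 + 2 * z.2 * v.2 := by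
  rw [show rr = fun x : P => x.1 ^ 2 + x.2 ^ 2 from rfl, dd_add (by fun_prop) (by fun_prop),
    dd_sq (by fun_prop), dd_sq (by fun_prop), dd_fst, dd_snd]
lemma bm_diff_rr (z : P) : DifferentiableAt ℝ rr z := contDiff_rr.differentiable (by simp) z
lemma bm_dd_kk (v z : P) : dd v kk z = dd v rr z := by
  rw [show kk = fun x : P => rr x - 1 from rfl, dd_sub (bm_diff_rr z) (by fun_prop)]
  simp
lemma d1_rr (z : P) : ∂₁ rr z = 2 * z.1 := by
  simp [bm_dd_rr]
lemma d2_rr (z : P) : ∂₂ rr z = 2 * z.2 := by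
  simp [bm_dd_rr]
lemma d1_kk (z : P) : ∂₁ kk z = 2 * z.1 := by
  rw [bm_dd_kk, d1_rr]
lemma d2_kk (z : P) : ∂₂ kk z = 2 * z.2 := by
  rw [bm_dd_kk, d2_rr]
lemma bm_dd_poly (v z : P) (a b c d e f g h i j : ℝ) :
    dd v (fun x : P => a + b * x.1 + c * x.2 + d * x.1 ^ 2 + e * (x.1 * x.2) + f * x.2 ^ 2 +
      g * x.1 ^ 3 + h * (x.1 ^ 2 * x.2) + i * (x.1 * x.2 ^ 2) + j * x.2 ^ 3) z =
      (b + 2 * d * z.1 + e * z.2 + 3 * g * z.1 ^ 2 + 2 * h * (z.1 * z.2) + i * z.2 ^ 2) * v.1 +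
      (c + e * z.1 + 2 * f * z.2 + h * z.1 ^ 2 + 2 * i * (z.1 * z.2) + 3 * j * z.2 ^ 2) * v.2 := by
  simp (disch := fun_prop) only [dd_add, dd_const_mul, dd_mul, dd_pow, dd_fst, dd_snd, dd_const]
  push_cast
  ring
lemma bm_dd_Phi (v z : P) : dd v Phi z = (1 / 4 - rr z / 8) * dd v rr z := by
  have := bm_diff_rr z
  rw [show Phi = fun x : P => rr x / 4 - rr x ^ 2 / 16 from rfl,
    dd_sub (by fun_prop) (by fun_prop), dd_div_const _ this, dd_div_const _ (by fun_prop),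
    dd_sq this]
  ring
lemma bm_d1_Phi : ∂₁ Phi = fun x : P => 0 + 1 / 2 * x.1 + 0 * x.2 + 0 * x.1 ^ 2 + 0 * (x.1 * x.2) +
    0 * x.2 ^ 2 + (-1 / 4) * x.1 ^ 3 + 0 * (x.1 ^ 2 * x.2) + (-1 / 4) * (x.1 * x.2 ^ 2) +
    0 * x.2 ^ 3 := by
  funext z; rw [bm_dd_Phi, d1_rr, rr]; ring
lemma bm_d2_Phi : ∂₂ Phi = fun x : P => 0 + 0 * x.1 + 1 / 2 * x.2 + 0 * x.1 ^ 2 + 0 * (x.1 * x.2) +
    0 * x.2 ^ 2 + 0 * x.1 ^ 3 + (-1 / 4) * (x.1 ^ 2 * x.2) + 0 * (x.1 * x.2 ^ 2) +
    (-1 / 4) * x.2 ^ 3 := by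
  funext z; rw [bm_dd_Phi, d2_rr, rr]; ring
lemma bm_QB_lin (a b c : ℝ) (h : |a| + 2 * |b| + 2 * |c| ≤ 6) :
    QB 1 6 0 fun x : P => a + b * x.1 + c * x.2 := by
  refine ⟨by fun_prop, fun z hz => ?_⟩
  obtain ⟨h1, h2⟩ := mem_O_iff.1 hz
  have a1 := abs_add_le (a + b * z.1) (c * z.2)
  have a2 := abs_add_le a (b * z.1)
  rw [abs_mul] at a1 a2
  nlinarith [abs_nonneg b, abs_nonneg c]
lemma bm_QB_quad (a d e f : ℝ) (h : ∀ z ∈ O, |a + d * z.1 ^ 2 + e * (z.1 * z.2) + f * z.2 ^ 2| ≤ 6)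
    (h1 : 4 * |d| + 2 * |e| ≤ 6) (h2 : 2 * |e| + 4 * |f| ≤ 6) :
    QB 1 6 1 fun x : P => a + d * x.1 ^ 2 + e * (x.1 * x.2) + f * x.2 ^ 2 := by
  have e0 : (fun x : P => a + d * x.1 ^ 2 + e * (x.1 * x.2) + f * x.2 ^ 2) =
      fun x : P => a + 0 * x.1 + 0 * x.2 + d * x.1 ^ 2 + e * (x.1 * x.2) + f * x.2 ^ 2 +
      0 * x.1 ^ 3 + 0 * (x.1 ^ 2 * x.2) + 0 * (x.1 * x.2 ^ 2) + 0 * x.2 ^ 3 := by
    funext x; ring
  refine ⟨⟨by fun_prop, h⟩, ?_, ?_⟩
  · refine (bm_QB_lin 0 (2 * d) e (by simp [abs_mul]; linarith)).congr fun z _ => ?_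
    rw [e0, bm_dd_poly]; simp
  · refine (bm_QB_lin 0 e (2 * f) (by simp [abs_mul]; linarith)).congr fun z _ => ?_
    rw [e0, bm_dd_poly]; simp
lemma lap_Phi (z : P) : lap Phi z = - kk z := by
  rw [lap, bm_d1_Phi, bm_d2_Phi, bm_dd_poly, bm_dd_poly, kk, rr]
  simp; ring
lemma QB_Phi : QB 1 6 3 Phi := by
  have hb : ∀ z ∈ O, z.1 ^ 2 ≤ 4 ∧ z.2 ^ 2 ≤ 4 ∧ |z.1| ≤ 2 ∧ |z.2| ≤ 2 := fun z hz => by
    obtain ⟨h1, h2⟩ := mem_O_iff.1 hz
    refine ⟨?_, ?_, h1.le, h2.le⟩
    · rw [← sq_abs]; nlinarith [abs_nonneg z.1]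
    · rw [← sq_abs]; nlinarith [abs_nonneg z.2]
  have hxy : QB 1 6 1 fun x : P => 0 + 0 * x.1 ^ 2 + (-1 / 2) * (x.1 * x.2) + 0 * x.2 ^ 2 :=
    bm_QB_quad _ _ _ _ (fun z hz => by
      obtain ⟨h1, h2, -, -⟩ := hb z hz
      rw [abs_le]; constructor <;> nlinarith [sq_nonneg (z.1 + z.2), sq_nonneg (z.1 - z.2)])
      (by norm_num [abs_of_neg]) (by norm_num [abs_of_neg])
  have hr : ∀ z ∈ O, ∀ t : ℝ, |t| ≤ 2 → |(1 / 4 - rr z / 8) * (2 * t) / 1| ≤ 6 := fun z hz t ht => by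
    obtain ⟨h1, h2, -, -⟩ := hb z hz
    have : |1 / 4 - rr z / 8| ≤ 1 := by
      rw [rr, abs_le]; constructor <;> nlinarith [sq_nonneg z.1, sq_nonneg z.2]
    rw [div_one, abs_mul, abs_mul, abs_two]
    nlinarith [abs_nonneg t, abs_nonneg (1 / 4 - rr z / 8)]
  refine ⟨⟨contDiff_Phi.contDiffOn, fun z hz => ?_⟩,
    ⟨⟨((contDiff_dd _ contDiff_Phi).div_const _).contDiffOn, fun z hz => ?_⟩, ?_, ?_⟩,
    ⟨⟨((contDiff_dd _ contDiff_Phi).div_const _).contDiffOn, fun z hz => ?_⟩, ?_, ?_⟩⟩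
  · obtain ⟨h1, h2, -, -⟩ := hb z hz
    have a1 : 0 ≤ rr z := by rw [rr]; positivity
    have a2 : rr z ≤ 8 := by rw [rr]; linarith
    rw [Phi, abs_le]; constructor <;> nlinarith
  · simp only []; rw [bm_dd_Phi, d1_rr]; exact hr z hz _ (hb z hz).2.2.1
  · refine (bm_QB_quad (1 / 2) (-3 / 4) 0 (-1 / 4) (fun z hz => ?_) (by norm_num [abs_of_neg])
      (by norm_num [abs_of_neg])).congr fun z _ => ?_
    · obtain ⟨h1, h2, -, -⟩ := hb z hz
      rw [abs_le]; constructor <;> nlinarith [sq_nonneg z.1, sq_nonneg z.2]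
    · simp only [div_one]; rw [bm_d1_Phi, bm_dd_poly]; simp only [e1_fst, e1_snd, e2_fst, e2_snd]; ring
  · refine hxy.congr fun z _ => ?_
    simp only [div_one]; rw [bm_d1_Phi, bm_dd_poly]; simp only [e1_fst, e1_snd, e2_fst, e2_snd]; ring
  · simp only []; rw [bm_dd_Phi, d2_rr]; exact hr z hz _ (hb z hz).2.2.2
  · refine hxy.congr fun z _ => ?_
    simp only [div_one]; rw [bm_d2_Phi, bm_dd_poly]; simp only [e1_fst, e1_snd, e2_fst, e2_snd]; ring
  · refine (bm_QB_quad (1 / 2) (-1 / 4) 0 (-3 / 4) (fun z hz => ?_) (by norm_num [abs_of_neg])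
      (by norm_num [abs_of_neg])).congr fun z _ => ?_
    · obtain ⟨h1, h2, -, -⟩ := hb z hz
      rw [abs_le]; constructor <;> nlinarith [sq_nonneg z.1, sq_nonneg z.2]
    · simp only [div_one]; rw [bm_d2_Phi, bm_dd_poly]; simp only [e1_fst, e1_snd, e2_fst, e2_snd]; ring

lemma contDiff_bump0 : ContDiff ℝ ∞ bump0 := by
  exact expNegInvGlue.contDiff.comp (contDiff_const.sub contDiff_rr)
lemma bump0_nonneg (z : P) : 0 ≤ bump0 z := by
  exact expNegInvGlue.nonneg _
lemma bump0_zero_pos : 0 < bump0 0 := by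
  exact expNegInvGlue.pos_of_pos (by simp [rr])
lemma bump0_eq_zero {z : P} (hz : 1 ≤ ‖z‖) : bump0 z = 0 := by
  refine expNegInvGlue.zero_of_nonpos ?_
  rw [norm_eq_max, le_max_iff] at hz
  rw [rr, ← sq_abs z.1, ← sq_abs z.2]
  rcases hz with h | h <;> nlinarith [abs_nonneg z.1, abs_nonneg z.2]
lemma bm_compact_bump0 : HasCompactSupport bump0 :=
  HasCompactSupport.intro (isCompact_closedBall (0 : P) 1) fun z hz =>
    bump0_eq_zero (by simpa using (not_le.1 fun h => hz (by simpa using h)).le)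
lemma integral_bump0_pos : 0 < ∫ z, bump0 z := by
  exact contDiff_bump0.continuous.integral_pos_of_hasCompactSupport_nonneg_nonzero
    bm_compact_bump0 bump0_nonneg bump0_zero_pos.ne'

lemma bm_bumpAt_eq (h : ℝ) (i : ℕ) (z : P) :
    bumpAt h i z = bump0 (h⁻¹ • (z - ((5 * i * h, 0) : P))) := by
  rw [bumpAt]; congr 1
  ext <;> simp [div_eq_inv_mul]

lemma bm_contDiff_bumpAt (h : ℝ) (i : ℕ) : ContDiff ℝ ∞ (bumpAt h i) := by
  rw [funext (bm_bumpAt_eq h i)]
  exact contDiff_bump0.comp (by fun_prop)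

lemma bm_contDiff_ite (h : ℝ) (i : ℕ) (b : Bool) :
    ContDiff ℝ ∞ fun z => if b then bumpAt h i z else 0 := by
  cases b
  · simpa using contDiff_const
  · simpa using bm_contDiff_bumpAt h i

lemma bm_bumpAt_eq_zero {h : ℝ} (hh : 0 < h) (i : ℕ) {z : P}
    (hz : h ≤ |z.1 - 5 * i * h| ∨ h ≤ |z.2|) : bumpAt h i z = 0 := by
  refine bump0_eq_zero ?_
  rw [norm_eq_max, le_max_iff]
  simp only [abs_div, abs_of_pos hh, le_div_iff₀ hh, one_mul]
  exact hz

lemma contDiff_chi (h : ℝ) (M n : ℕ) (α : Fin n → Bool) : ContDiff ℝ ∞ (chi h M n α) := by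
  exact contDiff_const.mul (ContDiff.sum fun i _ => bm_contDiff_ite h i (α i))

lemma chi_eq_zero {h : ℝ} (hh : 0 < h) (M n : ℕ) (α : Fin n → Bool) {z : P}
    (hz : 5 * n * h ≤ ‖z‖) : chi h M n α z = 0 := by
  rw [chi, Finset.sum_eq_zero, mul_zero]
  intro i _
  have hi : (i : ℝ) + 1 ≤ n := by exact_mod_cast i.2
  have hi0 : (0 : ℝ) ≤ i := by positivity
  rw [bm_bumpAt_eq_zero hh, ite_self]
  rw [norm_eq_max, le_max_iff] at hz
  rcases hz with hz | hz
  · left
    have := abs_sub_abs_le_abs_sub z.1 (5 * i * h)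
    rw [abs_of_nonneg (by positivity : (0 : ℝ) ≤ 5 * i * h)] at this
    nlinarith
  · right; nlinarith

lemma bm_bound_bump0 (k : ℕ) : ∃ C : ℝ, 0 < C ∧ ∀ j ≤ k, ∀ z, ‖iteratedFDeriv ℝ j bump0 z‖ ≤ C := by
  have : ∀ j : ℕ, ∃ C : ℝ, ∀ z, ‖iteratedFDeriv ℝ j bump0 z‖ ≤ C := fun j =>
    (contDiff_bump0.continuous_iteratedFDeriv (by exact_mod_cast le_top)).bounded_above_of_compact_support
      (bm_compact_bump0.iteratedFDeriv j)
  choose C hC using this
  have h0 : ∀ j, 0 ≤ C j := fun j => (norm_nonneg _).trans (hC j 0)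
  refine ⟨1 + ∑ j ∈ Finset.range (k + 1), C j, ?_, fun j hj z => ?_⟩
  · have := Finset.sum_nonneg (s := Finset.range (k + 1)) fun j _ => h0 j
    linarith
  · have := Finset.single_le_sum (f := C) (s := Finset.range (k + 1)) (fun j _ => h0 j)
      (Finset.mem_range.2 (Nat.lt_succ_of_le hj))
    linarith [hC j z]

lemma exists_QB_chi : ∃ C : ℝ, 0 < C ∧ ∀ (h : ℝ), 0 < h → ∀ (M n : ℕ) (α : Fin n → Bool),
    QB (1 / h) (C * n * h ^ M) 3 (chi h M n α) := by
  obtain ⟨C, hC, hb⟩ := bm_bound_bump0 3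
  refine ⟨C, hC, fun h hh M n α => ?_⟩
  have h1 : ∀ i : ℕ, QB (1 / h) C 3 (bumpAt h i) := fun i => by
    refine (QB_comp_aff (f := bump0) (U := univ) (c := (-(5 * i), 0)) (v1 := e1) (v2 := e2)
      (w := 1 / h) isOpen_univ (by positivity) (by simp [e1]) (by simp [e2]) (fun _ _ => trivial)
      contDiff_bump0.contDiffOn fun j hj z _ => hb j hj _).congr fun z _ => ?_
    rw [bumpAt]; congr 1
    ext
    · simp [aff]; field_simp; ring
    · simp [aff]; field_simp
  have h2 := (QB.sum (w := 1 / h) (k := 3) Finset.univ hC.le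
    (F := fun (i : Fin n) z => if α i then bumpAt h i z else 0) fun i _ => by
      cases α i
      · simpa using QB.const (c := 0) (by simpa using hC.le)
      · simpa using h1 i).const_mul (h ^ M)
  refine h2.mono (le_of_eq ?_)
  rw [abs_of_pos (by positivity)]
  simp; ring

lemma exists_iteratedFDeriv_chi (k : ℕ) : ∃ C : ℝ, 0 < C ∧ ∀ (h : ℝ), 0 < h →
    ∀ (M n : ℕ) (α : Fin n → Bool) (z : P),
      ‖iteratedFDeriv ℝ k (chi h M n α) z‖ ≤ C * n * h ^ M / h ^ k := by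
  obtain ⟨C, hC, hb⟩ := bm_bound_bump0 k
  refine ⟨C, hC, fun h hh M n α z => ?_⟩
  have hk : (k : WithTop ℕ∞) ≤ ∞ := by exact_mod_cast le_top
  have h1 : ∀ i : ℕ, ‖iteratedFDeriv ℝ k (bumpAt h i) z‖ ≤ C / h ^ k := fun i => by
    let L : P →L[ℝ] P := h⁻¹ • ContinuousLinearMap.id ℝ P
    have hL : ‖L‖ ≤ h⁻¹ := by
      refine (norm_smul_le h⁻¹ (ContinuousLinearMap.id ℝ P)).trans ?_
      rw [Real.norm_eq_abs, abs_of_pos (inv_pos.2 hh)]
      exact mul_le_of_le_one_right (inv_pos.2 hh).le ContinuousLinearMap.norm_id_le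
    have e : bumpAt h i = fun z => (bump0 ∘ L) (z - ((5 * i * h, 0) : P)) :=
      funext (bm_bumpAt_eq h i)
    rw [e, iteratedFDeriv_comp_sub, L.iteratedFDeriv_comp_right contDiff_bump0 _ hk]
    refine (ContinuousMultilinearMap.norm_compContinuousLinearMap_le _ _).trans ?_
    rw [Finset.prod_const, Finset.card_univ, Fintype.card_fin, div_eq_mul_inv, ← inv_pow]
    exact mul_le_mul (hb k le_rfl _) (pow_le_pow_left₀ (norm_nonneg _) hL k) (by positivity) hC.le
  have e : chi h M n α = h ^ M • ∑ i : Fin n, fun z => if α i then bumpAt h i z else 0 := by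
    funext z; simp [chi]
  have hs : ∀ i : Fin n, ContDiff ℝ k fun z => if α i then bumpAt h i z else 0 := fun i =>
    (bm_contDiff_ite h i (α i)).of_le hk
  have hs' : ContDiff ℝ k (∑ i : Fin n, fun z => if α i then bumpAt h i z else 0) := by
    have := ContDiff.sum (s := Finset.univ) fun i _ => hs i
    convert this using 1
    funext z; simp
  rw [e, iteratedFDeriv_const_smul_apply hs'.contDiffAt, norm_smul,
    iteratedFDeriv_sum_apply fun i _ => (hs i).contDiffAt, Real.norm_eq_abs,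
    abs_of_pos (by positivity)]
  have h2 : ‖∑ i : Fin n, iteratedFDeriv ℝ k (fun z => if α i then bumpAt h i z else 0) z‖ ≤
      n * (C / h ^ k) := by
    refine (norm_sum_le _ _).trans ((Finset.sum_le_card_nsmul _ _ (C / h ^ k) fun i _ => ?_).trans
      (by simp))
    cases α i
    · simp only [Bool.false_eq_true, if_false, iteratedFDeriv_fun_zero, Pi.zero_apply, norm_zero]
      positivity
    · simpa using h1 i
  refine (mul_le_mul_of_nonneg_left h2 (by positivity)).trans (le_of_eq ?_)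
  ring

lemma bm_lap_eq_zero {f : P → ℝ} {z : P} (h : ∀ᶠ x in 𝓝 z, f x = 0) : lap f z = 0 := by
  have : ∀ v w : P, dd v (dd w f) z = 0 := fun v w =>
    dd_eq_zero_of_eventually (h.eventually_nhds.mono fun x hx => dd_eq_zero_of_eventually hx)
  rw [lap, this, this, add_zero]

lemma bm_lap_bumpAt {h : ℝ} (hh : 0 < h) (i : ℕ) {z : P}
    (hz : h < |z.1 - 5 * i * h| ∨ h < |z.2|) : lap (bumpAt h i) z = 0 := by
  refine bm_lap_eq_zero ?_
  have ho : IsOpen {z : P | h < |z.1 - 5 * i * h| ∨ h < |z.2|} :=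
    IsOpen.union (s₁ := {z : P | h < |z.1 - 5 * i * h|}) (s₂ := {z : P | h < |z.2|})
      (isOpen_lt continuous_const (by fun_prop)) (isOpen_lt continuous_const (by fun_prop))
  filter_upwards [ho.mem_nhds hz] with x hx
  exact bm_bumpAt_eq_zero hh i (hx.imp le_of_lt le_of_lt)

lemma bm_lap_sum {ι : Type*} [Fintype ι] (c : ι → ℝ) {F : ι → P → ℝ}
    (hF : ∀ i, ContDiff ℝ ∞ (F i)) (z : P) :
    lap (fun x => ∑ i, c i * F i x) z = ∑ i, c i * lap (F i) z := by
  have h1 : ∀ (v : P) {G : ι → P → ℝ}, (∀ i, ContDiff ℝ ∞ (G i)) →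
      dd v (fun x => ∑ i, c i * G i x) = fun x => ∑ i, c i * dd v (G i) x := by
    intro v G hG
    funext x
    have hd : ∀ i, DifferentiableAt ℝ (G i) x := fun i => (hG i).differentiable (by simp) x
    rw [dd_sum _ fun i _ => (hd i).const_mul _]
    exact Finset.sum_congr rfl fun i _ => dd_const_mul _ (hd i)
  simp only [lap, h1 _ hF, h1 _ fun i => contDiff_dd _ (hF i), mul_add, Finset.sum_add_distrib]

lemma bm_green {q b : P → ℝ} (hq : ContDiff ℝ ∞ q) (hb : ContDiff ℝ ∞ b)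
    (hc : HasCompactSupport b) (v : P) :
    Integrable (fun z => q z * dd v (dd v b) z) ∧
      ∫ z, q z * dd v (dd v b) z = ∫ z, dd v (dd v q) z * b z := by
  have hcd : ∀ {f : P → ℝ}, HasCompactSupport f → HasCompactSupport (dd v f) := fun hf =>
    (hf.fderiv ℝ).comp_left (g := fun L : P →L[ℝ] ℝ => L v) (by simp)
  have i1 : Integrable (fun z => q z * dd v (dd v b) z) :=
    (hq.continuous.mul (contDiff_dd v (contDiff_dd v hb)).continuous).integrable_of_hasCompactSupport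
      (hcd (hcd hc)).mul_left
  have i2 : Integrable (fun z => dd v (dd v q) z * b z) :=
    ((contDiff_dd v (contDiff_dd v hq)).continuous.mul hb.continuous).integrable_of_hasCompactSupport
      hc.mul_left
  refine ⟨i1, ?_⟩
  have h0 := integral_dd_eq_zero_of_compact (f := fun z => q z * dd v b z - dd v q z * b z)
    (((hq.mul (contDiff_dd v hb)).sub ((contDiff_dd v hq).mul hb)).of_le (by exact_mod_cast le_top))
    ((hcd hc).mul_left.sub hc.mul_left) v
  rw [← sub_eq_zero, ← integral_sub i1 i2, ← h0]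
  refine integral_congr_ae (Filter.Eventually.of_forall fun z => ?_)
  have d1 := hq.differentiable (by simp) z
  have d2 := hb.differentiable (by simp) z
  have d3 := (contDiff_dd v hq).differentiable (by simp) z
  have d4 := (contDiff_dd v hb).differentiable (by simp) z
  simp only
  rw [dd_sub (d1.fun_mul d4) (d3.fun_mul d2), dd_mul d1 d4, dd_mul d3 d2]
  ring

lemma bm_integral_bumpAt {h : ℝ} (hh : 0 < h) (i : ℕ) :
    ∫ z, bumpAt h i z = h ^ 2 * ∫ z, bump0 z := by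
  simp only [bm_bumpAt_eq]
  rw [integral_sub_right_eq_self (fun z : P => bump0 (h⁻¹ • z)), Measure.integral_comp_inv_smul]
  simp [abs_of_pos hh]

lemma bm_compact_bumpAt {h : ℝ} (hh : 0 < h) (i : ℕ) : HasCompactSupport (bumpAt h i) := by
  refine HasCompactSupport.intro (isCompact_closedBall ((5 * i * h, 0) : P) h) fun z hz => ?_
  refine bm_bumpAt_eq_zero hh i ?_
  rw [Metric.mem_closedBall, dist_eq_norm, norm_eq_max, not_le, lt_max_iff] at hz
  simpa using hz.imp le_of_lt le_of_lt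

/-- A test function which is `s²` on `|s| ≤ 2` and `0` on `|s| ≥ 3`, composed with a linear form
adapted to bump number `i`, sees only bump number `i`. -/
lemma test_lap_chi {h : ℝ} (hh : 0 < h) (M n : ℕ) (α β : Fin n → Bool) (i : Fin n)
    (hi : α i ≠ β i) {a : ℝ} (ha : |a| ≤ 1 / 10) {t : ℝ → ℝ} (ht : Continuous t)
    (ht1 : ∀ s, |s| ≤ 2 → t s = s ^ 2) (ht2 : ∀ s, 3 ≤ |s| → t s = 0) :
    |∫ z : P, t ((z.1 - 5 * i * h + a * z.2) / h) *
        lap (fun x => chi h M n β x - chi h M n α x) z| =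
      2 * (1 + a ^ 2) * h ^ M * ∫ z, bump0 z := by
  let c : Fin n → ℝ := fun j => h ^ M * ((if β j then 1 else 0) - if α j then 1 else 0)
  have e1' : (fun x => chi h M n β x - chi h M n α x) = fun x => ∑ j, c j * bumpAt h j x := by
    funext x
    simp only [chi, c, Finset.mul_sum, ← Finset.sum_sub_distrib]
    refine Finset.sum_congr rfl fun j _ => ?_
    cases α j <;> cases β j <;> simp
  have hc : |c i| = h ^ M := by
    have : |(if β i then (1 : ℝ) else 0) - if α i then 1 else 0| = 1 := by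
      revert hi; cases α i <;> cases β i <;> simp
    simp only [c, abs_mul, this, mul_one]
    exact abs_of_pos (by positivity)
  let q : P → ℝ := fun z => ((z.1 - 5 * i * h + a * z.2) / h) ^ 2
  have hq : ContDiff ℝ ∞ q := by
    simp only [q, div_eq_mul_inv]; fun_prop
  have e2' : ∀ z : P, t ((z.1 - 5 * i * h + a * z.2) / h) *
      lap (fun x => chi h M n β x - chi h M n α x) z =
      c i * (q z * ∂₁ (∂₁ (bumpAt h i)) z + q z * ∂₂ (∂₂ (bumpAt h i)) z) := by
    intro z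
    rw [e1', bm_lap_sum c fun j => bm_contDiff_bumpAt h j, Finset.mul_sum,
      Finset.sum_eq_single i _ (by simp), ← mul_add, ← lap]
    · by_cases hz : h < |z.1 - 5 * i * h| ∨ h < |z.2|
      · rw [bm_lap_bumpAt hh i hz]; simp
      · push Not at hz
        rw [ht1]
        · simp only [q]; ring
        · rw [abs_div, abs_of_pos hh, div_le_iff₀ hh]
          have := abs_add_le (z.1 - 5 * i * h) (a * z.2)
          rw [abs_mul] at this
          nlinarith [abs_nonneg a, abs_nonneg z.2]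
    · intro j _ hj
      by_cases hz : h < |z.1 - 5 * j * h| ∨ h < |z.2|
      · rw [bm_lap_bumpAt hh j hz]; simp
      · push Not at hz
        rw [ht2, zero_mul]
        rw [abs_div, abs_of_pos hh, le_div_iff₀ hh]
        have a1 : (1 : ℝ) ≤ |(j : ℝ) - i| := by
          have : (1 : ℤ) ≤ |((j : ℕ) : ℤ) - (i : ℕ)| :=
            Int.one_le_abs (sub_ne_zero.2 fun h => hj (Fin.ext (by exact_mod_cast h)))
          exact_mod_cast this
        have a2 : |5 * h * ((j : ℝ) - i)| ≤ |z.1 - 5 * i * h + a * z.2| + |z.1 - 5 * j * h| +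
            |a * z.2| := by
          have e : 5 * h * ((j : ℝ) - i) =
              (z.1 - 5 * i * h + a * z.2) - (z.1 - 5 * j * h) - a * z.2 := by ring
          rw [e]
          exact (abs_sub _ _).trans (add_le_add (abs_sub _ _) le_rfl)
        rw [abs_mul, abs_mul a, abs_of_pos (by positivity : 0 < 5 * h)] at a2
        nlinarith [abs_nonneg a, abs_nonneg z.2]
  obtain ⟨i1, j1⟩ := bm_green hq (bm_contDiff_bumpAt h i) (bm_compact_bumpAt hh i) e1
  obtain ⟨i2, j2⟩ := bm_green hq (bm_contDiff_bumpAt h i) (bm_compact_bumpAt hh i) e2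
  have hdd : ∀ v z : P, dd v (dd v q) z = 2 * ((v.1 + a * v.2) / h) ^ 2 := by
    intro v z
    have hl : ∀ x : P, dd v (fun z : P => (z.1 - 5 * i * h + a * z.2) / h) x =
        (v.1 + a * v.2) / h := fun x => by
      simp (disch := fun_prop) only [dd_div_const, dd_add, dd_sub, dd_const_mul, dd_fst, dd_snd,
        dd_const, mul_zero, sub_zero]
    have : dd v q = fun x : P => 2 * ((x.1 - 5 * i * h + a * x.2) / h) * ((v.1 + a * v.2) / h) := by
      funext x
      rw [dd_sq (by fun_prop), hl]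
    rw [this, dd_mul_const _ (by fun_prop), dd_const_mul _ (by fun_prop), hl]
    ring
  simp only [e2']
  rw [integral_const_mul, integral_add i1 i2, j1, j2]
  simp only [hdd]
  rw [integral_const_mul, integral_const_mul, bm_integral_bumpAt hh, abs_mul, hc, abs_of_nonneg]
  · simp; field_simp
  · have := integral_bump0_pos
    simp only [e1_fst, e1_snd, e2_fst, e2_snd]
    positivity

end Crest.Agent.R220
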