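import Crest.Agent.R220.Defs

/-! # Row 220: pigeonhole / covering lemmas -/

set_option autoImplicit false

open Set MeasureTheory Filter Topology
open scoped ContDiff

namespace Crest.Agent.R220

/-- Pigeonhole for bounded vectors: a large subfamily has `δ`-close coordinates. -/
theorem pigeon {α ι : Type*} [Fintype ι] (S : Finset α) (hS : S.Nonempty) (f : α → ι → ℝ)
    {B δ : ℝ} (hδ : 0 < δ) (hB : ∀ a ∈ S, ∀ i, |f a i| ≤ B) :
    ∃ S' ⊆ S, S'.Nonempty ∧ (S.card : ℝ) ≤ (2 * B / δ + 1) ^ Fintype.card ι * S'.card ∧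
      ∀ a ∈ S', ∀ b ∈ S', ∀ i, |f a i - f b i| ≤ δ := by
  classical
  rcases isEmpty_or_nonempty ι with hι | ⟨⟨i0⟩⟩
  · exact ⟨S, subset_rfl, hS, by simp, fun a _ b _ i => (hι.false i).elim⟩
  have hB0 : 0 ≤ B := by
    obtain ⟨a, ha⟩ := hS
    exact (abs_nonneg _).trans (hB a ha i0)
  set g : α → ι → ℕ := fun a i => ⌊(f a i + B) / δ⌋₊ with hg
  set N : ℕ := ⌊2 * B / δ⌋₊ + 1 with hN
  obtain ⟨t, ht, hmax⟩ := Finset.exists_max_image (S.image g)
    (fun t => (S.filter (fun a => g a = t)).card) (hS.image g)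
  refine ⟨S.filter (fun a => g a = t), Finset.filter_subset _ _, ?_, ?_, ?_⟩
  · obtain ⟨a, ha, rfl⟩ := Finset.mem_image.1 ht
    exact ⟨a, Finset.mem_filter.2 ⟨ha, rfl⟩⟩
  · have h1 := Finset.card_le_mul_card_image (f := g) S _ hmax
    have h2 : (S.image g).card ≤ N ^ Fintype.card ι := by
      have : S.image g ⊆ Fintype.piFinset (fun _ : ι => Finset.range N) := by
        intro u hu
        obtain ⟨a, ha, rfl⟩ := Finset.mem_image.1 hu
        refine Fintype.mem_piFinset.2 fun i => Finset.mem_range.2 (Nat.lt_succ_of_le ?_)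
        refine Nat.floor_le_floor ?_
        have := (abs_le.1 (hB a ha i)).2
        exact div_le_div_of_nonneg_right (by linarith) hδ.le
      refine (Finset.card_le_card this).trans ?_
      simp [Fintype.card_piFinset]
    have h3 : (N : ℝ) ≤ 2 * B / δ + 1 := by
      rw [hN]; push_cast
      have := Nat.floor_le (a := 2 * B / δ) (by positivity)
      linarith
    have h4 : (S.card : ℝ) ≤ ((S.filter (fun a => g a = t)).card : ℝ) * (N : ℝ) ^ Fintype.card ι := by
      exact_mod_cast h1.trans (Nat.mul_le_mul_left _ h2)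
    refine h4.trans ?_
    rw [mul_comm]
    gcongr
  · intro a ha b hb i
    obtain ⟨haS, ha⟩ := Finset.mem_filter.1 ha
    obtain ⟨hbS, hb⟩ := Finset.mem_filter.1 hb
    have hab : ⌊(f a i + B) / δ⌋₊ = ⌊(f b i + B) / δ⌋₊ := by
      have := congrFun (ha.trans hb.symm) i
      simpa [hg] using this
    have ha0 : 0 ≤ (f a i + B) / δ := div_nonneg (by linarith [(abs_le.1 (hB a haS i)).1]) hδ.le
    have hb0 : 0 ≤ (f b i + B) / δ := div_nonneg (by linarith [(abs_le.1 (hB b hbS i)).1]) hδ.le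
    have a1 := Nat.floor_le ha0
    have a2 := Nat.lt_floor_add_one ((f a i + B) / δ)
    have b1 := Nat.floor_le hb0
    have b2 := Nat.lt_floor_add_one ((f b i + B) / δ)
    rw [hab] at a1 a2
    have e : f a i - f b i = δ * ((f a i + B) / δ - (f b i + B) / δ) := by field_simp; ring
    rw [e, abs_mul, abs_of_pos hδ]
    have : |(f a i + B) / δ - (f b i + B) / δ| ≤ 1 := abs_le.2 ⟨by linarith, by linarith⟩
    nlinarith

/-- A grid of mesh `η` in `K`. -/
lemma exists_grid {η : ℝ} (h0 : 0 < η) (h1 : η ≤ 1) :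
    ∃ G : Finset P, (∀ x ∈ G, x ∈ K) ∧ (G.card : ℝ) ≤ 25 / η ^ 2 ∧
      ∀ z ∈ K, ∃ x ∈ G, ‖z - x‖ ≤ η := by
  classical
  set M : ℕ := ⌊(16 / 5) / η⌋₊ + 1 with hM
  set c : ℕ → ℝ := fun j => -(8 / 5) + j * η with hc
  have hcK : ∀ j ∈ Finset.range M, |c j| ≤ 8 / 5 := by
    intro j hj
    have hj' : j ≤ ⌊(16 / 5) / η⌋₊ := Nat.le_of_lt_succ (Finset.mem_range.1 hj)
    have h2 : (j : ℝ) ≤ (16 / 5) / η :=
      (Nat.cast_le.2 hj').trans (Nat.floor_le (by positivity))
    rw [le_div_iff₀ h0] at h2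
    have : 0 ≤ (j : ℝ) * η := by positivity
    exact abs_le.2 ⟨by simp only [hc]; linarith, by simp only [hc]; linarith⟩
  have hnear : ∀ t : ℝ, |t| ≤ 8 / 5 → ∃ j ∈ Finset.range M, |t - c j| ≤ η := by
    intro t ht
    obtain ⟨ht1, ht2⟩ := abs_le.1 ht
    refine ⟨⌊(t + 8 / 5) / η⌋₊, Finset.mem_range.2 (Nat.lt_succ_of_le (Nat.floor_le_floor ?_)), ?_⟩
    · exact div_le_div_of_nonneg_right (by linarith) h0.le
    · have a1 := Nat.floor_le (a := (t + 8 / 5) / η) (div_nonneg (by linarith) h0.le)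
      have a2 := Nat.lt_floor_add_one ((t + 8 / 5) / η)
      rw [le_div_iff₀ h0] at a1
      rw [div_lt_iff₀ h0] at a2
      simp only [hc]
      exact abs_le.2 ⟨by linarith, by linarith⟩
  refine ⟨(Finset.range M ×ˢ Finset.range M).image (fun p => (c p.1, c p.2)), ?_, ?_, ?_⟩
  · intro x hx
    obtain ⟨p, hp, rfl⟩ := Finset.mem_image.1 hx
    obtain ⟨hp1, hp2⟩ := Finset.mem_product.1 hp
    exact mem_K_iff.2 ⟨hcK _ hp1, hcK _ hp2⟩
  · have h2 : (M : ℝ) ≤ 5 / η := by
      rw [hM]; push_cast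
      have := Nat.floor_le (a := (16 / 5) / η) (by positivity)
      have h3 : 1 ≤ 1 / η := by rw [le_div_iff₀ h0]; linarith
      have h4 : 5 / η = (16 / 5) / η + (9 / 5) * (1 / η) := by ring
      linarith
    have h3 : (((Finset.range M ×ˢ Finset.range M).image (fun p => (c p.1, c p.2))).card : ℝ)
        ≤ (M : ℝ) * M := by
      have := Finset.card_image_le (s := Finset.range M ×ˢ Finset.range M)
        (f := fun p : ℕ × ℕ => (c p.1, c p.2))
      rw [Finset.card_product, Finset.card_range] at this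
      exact_mod_cast this
    refine h3.trans ?_
    calc (M : ℝ) * M ≤ (5 / η) * (5 / η) := by gcongr
      _ = 25 / η ^ 2 := by ring
  · intro z hz
    obtain ⟨hz1, hz2⟩ := mem_K_iff.1 hz
    obtain ⟨j, hj, hj'⟩ := hnear _ hz1
    obtain ⟨k, hk, hk'⟩ := hnear _ hz2
    refine ⟨(c j, c k), Finset.mem_image.2 ⟨(j, k), Finset.mem_product.2 ⟨hj, hk⟩, rfl⟩, ?_⟩
    rw [norm_eq_max]
    exact max_le hj' hk'

lemma pow_le_exp_of_le {x y : ℝ} (hx : 0 ≤ x) (hxy : x ≤ Real.exp y) (n : ℕ) :
    x ^ n ≤ Real.exp (n * y) := by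
  rw [Real.exp_nat_mul]; gcongr

/-- Sup-norm covering for finitely many uniformly Lipschitz functions. -/
theorem supCover (ι : Type) [Fintype ι] (B : ℝ) : ∃ C : ℝ, 0 < C ∧ ∀ τ : ℝ, 0 < τ → τ ≤ 1 →
    ∀ {α : Type} (S : Finset α), S.Nonempty → ∀ f : α → ι → P → ℝ,
      (∀ a ∈ S, ∀ i, ∀ z ∈ O, DifferentiableAt ℝ (f a i) z ∧ |f a i z| ≤ B ∧
        |∂₁ (f a i) z| ≤ B ∧ |∂₂ (f a i) z| ≤ B) →
      ∃ S' ⊆ S, S'.Nonempty ∧ (S.card : ℝ) ≤ Real.exp (C / τ ^ 3) * S'.card ∧
        ∀ a ∈ S', ∀ b ∈ S', ∀ i, ∀ z ∈ K, |f a i z - f b i z| ≤ τ := by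
  classical
  set A : ℝ := |B| + 1 with hA
  have hA1 : 1 ≤ A := by have := abs_nonneg B; linarith
  have hBA : B ≤ A := by have := le_abs_self B; linarith
  refine ⟨Fintype.card ι * (6400 * A ^ 3) + 1, by positivity, ?_⟩
  intro τ hτ hτ1 α S hS f hf
  have hη0 : 0 < τ / (8 * A) := by positivity
  have hη1 : τ / (8 * A) ≤ 1 := by rw [div_le_iff₀ (by positivity)]; linarith
  obtain ⟨G, hGK, hGc, hG⟩ := exists_grid hη0 hη1
  obtain ⟨S', hS'S, hS', hcard, hclose⟩ := pigeon (ι := ι × G) S hS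
    (fun a p => f a p.1 p.2) (B := A) (δ := τ / 2) (by positivity)
    (fun a ha p => (hf a ha p.1 p.2 (K_subset_O (hGK _ p.2.2))).2.1.trans hBA)
  refine ⟨S', hS'S, hS', hcard.trans ?_, ?_⟩
  · refine mul_le_mul_of_nonneg_right ?_ (Nat.cast_nonneg _)
    have h1 : 2 * A / (τ / 2) + 1 ≤ Real.exp (4 * A / τ) := by
      have := Real.add_one_le_exp (4 * A / τ)
      have e : 2 * A / (τ / 2) = 4 * A / τ := by field_simp; ring
      linarith
    refine (pow_le_exp_of_le (by positivity) h1 _).trans (Real.exp_le_exp.2 ?_)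
    rw [Fintype.card_prod, Fintype.card_coe]
    push_cast
    calc (Fintype.card ι : ℝ) * G.card * (4 * A / τ)
        ≤ Fintype.card ι * (25 / (τ / (8 * A)) ^ 2) * (4 * A / τ) := by gcongr
      _ = Fintype.card ι * (6400 * A ^ 3) / τ ^ 3 := by field_simp; ring
      _ ≤ (Fintype.card ι * (6400 * A ^ 3) + 1) / τ ^ 3 := by gcongr; linarith
  · intro a ha b hb i z hz
    obtain ⟨x, hx, hzx⟩ := hG z hz
    have key : ∀ c ∈ S', |f c i z - f c i x| ≤ τ / 4 := by
      intro c hc
      have hc' := hf c (hS'S hc) i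
      have := abs_sub_le_of_dd_bound (f := f c i) (B := A) (fun w hw => (hc' w hw).1)
        (fun w hw => (hc' w hw).2.2.1.trans hBA) (fun w hw => (hc' w hw).2.2.2.trans hBA)
        (K_subset_O (hGK x hx)) (K_subset_O hz)
      refine this.trans ?_
      calc 2 * A * ‖z - x‖ ≤ 2 * A * (τ / (8 * A)) := by gcongr
        _ = τ / 4 := by field_simp; ring
    have h1 := abs_le.1 (key a ha)
    have h2 := abs_le.1 (key b hb)
    have h3 := abs_le.1 (hclose a ha b hb (i, ⟨x, hx⟩))
    simp only at h3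
    exact abs_le.2 ⟨by linarith [h1.1, h2.2, h3.1], by linarith [h1.2, h2.1, h3.2]⟩

/-- Cauchy–Schwarz on a set of finite measure. -/
lemma sq_setIntegral_le {X : Type*} [MeasurableSpace X] {μ : Measure X} {C : Set X}
    (hC : μ C ≠ ⊤) (hm : 0 < μ.real C) {u : X → ℝ} (hu : IntegrableOn u C μ)
    (hu2 : IntegrableOn (fun x => u x ^ 2) C μ) :
    (∫ x in C, u x ∂μ) ^ 2 ≤ μ.real C * ∫ x in C, u x ^ 2 ∂μ := by
  set I := ∫ x in C, u x ∂μ with hI
  set m := I / μ.real C with hmdef
  have hc : IntegrableOn (fun _ : X => m ^ 2) C μ := integrableOn_const hC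
  have h1 : ∫ x in C, 2 * m * u x ∂μ ≤ ∫ x in C, (u x ^ 2 + m ^ 2) ∂μ :=
    integral_mono (hu.const_mul _) (hu2.add hc) fun x => by nlinarith [sq_nonneg (u x - m)]
  rw [integral_const_mul, integral_add hu2 hc, setIntegral_const, smul_eq_mul, ← hI] at h1
  have e : I = m * μ.real C := by rw [hmdef]; field_simp
  rw [e] at h1 ⊢
  nlinarith

/-- Integrate a pointwise bound by an average and swap the integrals. -/
lemma swap_le {X Y : Type*} [TopologicalSpace X] [TopologicalSpace Y] [T2Space X] [T2Space Y]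
    [SecondCountableTopology X] [SecondCountableTopology Y]
    [MeasurableSpace X] [MeasurableSpace Y] [BorelSpace X] [BorelSpace Y]
    {μ : Measure X} {ν : Measure Y} [SFinite μ] [SFinite ν]
    [IsFiniteMeasureOnCompacts μ] [IsFiniteMeasureOnCompacts ν]
    {A : Set X} {C : Set Y} (hA : IsCompact A) (hC : IsCompact C)
    {F : X → Y → ℝ} (hF : Continuous (Function.uncurry F)) {G : X → ℝ} (hG : IntegrableOn G A μ)
    {c M : ℝ} (h1 : ∀ x ∈ A, G x ≤ c + ∫ y in C, F x y ∂ν) (h2 : ∀ y ∈ C, ∫ x in A, F x y ∂μ ≤ M) :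
    ∫ x in A, G x ∂μ ≤ μ.real A * c + ν.real C * M := by
  have hint : Integrable (Function.uncurry F) ((μ.restrict A).prod (ν.restrict C)) := by
    rw [Measure.prod_restrict]
    exact hF.continuousOn.integrableOn_compact (hA.prod hC)
  have hc : IntegrableOn (fun _ : X => c) A μ := integrableOn_const hA.measure_lt_top.ne
  have hl : IntegrableOn (fun x => ∫ y in C, F x y ∂ν) A μ := hint.integral_prod_left
  have hr : IntegrableOn (fun y => ∫ x in A, F x y ∂μ) C ν := hint.integral_prod_right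
  calc ∫ x in A, G x ∂μ ≤ ∫ x in A, (c + ∫ y in C, F x y ∂ν) ∂μ :=
        setIntegral_mono_on hG (hc.add hl) hA.measurableSet h1
    _ = μ.real A * c + ∫ y in C, (∫ x in A, F x y ∂μ) ∂ν := by
        rw [integral_add hc hl, setIntegral_const, smul_eq_mul, integral_integral_swap hint]
    _ ≤ μ.real A * c + ∫ y in C, M ∂ν :=
        add_le_add le_rfl (setIntegral_mono_on hr (integrableOn_const hC.measure_lt_top.ne)
          hC.measurableSet h2)
    _ = μ.real A * c + ν.real C * M := by rw [setIntegral_const, smul_eq_mul]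

lemma volume_real_closedBall_P (x : P) {s : ℝ} (hs : 0 ≤ s) :
    (volume : Measure P).real (Metric.closedBall x s) = 4 * s ^ 2 := by
  have : Metric.closedBall x s = Metric.closedBall x.1 s ×ˢ Metric.closedBall x.2 s :=
    (closedBall_prod_same x.1 x.2 s).symm
  rw [this, Measure.real, Measure.volume_eq_prod, Measure.prod_prod, Real.volume_closedBall,
    Real.volume_closedBall, ← ENNReal.ofReal_mul (by positivity),
    ENNReal.toReal_ofReal (by positivity)]
  ring

/-- Translation estimate. -/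
lemma translation_est {h : P → ℝ} (hh : ContDiff ℝ 1 h) (hc : HasCompactSupport h) (v : P) :
    ∫ x in K, (h (x + v) - h x) ^ 2 ≤ 2 * ‖v‖ ^ 2 * ∫ x, (∂₁ h x ^ 2 + ∂₂ h x ^ 2) := by
  set E : P → ℝ := fun x => ∂₁ h x ^ 2 + ∂₂ h x ^ 2 with hE
  have hd1 := continuous_dd e1 hh
  have hd2 := continuous_dd e2 hh
  have hdv := continuous_dd v hh
  have hcont := hh.continuous
  have hEc : Continuous E := by simp only [hE]; fun_prop
  have hcs : ∀ w, HasCompactSupport (dd w h) := fun w =>
    (hc.fderiv ℝ).comp_left (g := fun L : P →L[ℝ] ℝ => L w) (by simp)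
  have hEs : HasCompactSupport E :=
    ((hcs e1).comp_left (g := fun t : ℝ => t ^ 2) (by simp)).add
      ((hcs e2).comp_left (g := fun t : ℝ => t ^ 2) (by simp))
  have hEi : Integrable E := hEc.integrable_of_hasCompactSupport hEs
  have hE0 : ∀ x, 0 ≤ E x := fun x => by simp only [hE]; positivity
  have := swap_le (μ := (volume : Measure P)) (ν := (volume : Measure ℝ)) isCompact_K
    (isCompact_Icc (a := (0 : ℝ)) (b := 1)) (F := fun x t => 2 * ‖v‖ ^ 2 * E (x + t • v))
    (by unfold Function.uncurry; fun_prop) (G := fun x => (h (x + v) - h x) ^ 2)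
    (Continuous.continuousOn (by fun_prop) |>.integrableOn_compact isCompact_K) (c := 0)
    (M := 2 * ‖v‖ ^ 2 * ∫ x, E x) ?_ ?_
  · simpa using this
  · intro x _
    have hder : ∀ t : ℝ, HasDerivAt (fun t : ℝ => h (x + t • v)) (dd v h (x + t • v)) t := by
      intro t
      have h1 : HasDerivAt (fun t : ℝ => x + t • v) v t := by
        simpa using ((hasDerivAt_id t).smul_const v).const_add x
      exact (hh.differentiable (by simp) (x + t • v)).hasFDerivAt.comp_hasDerivAt t h1
    have hftc := intervalIntegral.integral_eq_sub_of_hasDerivAt (a := 0) (b := 1)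
      (fun t _ => hder t) (Continuous.intervalIntegrable (by fun_prop) _ _)
    simp only [one_smul, zero_smul, add_zero] at hftc
    rw [← hftc, zero_add, intervalIntegral.integral_of_le zero_le_one,
      ← integral_Icc_eq_integral_Ioc]
    have hcs := sq_setIntegral_le (μ := (volume : Measure ℝ)) (C := Icc (0 : ℝ) 1) (by simp)
      (by simp) (u := fun t => dd v h (x + t • v))
      (Continuous.continuousOn (by fun_prop) |>.integrableOn_compact isCompact_Icc)
      (Continuous.continuousOn (by fun_prop) |>.integrableOn_compact isCompact_Icc)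
    refine hcs.trans ?_
    have : (volume : Measure ℝ).real (Icc (0 : ℝ) 1) = 1 := by simp
    rw [this, one_mul]
    refine setIntegral_mono_on
      (Continuous.continuousOn (by fun_prop) |>.integrableOn_compact isCompact_Icc)
      (Continuous.continuousOn (by fun_prop) |>.integrableOn_compact isCompact_Icc)
      measurableSet_Icc fun t _ => ?_
    simp only [hE]
    rw [dd_eq]
    set p := ∂₁ h (x + t • v)
    set q := ∂₂ h (x + t • v)
    have a1 : v.1 ^ 2 ≤ ‖v‖ ^ 2 := by
      rw [← sq_abs]; exact pow_le_pow_left₀ (abs_nonneg _) (abs_fst_le_norm v) 2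
    have a2 : v.2 ^ 2 ≤ ‖v‖ ^ 2 := by
      rw [← sq_abs]; exact pow_le_pow_left₀ (abs_nonneg _) (abs_snd_le_norm v) 2
    nlinarith [sq_nonneg (v.1 * p - v.2 * q), mul_le_mul_of_nonneg_right a1 (sq_nonneg p),
      mul_le_mul_of_nonneg_right a2 (sq_nonneg q)]
  · intro t _
    rw [integral_const_mul]
    refine mul_le_mul_of_nonneg_left ?_ (by positivity)
    rw [← integral_add_right_eq_self E (t • v)]
    exact setIntegral_le_integral (hEi.comp_add_right _) (Eventually.of_forall fun x => hE0 _)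

/-- Poincaré-type estimate from small ball integrals on a grid. -/
lemma l2_small {h : P → ℝ} (hh : ContDiff ℝ 1 h) (hc : HasCompactSupport h) {s r : ℝ}
    (hs : 0 < s) (hE : ∫ x, (∂₁ h x ^ 2 + ∂₂ h x ^ 2) ≤ 4 * r ^ 2)
    (hG : ∀ z ∈ K, ∃ x, ‖z - x‖ ≤ s ∧ |∫ y in Metric.closedBall x s, h y| ≤ 4 * s ^ 3 * r) :
    ∫ z in K, h z ^ 2 ≤ 400 * s ^ 2 * r ^ 2 := by
  have hcont := hh.continuous
  have := swap_le (μ := (volume : Measure P)) (ν := (volume : Measure P)) isCompact_K
    (isCompact_closedBall (0 : P) (2 * s)) (F := fun x v => (1 / (2 * s ^ 2)) * (h (x + v) - h x) ^ 2)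
    (by unfold Function.uncurry; fun_prop) (G := fun x => h x ^ 2)
    (Continuous.continuousOn (by fun_prop) |>.integrableOn_compact isCompact_K)
    (c := 2 * s ^ 2 * r ^ 2) (M := 16 * r ^ 2) ?_ ?_
  · refine this.trans ?_
    rw [volume_real_closedBall_P _ (by positivity), Measure.real, volume_real_K]
    have : 0 ≤ s ^ 2 * r ^ 2 := by positivity
    nlinarith
  · intro z hz
    obtain ⟨x, hzx, hJ⟩ := hG z hz
    rw [integral_const_mul]
    set Q := ∫ v in Metric.closedBall (0 : P) (2 * s), (h (z + v) - h z) ^ 2 with hQ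
    set J := ∫ y in Metric.closedBall x s, h y with hJdef
    have hvol := volume_real_closedBall_P x hs.le
    have hcb := isCompact_closedBall x s
    have hcs := sq_setIntegral_le (μ := (volume : Measure P)) (C := Metric.closedBall x s)
      hcb.measure_lt_top.ne (by rw [hvol]; positivity) (u := fun y => h y - h z)
      (Continuous.continuousOn (by fun_prop) |>.integrableOn_compact hcb)
      (Continuous.continuousOn (by fun_prop) |>.integrableOn_compact hcb)
    rw [integral_sub (hcont.continuousOn.integrableOn_compact hcb)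
      (integrableOn_const hcb.measure_lt_top.ne), setIntegral_const, smul_eq_mul, hvol,
      ← hJdef] at hcs
    have hQ' : ∫ y in Metric.closedBall x s, (h y - h z) ^ 2 ≤ Q := by
      have e : Q = ∫ y in Metric.closedBall z (2 * s), (h y - h z) ^ 2 := by
        have hp := (measurePreserving_add_left (volume : Measure P) z).setIntegral_preimage_emb
          (MeasurableEquiv.addLeft z).measurableEmbedding (fun y => (h y - h z) ^ 2)
          (Metric.closedBall z (2 * s))
        rw [← hp, hQ]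
        congr 2
        ext v
        simp
      rw [e]
      refine setIntegral_mono_set
        (Continuous.continuousOn (by fun_prop) |>.integrableOn_compact (isCompact_closedBall _ _))
        (Eventually.of_forall fun y => sq_nonneg _) (LE.le.eventuallyLE ?_)
      refine Metric.closedBall_subset_closedBall' ?_
      rw [dist_comm, dist_eq_norm]; linarith
    have hJ2 : J ^ 2 ≤ (4 * s ^ 3 * r) ^ 2 := by
      rw [← sq_abs J]; exact pow_le_pow_left₀ (abs_nonneg _) hJ 2
    have hD : (J - 4 * s ^ 2 * h z) ^ 2 ≤ 4 * s ^ 2 * Q :=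
      hcs.trans (mul_le_mul_of_nonneg_left hQ' (by positivity))
    have h16 : 16 * s ^ 4 * h z ^ 2 ≤ 32 * s ^ 6 * r ^ 2 + 8 * s ^ 2 * Q := by
      nlinarith [sq_nonneg (2 * J - 4 * s ^ 2 * h z)]
    have e : 2 * s ^ 2 * r ^ 2 + 1 / (2 * s ^ 2) * Q
        = (32 * s ^ 6 * r ^ 2 + 8 * s ^ 2 * Q) / (16 * s ^ 4) := by field_simp; ring
    rw [e, le_div_iff₀ (by positivity)]
    linarith
  · intro v hv
    rw [integral_const_mul]
    have hv' : ‖v‖ ≤ 2 * s := by simpa using hv
    have h0 : 0 ≤ ∫ x, (∂₁ h x ^ 2 + ∂₂ h x ^ 2) := integral_nonneg fun x => by positivity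
    calc 1 / (2 * s ^ 2) * ∫ x in K, (h (x + v) - h x) ^ 2
        ≤ 1 / (2 * s ^ 2) * (2 * ‖v‖ ^ 2 * ∫ x, (∂₁ h x ^ 2 + ∂₂ h x ^ 2)) :=
          mul_le_mul_of_nonneg_left (translation_est hh hc v) (by positivity)
      _ ≤ 1 / (2 * s ^ 2) * (2 * (2 * s) ^ 2 * (4 * r ^ 2)) := by gcongr
      _ = 16 * r ^ 2 := by field_simp; ring

/-- Extension by zero of an `H¹`-bounded function. -/
lemma exists_ext {f : P → ℝ} {r : ℝ} (h1 : ContDiffOn ℝ 1 f O) (h0 : ∀ z ∈ O, z ∉ K → f z = 0)
    (hr : ∫ z in K, (f z ^ 2 + ∂₁ f z ^ 2 + ∂₂ f z ^ 2) ≤ r ^ 2) :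
    ∃ g : P → ℝ, ContDiff ℝ 1 g ∧ HasCompactSupport g ∧ (∀ z ∈ K, g z = f z) ∧
      ∫ z, g z ^ 2 ≤ r ^ 2 ∧ ∫ z, (∂₁ g z ^ 2 + ∂₂ g z ^ 2) ≤ r ^ 2 := by
  obtain ⟨g1, g2, g3⟩ := contDiff_indicator isOpen_O isCompact_K K_subset_O h1 h0
  set g := O.indicator f with hg
  have hgf : ∀ z ∈ K, g z = f z := fun z hz => (g3 z (K_subset_O hz)).self_of_nhds
  have hdd : ∀ v, ∀ z ∈ K, dd v g z = dd v f z := fun v z hz => dd_congr (g3 z (K_subset_O hz))
  have hdd0 : ∀ v z, z ∉ K → dd v g z = 0 := fun v z hz => by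
    refine dd_eq_zero_of_eventually ?_
    filter_upwards [isCompact_K.isClosed.isOpen_compl.mem_nhds hz] with x hx using g2 x hx
  have hr' : ∫ z in K, (g z ^ 2 + ∂₁ g z ^ 2 + ∂₂ g z ^ 2) ≤ r ^ 2 := by
    refine le_trans (le_of_eq ?_) hr
    refine setIntegral_congr_fun measurableSet_K fun z hz => ?_
    simp only [hgf z hz, hdd _ z hz]
  have c0 := g1.continuous
  have c1 := continuous_dd e1 g1
  have c2 := continuous_dd e2 g1
  refine ⟨g, g1, HasCompactSupport.intro isCompact_K g2, hgf, ?_, ?_⟩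
  · rw [← setIntegral_eq_integral_of_forall_compl_eq_zero (s := K)
      (fun z hz => by simp [g2 z hz])]
    refine le_trans (setIntegral_mono_on
      (Continuous.continuousOn (by fun_prop) |>.integrableOn_compact isCompact_K)
      (Continuous.continuousOn (by fun_prop) |>.integrableOn_compact isCompact_K)
      measurableSet_K fun z _ => ?_) hr'
    nlinarith [sq_nonneg (∂₁ g z), sq_nonneg (∂₂ g z)]
  · rw [← setIntegral_eq_integral_of_forall_compl_eq_zero (s := K)
      (fun z hz => by simp [hdd0 _ z hz])]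
    refine le_trans (setIntegral_mono_on
      (Continuous.continuousOn (by fun_prop) |>.integrableOn_compact isCompact_K)
      (Continuous.continuousOn (by fun_prop) |>.integrableOn_compact isCompact_K)
      measurableSet_K fun z _ => ?_) hr'
    nlinarith [sq_nonneg (g z)]

/-- Quantitative Rellich: an `H¹` ball of radius `r` is covered by `exp (C / λ³)` sets of
`L²` diameter `λ r`. -/
theorem l2Cover (ι : Type) [Fintype ι] : ∃ C : ℝ, 0 < C ∧ ∀ lam r : ℝ, 0 < lam → lam ≤ 1 → 0 < r →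
    ∀ {α : Type} (S : Finset α), S.Nonempty → ∀ f : α → ι → P → ℝ,
      (∀ a ∈ S, ∀ i, ContDiffOn ℝ 1 (f a i) O ∧ (∀ z ∈ O, z ∉ K → f a i z = 0) ∧
        ∫ z in K, (f a i z ^ 2 + ∂₁ (f a i) z ^ 2 + ∂₂ (f a i) z ^ 2) ≤ r ^ 2) →
      ∃ S' ⊆ S, S'.Nonempty ∧ (S.card : ℝ) ≤ Real.exp (C / lam ^ 3) * S'.card ∧
        ∀ a ∈ S', ∀ b ∈ S', ∀ i, ∫ z in K, (f a i z - f b i z) ^ 2 ≤ lam ^ 2 * r ^ 2 := by
  classical
  refine ⟨Fintype.card ι * 400000 + 1, by positivity, ?_⟩
  intro lam r hl hl1 hr α S hS f hf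
  have hex : ∀ a i, ∃ g : P → ℝ, a ∈ S → (ContDiff ℝ 1 g ∧ HasCompactSupport g ∧
      (∀ z ∈ K, g z = f a i z) ∧ ∫ z, g z ^ 2 ≤ r ^ 2 ∧
      ∫ z, (∂₁ g z ^ 2 + ∂₂ g z ^ 2) ≤ r ^ 2) := by
    intro a i
    by_cases ha : a ∈ S
    · obtain ⟨g, hg⟩ := exists_ext (hf a ha i).1 (hf a ha i).2.1 (hf a ha i).2.2
      exact ⟨g, fun _ => hg⟩
    · exact ⟨0, fun h => (ha h).elim⟩
  choose g hg using hex
  set s : ℝ := lam / 20 with hsdef
  have hs : 0 < s := by positivity
  have hs1 : s ≤ 1 := by rw [hsdef]; linarith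
  obtain ⟨G, hGK, hGc, hG⟩ := exists_grid hs hs1
  obtain ⟨S', hS'S, hS', hcard, hclose⟩ := pigeon (ι := ι × G) S hS
    (fun a p => ∫ y in Metric.closedBall (p.2 : P) s, g a p.1 y) (B := 2 * s * r)
    (δ := 4 * s ^ 3 * r) (by positivity) (by
      intro a ha p
      obtain ⟨g1, g2, -, g4, -⟩ := hg a p.1 ha
      have c0 := g1.continuous
      have hcb := isCompact_closedBall (p.2 : P) s
      have hvol := volume_real_closedBall_P (p.2 : P) hs.le
      have hcs := sq_setIntegral_le (μ := (volume : Measure P)) (C := Metric.closedBall (p.2 : P) s)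
        hcb.measure_lt_top.ne (by rw [hvol]; positivity) (u := g a p.1)
        (c0.continuousOn.integrableOn_compact hcb)
        (Continuous.continuousOn (by fun_prop) |>.integrableOn_compact hcb)
      have hi : Integrable fun z => g a p.1 z ^ 2 :=
        Continuous.integrable_of_hasCompactSupport (by fun_prop)
          (g2.comp_left (g := fun t : ℝ => t ^ 2) (by simp))
      have h2 : ∫ y in Metric.closedBall (p.2 : P) s, g a p.1 y ^ 2 ≤ r ^ 2 :=
        (setIntegral_le_integral hi (Eventually.of_forall fun x => sq_nonneg _)).trans g4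
      rw [hvol] at hcs
      refine abs_le_of_sq_le_sq' ?_ (by positivity) |> abs_le.2
      refine hcs.trans ?_
      calc 4 * s ^ 2 * ∫ y in Metric.closedBall (p.2 : P) s, g a p.1 y ^ 2
          ≤ 4 * s ^ 2 * r ^ 2 := by gcongr
        _ = (2 * s * r) ^ 2 := by ring)
  refine ⟨S', hS'S, hS', hcard.trans ?_, ?_⟩
  · refine mul_le_mul_of_nonneg_right ?_ (Nat.cast_nonneg _)
    have h1 : 2 * (2 * s * r) / (4 * s ^ 3 * r) + 1 ≤ Real.exp (2 / s) := by
      have h2 := Real.add_one_le_exp (1 / s)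
      have e : 2 * (2 * s * r) / (4 * s ^ 3 * r) = (1 / s) ^ 2 := by field_simp; ring
      have e2 : Real.exp (2 / s) = Real.exp (1 / s) ^ 2 := by
        rw [← Real.exp_nat_mul]; congr 1; push_cast; ring
      have h3 : 0 < 1 / s := by positivity
      rw [e, e2]
      nlinarith
    refine (pow_le_exp_of_le (by positivity) h1 _).trans (Real.exp_le_exp.2 ?_)
    rw [Fintype.card_prod, Fintype.card_coe]
    push_cast
    calc (Fintype.card ι : ℝ) * G.card * (2 / s)
        ≤ Fintype.card ι * (25 / s ^ 2) * (2 / s) := by gcongr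
      _ = Fintype.card ι * 400000 / lam ^ 3 := by rw [hsdef]; field_simp; ring
      _ ≤ (Fintype.card ι * 400000 + 1) / lam ^ 3 := by gcongr; linarith
  · intro a ha b hb i
    obtain ⟨a1, a2, a3, -, a5⟩ := hg a i (hS'S ha)
    obtain ⟨b1, b2, b3, -, b5⟩ := hg b i (hS'S hb)
    have key := l2_small (h := fun z => g a i z - g b i z) (a1.sub b1) (a2.sub b2) (r := r) hs ?_ ?_
    · calc ∫ z in K, (f a i z - f b i z) ^ 2 = ∫ z in K, (g a i z - g b i z) ^ 2 :=
            setIntegral_congr_fun measurableSet_K fun z hz => by simp only [a3 z hz, b3 z hz]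
        _ ≤ 400 * s ^ 2 * r ^ 2 := key
        _ = lam ^ 2 * r ^ 2 := by rw [hsdef]; ring
    · have hint : ∀ u : P → ℝ, ContDiff ℝ 1 u → HasCompactSupport u →
          Integrable fun x => ∂₁ u x ^ 2 + ∂₂ u x ^ 2 := by
        intro u hu hc
        have hd1 := continuous_dd e1 hu
        have hd2 := continuous_dd e2 hu
        have hcs : ∀ w, HasCompactSupport (dd w u) := fun w =>
          (hc.fderiv ℝ).comp_left (g := fun L : P →L[ℝ] ℝ => L w) (by simp)
        exact Continuous.integrable_of_hasCompactSupport (by fun_prop)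
          (((hcs e1).comp_left (g := fun t : ℝ => t ^ 2) (by simp)).add
            ((hcs e2).comp_left (g := fun t : ℝ => t ^ 2) (by simp)))
      have ia := hint _ a1 a2
      have ib := hint _ b1 b2
      calc ∫ x, (∂₁ (fun z => g a i z - g b i z) x ^ 2 + ∂₂ (fun z => g a i z - g b i z) x ^ 2)
          ≤ ∫ x, (2 * (∂₁ (g a i) x ^ 2 + ∂₂ (g a i) x ^ 2)
              + 2 * (∂₁ (g b i) x ^ 2 + ∂₂ (g b i) x ^ 2)) := by
            refine integral_mono (hint _ (a1.sub b1) (a2.sub b2))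
              ((ia.const_mul 2).add (ib.const_mul 2)) fun x => ?_
            have da := a1.differentiable (by simp) x
            have db := b1.differentiable (by simp) x
            simp only [dd_sub da db]
            nlinarith [sq_nonneg (∂₁ (g a i) x + ∂₁ (g b i) x),
              sq_nonneg (∂₂ (g a i) x + ∂₂ (g b i) x)]
        _ ≤ 4 * r ^ 2 := by
            rw [integral_add (ia.const_mul 2) (ib.const_mul 2), integral_const_mul,
              integral_const_mul]
            linarith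
    · intro z hz
      obtain ⟨x, hx, hzx⟩ := hG z hz
      refine ⟨x, hzx, ?_⟩
      have hcb := isCompact_closedBall x s
      rw [integral_sub (a1.continuous.continuousOn.integrableOn_compact hcb)
        (b1.continuous.continuousOn.integrableOn_compact hcb)]
      exact hclose a ha b hb (i, ⟨x, hx⟩)

end Crest.Agent.R220
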