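import Crest.Agent.R220.Bd

/-! # Row 220: the real inequalities behind the multiplier estimate -/

set_option autoImplicit false

namespace Crest.Agent.R220

/-- pointwise data for the main multiplier estimate -/
structure PtData (ε x y s ϱ ϱ1 ϱD μ μ1 μD κ κ1 κD ξ1 ξD : ℝ) : Prop where
  hε : 0 < ε
  hε1 : ε ≤ 1 / 1000
  hx : |x| ≤ 8 / 5
  hy : |y| ≤ 8 / 5
  hs : s = 1 ∨ s = -1
  hsx : -(2 / 1000) ≤ s * x
  hϱ : |ϱ - 1| ≤ 1 / 1000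
  hϱ1 : |ϱ1| ≤ 1 / 1000
  hϱD : |ϱD + 2 * μ1 * ϱ| ≤ ε / 1000
  hμ : |μ| ≤ 1 / 1000
  hμ1 : |μ1| ≤ 1 / 1000
  hμD : |μD - κ1| ≤ ε ^ 2 / 1000
  hξ1 : |ξ1 - 1| ≤ 1 / 1000
  hξD : |ξD| ≤ |κ|
  hκ : |κ - ε ^ 2 * (x ^ 2 + y ^ 2 - 1)| ≤ ε ^ 2 / 1000 * |x ^ 2 + y ^ 2 - 1|
  hκ1 : |κ1 - 2 * ε ^ 2 * x| ≤ ε ^ 2 / 1000
  hκD : |κD - 2 * ε ^ 2 * y| ≤ ε ^ 2 / 1000

namespace PtData
variable {ε x y s ϱ ϱ1 ϱD μ μ1 μD κ κ1 κD ξ1 ξD : ℝ}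

lemma abs_s (h : PtData ε x y s ϱ ϱ1 ϱD μ μ1 μD κ κ1 κD ξ1 ξD) : |s| ≤ 1 := by
  rcases h.hs with rfl | rfl <;> simp
lemma s_sq (h : PtData ε x y s ϱ ϱ1 ϱD μ μ1 μD κ κ1 κD ξ1 ξD) : s * s = 1 := by
  rcases h.hs with rfl | rfl <;> simp
lemma ε2 (h : PtData ε x y s ϱ ϱ1 ϱD μ μ1 μD κ κ1 κD ξ1 ξD) : ε ^ 2 ≤ 1 / 10 ^ 6 := by
  have := h.hε; have := h.hε1; nlinarith
lemma abs_k (h : PtData ε x y s ϱ ϱ1 ϱD μ μ1 μD κ κ1 κD ξ1 ξD) :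
    |x ^ 2 + y ^ 2 - 1| ≤ 103 / 25 := by
  have h1 := abs_le.1 h.hx; have h2 := abs_le.1 h.hy
  rw [abs_le]; constructor <;> nlinarith
lemma abs_ϱ (h : PtData ε x y s ϱ ϱ1 ϱD μ μ1 μD κ κ1 κD ξ1 ξD) : |ϱ| ≤ 1001 / 1000 := by
  have h1 := abs_le.1 h.hϱ; rw [abs_le]; constructor <;> linarith
lemma abs_ξ1 (h : PtData ε x y s ϱ ϱ1 ϱD μ μ1 μD κ κ1 κD ξ1 ξD) : |ξ1| ≤ 1001 / 1000 := by
  have h1 := abs_le.1 h.hξ1; rw [abs_le]; constructor <;> linarith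
lemma abs_κ_rel (h : PtData ε x y s ϱ ϱ1 ϱD μ μ1 μD κ κ1 κD ξ1 ξD) :
    |κ| ≤ 1001 / 1000 * ε ^ 2 * |x ^ 2 + y ^ 2 - 1| := by
  have h1 := h.hκ
  have h2 : |κ| ≤ |κ - ε ^ 2 * (x ^ 2 + y ^ 2 - 1)| + |ε ^ 2 * (x ^ 2 + y ^ 2 - 1)| := by
    have := abs_add_le (κ - ε ^ 2 * (x ^ 2 + y ^ 2 - 1)) (ε ^ 2 * (x ^ 2 + y ^ 2 - 1))
    rwa [sub_add_cancel] at this
  rw [abs_mul, abs_of_nonneg (sq_nonneg ε)] at h2
  linarith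
lemma abs_κ (h : PtData ε x y s ϱ ϱ1 ϱD μ μ1 μD κ κ1 κD ξ1 ξD) : |κ| ≤ 42 / 10 * ε ^ 2 := by
  have h1 := h.abs_κ_rel; have h2 := h.abs_k
  have : 0 ≤ ε ^ 2 := sq_nonneg _
  nlinarith
lemma abs_ϱD (h : PtData ε x y s ϱ ϱ1 ϱD μ μ1 μD κ κ1 κD ξ1 ξD) : |ϱD| ≤ 21 / 10000 := by
  have h1 := h.hϱD; have h2 := h.hμ1; have h3 := h.abs_ϱ; have h4 := h.hε1
  have e : ϱD = (ϱD + 2 * μ1 * ϱ) - 2 * μ1 * ϱ := by ring
  rw [e]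
  apply le_trans
  · bd
  · norm_num; linarith
lemma abs_κ1 (h : PtData ε x y s ϱ ϱ1 ϱD μ μ1 μD κ κ1 κD ξ1 ξD) : |κ1| ≤ 321 / 100 * ε ^ 2 := by
  have h1 := h.hκ1; have h2 := h.hx
  have h3 : |ε ^ 2| ≤ ε ^ 2 := le_of_eq (abs_of_nonneg (sq_nonneg _))
  have e : κ1 = (κ1 - 2 * ε ^ 2 * x) + 2 * ε ^ 2 * x := by ring
  rw [e]
  apply le_trans
  · bd
  · norm_num; nlinarith [sq_nonneg ε]
lemma abs_μD (h : PtData ε x y s ϱ ϱ1 ϱD μ μ1 μD κ κ1 κD ξ1 ξD) : |μD| ≤ 33 / 10 * ε ^ 2 := by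
  have h1 := h.hμD; have h2 := h.abs_κ1
  have e : μD = (μD - κ1) + κ1 := by ring
  rw [e]
  apply le_trans
  · bd
  · nlinarith [sq_nonneg ε]

lemma cA1 (h : PtData ε x y s ϱ ϱ1 ϱD μ μ1 μD κ κ1 κD ξ1 ξD) :
    7 / 10 ≤ ξ1 * (2 + (x ^ 2 + y ^ 2 - 1) / 2) / 2 - y * s * ξD / 2 := by
  have h1 := abs_le.1 h.hξ1
  have h2 : |y * s * ξD / 2| ≤ 1 / 100 := by
    have := h.hy; have := h.abs_s; have := h.hξD.trans h.abs_κ; have := h.ε2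
    apply le_trans
    · bd
    · norm_num; linarith
  have h3 := abs_le.1 h2
  nlinarith [sq_nonneg x, sq_nonneg y]

lemma cA2 (h : PtData ε x y s ϱ ϱ1 ϱD μ μ1 μD κ κ1 κD ξ1 ξD) :
    -(6 / 10) ≤ s * ϱ1 / 2 - ϱ / 2 - y * ϱD / 2 - 3 * μ1 * y * ϱ / 2 := by
  have h2 : |s * ϱ1 / 2 - ϱ / 2 - y * ϱD / 2 - 3 * μ1 * y * ϱ / 2| ≤ 6 / 10 := by
    have := h.hy; have := h.abs_s; have := h.hϱ1; have := h.abs_ϱ; have := h.abs_ϱD; have := h.hμ1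
    apply le_trans
    · bd
    · norm_num
  exact (abs_le.1 h2).1

lemma cA3 (h : PtData ε x y s ϱ ϱ1 ϱD μ μ1 μD κ κ1 κD ξ1 ξD) :
    |3 * s * x - 3 * y * (y - μ * x)| ≤ 13 := by
  have := h.hy; have := h.abs_s; have := h.hx; have := h.hμ
  apply le_trans
  · bd
  · norm_num

lemma cC1 (h : PtData ε x y s ϱ ϱ1 ϱD μ μ1 μD κ κ1 κD ξ1 ξD) :
    24 / 100 * ε ^ 2 * (x ^ 2 + y ^ 2 - 1) ^ 2 ≤
      (x ^ 2 + y ^ 2 - 1) * ξ1 * κ / 4 + κ * y * s * ξD / 2 := by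
  set k := x ^ 2 + y ^ 2 - 1 with hk
  have hk0 : |k| ≤ |k| := le_rfl
  have hε2 : 0 ≤ ε ^ 2 := sq_nonneg _
  have hkk : |k| * |k| = k ^ 2 := by rw [abs_mul_abs_self]; ring
  have e1 : |k * (ξ1 - 1) * κ / 4 + k * (κ - ε ^ 2 * k) / 4 + κ * y * s * ξD / 2| ≤
      1 / 100 * ε ^ 2 * k ^ 2 := by
    have := h.hy; have := h.abs_s; have h5 := h.abs_κ_rel; have := h.hξD.trans h5
    have := h.hκ; have := h.hξ1; have h6 := h.ε2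
    apply le_trans
    · bd
    · rw [← hkk]
      have h7 : 0 ≤ |k| * |k| := by positivity
      have h8 : 0 ≤ ε ^ 2 * (|k| * |k|) := by positivity
      have h9 : ε ^ 2 * (ε ^ 2 * (|k| * |k|)) ≤ 1 / 10 ^ 6 * (ε ^ 2 * (|k| * |k|)) := by gcongr
      norm_num
      nlinarith
  have e2 := (abs_le.1 e1).1
  nlinarith

lemma cC2 (h : PtData ε x y s ϱ ϱ1 ϱD μ μ1 μD κ κ1 κD ξ1 ξD) :
    ε ^ 2 * (9 / 10 + 3 / 2 * (x ^ 2 + y ^ 2 - 1)) ≤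
      s * ϱ * (μD + κ1 / 2) - s * ϱ1 * κ / 2 + κ * μ1 * y * ϱ / 2 + κ * ϱ / 2 + κ * y * ϱD / 2
        + y * ϱ * κD / 2 := by
  set k := x ^ 2 + y ^ 2 - 1 with hk
  have hε2 : 0 ≤ ε ^ 2 := sq_nonneg _
  have h3 : |ε ^ 2| ≤ ε ^ 2 := le_of_eq (abs_of_nonneg hε2)
  have hκk : |κ - ε ^ 2 * k| ≤ 42 / 10000 * ε ^ 2 := by
    have := h.hκ; have := h.abs_k; nlinarith
  have e1 : |s * ϱ * ((μD - κ1) + 3 / 2 * (κ1 - 2 * ε ^ 2 * x)) + s * (ϱ - 1) * 3 * ε ^ 2 * x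
      - s * ϱ1 * κ / 2 + κ * μ1 * y * ϱ / 2 + (κ - ε ^ 2 * k) * ϱ / 2 + ε ^ 2 * k * (ϱ - 1) / 2
      + κ * y * ϱD / 2 + y * ϱ * (κD - 2 * ε ^ 2 * y) / 2 + y * (ϱ - 1) * ε ^ 2 * y| ≤
      5 / 100 * ε ^ 2 := by
    have := h.hy; have := h.abs_s; have := h.abs_κ; have := h.hx; have := h.hϱ; have := h.abs_ϱ
    have := h.hμD; have := h.hκ1; have := h.hκD; have := h.hϱ1; have := h.hμ1; have := h.abs_ϱD
    have := h.abs_k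
    apply le_trans
    · bd
    · norm_num; nlinarith
  have e2 := (abs_le.1 e1).1
  have hX : 0 ≤ 3 * (s * x) + 1 - x ^ 2 - 95 / 100 := by
    have h1 := h.hsx; have h2 := h.s_sq
    have h4 : x ^ 2 = (s * x) ^ 2 := by rw [mul_pow, sq s, h2, one_mul]
    have h5 : s * x ≤ 8 / 5 := by
      have : |s * x| ≤ 1 * (8 / 5) := bd_mul h.abs_s h.hx
      linarith [(abs_le.1 this).2]
    rw [h4]; nlinarith
  have hX' := mul_nonneg hε2 hX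
  have : y ^ 2 = k + 1 - x ^ 2 := by rw [hk]; ring
  nlinarith

lemma cC3 (h : PtData ε x y s ϱ ϱ1 ϱD μ μ1 μD κ κ1 κD ξ1 ξD) (hk : 1 / 2 ≤ x ^ 2 + y ^ 2 - 1) :
    48 ≤ κ * (100 / ε ^ 2 + (3 * s * x - 3 * y * (y - μ * x))) := by
  have hε2 : 0 < ε ^ 2 := pow_pos h.hε 2
  have h1 := h.hκ
  rw [abs_of_nonneg (by linarith : 0 ≤ x ^ 2 + y ^ 2 - 1)] at h1
  have h2 : 49 / 100 * ε ^ 2 ≤ κ := by
    have := (abs_le.1 h1).1; nlinarith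
  have h3 := (abs_le.1 h.cA3).1
  have h4 := h.ε2
  have h5 : 13 ≤ 100 / ε ^ 2 := by rw [le_div_iff₀ hε2]; linarith
  have h6 : 49 / 100 * ε ^ 2 * (100 / ε ^ 2 - 13) ≤
      κ * (100 / ε ^ 2 + (3 * s * x - 3 * y * (y - μ * x))) := by
    apply mul_le_mul h2 (by linarith) (by linarith) (by linarith)
  have h7 : 49 / 100 * ε ^ 2 * (100 / ε ^ 2 - 13) = 49 - 637 / 100 * ε ^ 2 := by
    have := h.hε.ne'; field_simp; ring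
  linarith

lemma cB1 (h : PtData ε x y s ϱ ϱ1 ϱD μ μ1 μD κ κ1 κD ξ1 ξD) :
    |-ξD - y * s * κ * ξ1| ≤ 27 / 10 * ε ^ 2 * |x ^ 2 + y ^ 2 - 1| := by
  have := h.hy; have := h.abs_s; have h5 := h.abs_κ_rel; have := h.hξD.trans h5
  have := h.abs_ξ1
  have h8 : 0 ≤ ε ^ 2 * |x ^ 2 + y ^ 2 - 1| := by positivity
  apply le_trans
  · bd
  · nlinarith

lemma cB2 (h : PtData ε x y s ϱ ϱ1 ϱD μ μ1 μD κ κ1 κD ξ1 ξD) :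
    |6 * s * (y - μ * x) + 6 * x * y * κ| ≤ 10 := by
  have := h.hy; have := h.abs_s; have := h.abs_κ; have := h.hx; have := h.hμ; have := h.ε2
  apply le_trans
  · bd
  · norm_num; linarith

lemma cB3 (h : PtData ε x y s ϱ ϱ1 ϱD μ μ1 μD κ κ1 κD ξ1 ξD) :
    |-s * (ϱD + 2 * μ1 * ϱ) - y * κ * ϱ1 + y * ϱ * μD| ≤ 7 / 1000 * ε := by
  have := h.hy; have := h.abs_s; have := h.abs_κ; have := h.hϱD; have := h.hϱ1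
  have := h.abs_ϱ; have := h.abs_μD; have := h.hε; have := h.hε1
  apply le_trans
  · bd
  · nlinarith

lemma form_final {ε k b β'' ω A B C p q : ℝ} (hε6 : ε ^ 2 ≤ 1 / 10 ^ 6) (hb : 0 ≤ b)
    (hβ0 : 0 ≤ β'') (hω : 0 ≤ ω) (lA : 6 / 10 * β'' + b + 5 * ω ≤ A)
    (lB : |B| ≤ β'' * (27 / 10 * ε ^ 2 * |k|) + ω * 10 + b * (7 / 1000 * ε))
    (lC : 12 / 100 * ε ^ 2 * k ^ 2 * β'' + 6 / 10 * ε ^ 2 * b + 5 * ω ≤ C) :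
    59 / 100 * ε ^ 2 * b * (p ^ 2 + q ^ 2) ≤ A * q ^ 2 + B * (p * q) + C * p ^ 2 := by
  have hε2 : 0 ≤ ε ^ 2 := sq_nonneg _
  have m3 : |B * (p * q)| ≤
      β'' * (12 / 100 * ε ^ 2 * k ^ 2 * p ^ 2 + 1 / 10 * q ^ 2) + ω * (5 * p ^ 2 + 5 * q ^ 2)
        + b * (35 / 10000 * (ε ^ 2 * p ^ 2 + q ^ 2)) := by
    rw [abs_mul, abs_mul, ← sq_abs p, ← sq_abs q, ← sq_abs k]
    have hP := abs_nonneg p; have hQ := abs_nonneg q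
    generalize |p| = P at *; generalize |q| = Q at *; generalize |k| = κ' at *
    have u1 : 27 / 10 * ε ^ 2 * κ' * (P * Q) ≤
        12 / 100 * ε ^ 2 * κ' ^ 2 * P ^ 2 + 1 / 10 * Q ^ 2 := by
      have h1 : ε ^ 2 * Q ^ 2 ≤ 1 / 10 ^ 6 * Q ^ 2 := by gcongr
      have h2 := mul_nonneg hε2 (sq_nonneg (κ' * P - 45 / 4 * Q))
      have h3 := sq_nonneg Q
      linarith
    have u2 : 10 * (P * Q) ≤ 5 * P ^ 2 + 5 * Q ^ 2 := by linarith [sq_nonneg (P - Q)]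
    have u3 : 7 / 1000 * ε * (P * Q) ≤ 35 / 10000 * (ε ^ 2 * P ^ 2 + Q ^ 2) := by
      linarith [sq_nonneg (ε * P - Q)]
    have v0 := mul_le_mul_of_nonneg_right lB (mul_nonneg hP hQ)
    have v1 := mul_le_mul_of_nonneg_left u1 hβ0
    have v2 := mul_le_mul_of_nonneg_left u2 hω
    have v3 := mul_le_mul_of_nonneg_left u3 hb
    linarith
  have m1 := mul_le_mul_of_nonneg_right lA (sq_nonneg q)
  have m2 := mul_le_mul_of_nonneg_right lC (sq_nonneg p)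
  have m3' := (abs_le.1 m3).1
  have m4 : 0 ≤ β'' * q ^ 2 := by positivity
  have m6 : 0 ≤ b * q ^ 2 := by positivity
  have m5 : ε ^ 2 * (b * q ^ 2) ≤ 1 / 10 ^ 6 * (b * q ^ 2) := by gcongr
  have m7 : 0 ≤ ε ^ 2 * b * p ^ 2 := by positivity
  linarith

/-- positivity of the principal quadratic form -/
lemma form_ge (h : PtData ε x y s ϱ ϱ1 ϱD μ μ1 μD κ κ1 κD ξ1 ξD) {b β'' ω β β1 βD γ γ1 γD α p q : ℝ}
    (hb : 0 ≤ b) (hβ'' : 23 * b ≤ β'') (hω : 0 ≤ ω) (hωk : ω = 0 ∨ 1 / 2 ≤ x ^ 2 + y ^ 2 - 1)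
    (eβ : β = s * b * ϱ) (eβ1 : β1 = β'' * ξ1 - 6 * s * x * ω + s * b * ϱ1)
    (eβD : βD = β'' * ξD - 6 * s * (y - μ * x) * ω + s * b * ϱD)
    (eγ : γ = y * b * ϱ) (eγ1 : γ1 = y * s * β1) (eγD : γD = b * ϱ + y * s * βD)
    (eα : α = -(1 + (x ^ 2 + y ^ 2 - 1) / 2) * (β'' * ξ1) / 2 - 100 / ε ^ 2 * ω) :
    59 / 100 * ε ^ 2 * b * (p ^ 2 + q ^ 2) ≤
      (β1 / 2 - γD / 2 - 3 * μ1 * γ / 2 - α) * q ^ 2
      + (- (βD + 2 * μ1 * β) - γ1 * κ + γ * μD) * (p * q)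
      + (β * (μD + κ1 / 2) - β1 * κ / 2 + κ * μ1 * γ / 2 + κ * γD / 2 + γ * κD / 2 - α * κ)
        * p ^ 2 := by
  set k := x ^ 2 + y ^ 2 - 1 with hk
  have hss := h.s_sq
  have hε := h.hε
  have hε2 : 0 < ε ^ 2 := pow_pos hε 2
  have hε6 := h.ε2
  have hβ0 : 0 ≤ β'' := by linarith
  have eA : β1 / 2 - γD / 2 - 3 * μ1 * γ / 2 - α =
      β'' * (ξ1 * (2 + k / 2) / 2 - y * s * ξD / 2)
      + b * (s * ϱ1 / 2 - ϱ / 2 - y * ϱD / 2 - 3 * μ1 * y * ϱ / 2)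
      + ω * (100 / ε ^ 2 - (3 * s * x - 3 * y * (y - μ * x))) := by
    rw [eγD, eβD, eβ1, eγ, eα]
    linear_combination (3 * y * (y - μ * x) * ω - y * b * ϱD / 2) * hss
  have eB : - (βD + 2 * μ1 * β) - γ1 * κ + γ * μD =
      β'' * (-ξD - y * s * κ * ξ1) + ω * (6 * s * (y - μ * x) + 6 * x * y * κ)
      + b * (-s * (ϱD + 2 * μ1 * ϱ) - y * κ * ϱ1 + y * ϱ * μD) := by
    rw [eγ1, eβD, eβ1, eγ, eβ]
    linear_combination (6 * x * y * κ * ω - y * κ * b * ϱ1) * hss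
  have eC : β * (μD + κ1 / 2) - β1 * κ / 2 + κ * μ1 * γ / 2 + κ * γD / 2 + γ * κD / 2 - α * κ =
      β'' * (k * ξ1 * κ / 4 + κ * y * s * ξD / 2)
      + b * (s * ϱ * (μD + κ1 / 2) - s * ϱ1 * κ / 2 + κ * μ1 * y * ϱ / 2 + κ * ϱ / 2
        + κ * y * ϱD / 2 + y * ϱ * κD / 2)
      + ω * (κ * (100 / ε ^ 2 + (3 * s * x - 3 * y * (y - μ * x)))) := by
    rw [eγD, eβD, eβ1, eγ, eα, eβ]
    linear_combination (- 3 * κ * y * (y - μ * x) * ω + κ * y * b * ϱD / 2) * hss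
  have lA : 6 / 10 * β'' + b + 5 * ω ≤ β1 / 2 - γD / 2 - 3 * μ1 * γ / 2 - α := by
    rw [eA]
    have a1 := mul_le_mul_of_nonneg_left h.cA1 hβ0
    have a2 := mul_le_mul_of_nonneg_left h.cA2 hb
    have h5 : 18 ≤ 100 / ε ^ 2 := by rw [le_div_iff₀ hε2]; linarith
    have a3 : ω * 5 ≤ ω * (100 / ε ^ 2 - (3 * s * x - 3 * y * (y - μ * x))) :=
      mul_le_mul_of_nonneg_left (by linarith [(abs_le.1 h.cA3).2]) hω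
    linarith
  have lC : 12 / 100 * ε ^ 2 * k ^ 2 * β'' + 6 / 10 * ε ^ 2 * b + 5 * ω ≤
      β * (μD + κ1 / 2) - β1 * κ / 2 + κ * μ1 * γ / 2 + κ * γD / 2 + γ * κD / 2 - α * κ := by
    rw [eC]
    have a1 := mul_le_mul_of_nonneg_left h.cC1 hβ0
    have a2 := mul_le_mul_of_nonneg_left h.cC2 hb
    have a3 : ω * 48 ≤ ω * (κ * (100 / ε ^ 2 + (3 * s * x - 3 * y * (y - μ * x)))) := by
      rcases hωk with rfl | hk'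
      · simp
      · exact mul_le_mul_of_nonneg_left (h.cC3 hk') hω
    have a4 : 12 / 100 * ε ^ 2 * k ^ 2 * (23 * b) ≤ 12 / 100 * ε ^ 2 * k ^ 2 * β'' := by gcongr
    have a5 : 0 ≤ ε ^ 2 * b * (276 / 100 * k ^ 2 + 3 / 2 * k + 3 / 10) :=
      mul_nonneg (by positivity) (by nlinarith [sq_nonneg (k + 27 / 100)])
    linarith
  have lB : |- (βD + 2 * μ1 * β) - γ1 * κ + γ * μD| ≤
      β'' * (27 / 10 * ε ^ 2 * |k|) + ω * 10 + b * (7 / 1000 * ε) := by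
    rw [eB]
    have b1 := h.cB1; have b2 := h.cB2; have b3 := h.cB3
    have t1 : |β''| ≤ β'' := le_of_eq (abs_of_nonneg hβ0)
    have t2 : |ω| ≤ ω := le_of_eq (abs_of_nonneg hω)
    have t3 : |b| ≤ b := le_of_eq (abs_of_nonneg hb)
    apply le_trans
    · bd
    · exact le_rfl
  exact form_final hε6 hb hβ0 hω lA lB lC

/-- bound for the remainder -/
lemma rem_le (h : PtData ε x y s ϱ ϱ1 ϱD μ μ1 μD κ κ1 κD ξ1 ξD)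
    {a V β γ α α1 αD p q u g1 g2 f1 f2 Λ : ℝ} (ha : 0 ≤ a) (hV : 0 ≤ V)
    (eβ : β = s * a ^ 2 * ϱ) (eγ : γ = y * a ^ 2 * ϱ)
    (hα : |α| ≤ V * a) (hα1 : |α1| ≤ V * a) (hαD : |αD| ≤ V * a)
    (hf1 : |f1| ≤ ε ^ 2 / 1000 * (|p| + |q|)) (hf2 : |f2| ≤ ε ^ 2 / 1000 * (|p| + |q|))
    (hu : u ^ 2 ≤ Λ) (hg1 : g1 ^ 2 ≤ Λ) (hg2 : g2 ^ 2 ≤ Λ) :
    β * (p * f2 + q * f1) + γ * (q * f2 - κ * p * f1) + α * u * f2 + α * (q * g2 + κ * p * g1)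
      + u * ((αD + μ1 * α) * q + (α1 * κ - α * μD) * p) ≤
      19 / 100 * ε ^ 2 * a ^ 2 * (p ^ 2 + q ^ 2) + 80 * V ^ 2 / ε ^ 2 * Λ := by
  have hε2 : 0 < ε ^ 2 := pow_pos h.hε 2
  have hε6 := h.ε2
  have hΛ : 0 ≤ Λ := (sq_nonneg u).trans hu
  obtain ⟨l, hl0, rfl⟩ : ∃ l, 0 ≤ l ∧ Λ = l ^ 2 := ⟨√Λ, Real.sqrt_nonneg _, (Real.sq_sqrt hΛ).symm⟩
  have hu' : |u| ≤ l := abs_le_of_sq_le_sq' hu hl0 |> abs_le.2
  have hg1' : |g1| ≤ l := abs_le_of_sq_le_sq' hg1 hl0 |> abs_le.2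
  have hg2' : |g2| ≤ l := abs_le_of_sq_le_sq' hg2 hl0 |> abs_le.2
  have hκ : |κ| ≤ 1 := h.abs_κ.trans (by linarith)
  have hμD : |μD| ≤ 1 := h.abs_μD.trans (by linarith)
  have hμ1 : |μ1| ≤ 1 := h.hμ1.trans (by norm_num)
  have hβ : |β| ≤ 2 * a ^ 2 := by
    have := h.abs_s; have := h.abs_ϱ
    have t : |a ^ 2| ≤ a ^ 2 := le_of_eq (abs_of_nonneg (sq_nonneg _))
    rw [eβ]; apply le_trans
    · bd
    · linarith [sq_nonneg a]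
  have hγ : |γ| ≤ 2 * a ^ 2 := by
    have := h.hy; have := h.abs_ϱ
    have t : |a ^ 2| ≤ a ^ 2 := le_of_eq (abs_of_nonneg (sq_nonneg _))
    rw [eγ]; apply le_trans
    · bd
    · linarith [sq_nonneg a]
  have hp : |p| ≤ |p| := le_rfl
  have hq : |q| ≤ |q| := le_rfl
  have hf2' : |f2| ≤ |p| + |q| :=
    hf2.trans (mul_le_of_le_one_left (by positivity) (by linarith))
  have r1 : |β * (p * f2 + q * f1) + γ * (q * f2 - κ * p * f1)| ≤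
      4 / 1000 * ε ^ 2 * a ^ 2 * (|p| + |q|) ^ 2 := by
    clear hf2'
    apply le_trans
    · bd
    · apply le_of_eq; ring
  have r2 : |α * u * f2 + α * (q * g2 + κ * p * g1)
      + u * ((αD + μ1 * α) * q + (α1 * κ - α * μD) * p)| ≤ 4 * V * l * (a * (|p| + |q|)) := by
    clear hf2
    apply le_trans
    · bd
    · apply le_of_eq; ring
  have r3 : 4 * V * l * (a * (|p| + |q|)) ≤
      ε ^ 2 / 20 * (a * (|p| + |q|)) ^ 2 + 80 * V ^ 2 / ε ^ 2 * l ^ 2 := by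
    generalize a * (|p| + |q|) = X
    have e : 80 * V ^ 2 / ε ^ 2 * l ^ 2 = ε ^ 2 / 20 * (40 * V * l / ε ^ 2) ^ 2 := by
      have := h.hε.ne'; field_simp; ring
    have e2 : 4 * V * l * X = ε ^ 2 / 20 * (2 * X * (40 * V * l / ε ^ 2)) := by
      have := h.hε.ne'; field_simp; ring
    rw [e, e2, ← mul_add]
    apply mul_le_mul_of_nonneg_left _ (by positivity)
    linarith [sq_nonneg (X - 40 * V * l / ε ^ 2)]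
  have r4 : (|p| + |q|) ^ 2 ≤ 2 * (p ^ 2 + q ^ 2) := by
    rw [← sq_abs p, ← sq_abs q]; linarith [sq_nonneg (|p| - |q|)]
  have r5 : ε ^ 2 * a ^ 2 * (|p| + |q|) ^ 2 ≤ ε ^ 2 * a ^ 2 * (2 * (p ^ 2 + q ^ 2)) := by gcongr
  have r6 : 0 ≤ ε ^ 2 * a ^ 2 * (p ^ 2 + q ^ 2) := by positivity
  have r1' := (abs_le.1 r1).2
  have r2' := (abs_le.1 r2).2
  linarith

end PtData
end Crest.Agent.R220
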