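import Crest.Agent.R220.Div
import Crest.Agent.R220.MultAlg

/-! # Row 220: the one-sided multiplier estimate (Lemma B of the blueprint) -/

set_option autoImplicit false

open Set MeasureTheory Filter Topology
open scoped ContDiff

namespace Crest.Agent.R220

namespace Mult

lemma contDiff_rr' {n : WithTop ℕ∞} : ContDiff ℝ n rr := by unfold rr; fun_prop
lemma contDiff_kk' {n : WithTop ℕ∞} : ContDiff ℝ n kk := by unfold kk rr; fun_prop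

lemma dd_rr' (v z : P) : dd v rr z = 2 * z.1 * v.1 + 2 * z.2 * v.2 := by
  unfold rr
  simp (disch := fun_prop) only [dd_add, dd_sq, dd_fst, dd_snd]

lemma dd_kk' (v z : P) : dd v kk z = 2 * z.1 * v.1 + 2 * z.2 * v.2 := by
  have h : DifferentiableAt ℝ rr z := (contDiff_rr' (n := 1)).differentiable (by simp) z
  unfold kk
  rw [dd_sub h (by fun_prop), dd_rr']; simp

lemma contDiff_oo (c : ℝ) : ContDiff ℝ 1 (oo c) :=
  contDiff_const.sub ((contDiff_one_pp (by norm_num)).comp (contDiff_rr'.sub contDiff_const))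

lemma dd_oo (c : ℝ) (v z : P) :
    dd v (oo c) z = - (3 * pp 2 (rr z - 3 / 2) * (2 * z.1 * v.1 + 2 * z.2 * v.2)) := by
  have h : DifferentiableAt ℝ rr z := (contDiff_rr' (n := 1)).differentiable (by simp) z
  have h' : DifferentiableAt ℝ (fun x => rr x - 3 / 2) z := h.sub_const _
  unfold oo
  rw [dd_sub (by fun_prop) (differentiableAt_pp_comp h' (by norm_num)), dd_pp (by norm_num) h',
    dd_sub h (by fun_prop), dd_rr']
  simp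

lemma oo_nonpos_of_notMem_K {c : ℝ} (hc : c ≤ 1) {z : P} (hz : z ∉ K) : oo c z ≤ 0 := by
  have h1 : 64 / 25 < rr z := by
    rw [mem_K_iff, not_and_or, not_le, not_le] at hz
    unfold rr
    rcases hz with h | h
    · have : (8 / 5 : ℝ) ^ 2 < |z.1| ^ 2 := by gcongr
      rw [sq_abs] at this; nlinarith [sq_nonneg z.2]
    · have : (8 / 5 : ℝ) ^ 2 < |z.2| ^ 2 := by gcongr
      rw [sq_abs] at this; nlinarith [sq_nonneg z.1]
  unfold oo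
  rw [pp_of_nonneg (by linarith)]
  have : (1 : ℝ) ^ 3 ≤ (rr z - 3 / 2) ^ 3 := by gcongr; linarith
  linarith

variable (ε c t0 s : ℝ) (ϱ ξ : P → ℝ)

noncomputable def bb (z : P) : ℝ := pp 40 (oo c z) * pp 40 (s * ξ z - t0)
noncomputable def βf (z : P) : ℝ := s * bb c t0 s ξ z * ϱ z
noncomputable def γf (z : P) : ℝ := z.2 * bb c t0 s ξ z * ϱ z
noncomputable def β''f (z : P) : ℝ := 40 * pp 40 (oo c z) * pp 39 (s * ξ z - t0) * ϱ z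
noncomputable def ωf (z : P) : ℝ :=
  40 * pp 39 (oo c z) * pp 40 (s * ξ z - t0) * pp 2 (rr z - 3 / 2) * ϱ z
noncomputable def αf (z : P) : ℝ :=
  -(1 + kk z / 2) * (β''f c t0 s ϱ ξ z * ∂₁ ξ z) / 2 - 100 / ε ^ 2 * ωf c t0 s ϱ ξ z

variable {ε c t0 s ϱ ξ}

lemma contDiffOn_t (hξ : ContDiffOn ℝ 1 ξ O) : ContDiffOn ℝ 1 (fun z => s * ξ z - t0) O := by
  fun_prop

lemma contDiffOn_bb (hξ : ContDiffOn ℝ 1 ξ O) : ContDiffOn ℝ 1 (bb c t0 s ξ) O :=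
  (contDiffOn_pp_comp (by norm_num) (contDiff_oo c).contDiffOn).mul
    (contDiffOn_pp_comp (by norm_num) (contDiffOn_t hξ))

lemma contDiffOn_βf (hϱ : ContDiffOn ℝ 1 ϱ O) (hξ : ContDiffOn ℝ 1 ξ O) :
    ContDiffOn ℝ 1 (βf c t0 s ϱ ξ) O :=
  (contDiffOn_const.mul (contDiffOn_bb hξ)).mul hϱ

lemma contDiffOn_γf (hϱ : ContDiffOn ℝ 1 ϱ O) (hξ : ContDiffOn ℝ 1 ξ O) :
    ContDiffOn ℝ 1 (γf c t0 s ϱ ξ) O :=
  (contDiffOn_snd.mul (contDiffOn_bb hξ)).mul hϱ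

lemma contDiffOn_β''f (hϱ : ContDiffOn ℝ 1 ϱ O) (hξ : ContDiffOn ℝ 1 ξ O) :
    ContDiffOn ℝ 1 (β''f c t0 s ϱ ξ) O :=
  ((contDiffOn_const.mul (contDiffOn_pp_comp (by norm_num) (contDiff_oo c).contDiffOn)).mul
    (contDiffOn_pp_comp (by norm_num) (contDiffOn_t hξ))).mul hϱ

lemma contDiffOn_ωf (hϱ : ContDiffOn ℝ 1 ϱ O) (hξ : ContDiffOn ℝ 1 ξ O) :
    ContDiffOn ℝ 1 (ωf c t0 s ϱ ξ) O :=
  (((contDiffOn_const.mul (contDiffOn_pp_comp (by norm_num) (contDiff_oo c).contDiffOn)).mul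
    (contDiffOn_pp_comp (by norm_num) (contDiffOn_t hξ))).mul
    (contDiffOn_pp_comp (by norm_num) (contDiff_rr'.sub contDiff_const).contDiffOn)).mul hϱ

lemma contDiffOn_αf (hϱ : ContDiffOn ℝ 1 ϱ O) (hξ : ContDiffOn ℝ 1 ξ O)
    (hξ1 : ContDiffOn ℝ 1 (∂₁ ξ) O) : ContDiffOn ℝ 1 (αf ε c t0 s ϱ ξ) O := by
  have h1 := contDiffOn_β''f (c := c) (t0 := t0) (s := s) hϱ hξ
  have h2 := contDiffOn_ωf (c := c) (t0 := t0) (s := s) hϱ hξ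
  have h3 : ContDiffOn ℝ 1 kk O := contDiff_kk'.contDiffOn
  unfold αf
  fun_prop

section formulas
variable {z : P} (v : P) (hϱ : DifferentiableAt ℝ ϱ z) (hξ : DifferentiableAt ℝ ξ z)
include hξ

lemma dd_bb : dd v (bb c t0 s ξ) z =
    40 * pp 39 (oo c z) * dd v (oo c) z * pp 40 (s * ξ z - t0)
      + pp 40 (oo c z) * (40 * pp 39 (s * ξ z - t0) * (s * dd v ξ z)) := by
  have ho : DifferentiableAt ℝ (oo c) z := (contDiff_oo c).differentiable (by simp) z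
  unfold bb
  simp (disch := first | fun_prop (disch := norm_num) | norm_num) only
    [dd_mul, dd_pp, dd_sub, dd_const]
  norm_num

lemma diffAt_bb : DifferentiableAt ℝ (bb c t0 s ξ) z := by
  have ho : DifferentiableAt ℝ (oo c) z := (contDiff_oo c).differentiable (by simp) z
  unfold bb
  fun_prop (disch := norm_num)

include hϱ

lemma dd_βf : dd v (βf c t0 s ϱ ξ) z =
    s * (dd v (bb c t0 s ξ) z * ϱ z + bb c t0 s ξ z * dd v ϱ z) := by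
  have hb := diffAt_bb (c := c) (t0 := t0) (s := s) hξ
  unfold βf
  simp (disch := fun_prop) only [dd_mul, dd_const]
  ring

lemma dd_γf : dd v (γf c t0 s ϱ ξ) z =
    v.2 * bb c t0 s ξ z * ϱ z + z.2 * (dd v (bb c t0 s ξ) z * ϱ z + bb c t0 s ξ z * dd v ϱ z) := by
  have hb := diffAt_bb (c := c) (t0 := t0) (s := s) hξ
  unfold γf
  simp (disch := fun_prop) only [dd_mul, dd_snd]
  ring

lemma dd_β''f : dd v (β''f c t0 s ϱ ξ) z =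
    40 * (40 * pp 39 (oo c z) * dd v (oo c) z * pp 39 (s * ξ z - t0) * ϱ z
      + pp 40 (oo c z) * (39 * pp 38 (s * ξ z - t0) * (s * dd v ξ z)) * ϱ z
      + pp 40 (oo c z) * pp 39 (s * ξ z - t0) * dd v ϱ z) := by
  have ho : DifferentiableAt ℝ (oo c) z := (contDiff_oo c).differentiable (by simp) z
  unfold β''f
  simp (disch := first | fun_prop (disch := norm_num) | norm_num) only
    [dd_mul, dd_pp, dd_sub, dd_const]
  norm_num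
  ring

lemma dd_ωf : dd v (ωf c t0 s ϱ ξ) z =
    40 * (39 * pp 38 (oo c z) * dd v (oo c) z * pp 40 (s * ξ z - t0) * pp 2 (rr z - 3 / 2) * ϱ z
      + pp 39 (oo c z) * (40 * pp 39 (s * ξ z - t0) * (s * dd v ξ z)) * pp 2 (rr z - 3 / 2) * ϱ z
      + pp 39 (oo c z) * pp 40 (s * ξ z - t0) * (2 * pp 1 (rr z - 3 / 2) * dd v rr z) * ϱ z
      + pp 39 (oo c z) * pp 40 (s * ξ z - t0) * pp 2 (rr z - 3 / 2) * dd v ϱ z) := by
  have ho : DifferentiableAt ℝ (oo c) z := (contDiff_oo c).differentiable (by simp) z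
  have hr : DifferentiableAt ℝ rr z := (contDiff_rr' (n := 1)).differentiable (by simp) z
  unfold ωf
  simp (disch := first | fun_prop (disch := norm_num) | norm_num) only
    [dd_mul, dd_pp, dd_sub, dd_const]
  norm_num
  ring

lemma dd_αf (hξ1 : DifferentiableAt ℝ (∂₁ ξ) z) : dd v (αf ε c t0 s ϱ ξ) z =
    - (dd v kk z / 2) * (β''f c t0 s ϱ ξ z * ∂₁ ξ z) / 2
      - (1 + kk z / 2) * (dd v (β''f c t0 s ϱ ξ) z * ∂₁ ξ z + β''f c t0 s ϱ ξ z * dd v (∂₁ ξ) z) / 2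
      - 100 / ε ^ 2 * dd v (ωf c t0 s ϱ ξ) z := by
  have ho : DifferentiableAt ℝ (oo c) z := (contDiff_oo c).differentiable (by simp) z
  have hr : DifferentiableAt ℝ rr z := (contDiff_rr' (n := 1)).differentiable (by simp) z
  have hk : DifferentiableAt ℝ kk z := (contDiff_kk' (n := 1)).differentiable (by simp) z
  have h1 : DifferentiableAt ℝ (β''f c t0 s ϱ ξ) z := by unfold β''f; fun_prop (disch := norm_num)
  have h2 : DifferentiableAt ℝ (ωf c t0 s ϱ ξ) z := by unfold ωf; fun_prop (disch := norm_num)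
  unfold αf
  simp (disch := fun_prop) only [dd_mul, dd_sub, dd_add, dd_neg, dd_div_const, dd_const]
  ring

end formulas

/-- bound for `α` and its first derivatives, abstract form -/
lemma alpha_bounds {E o t v s x y k ϱ ξ1 dk dr do' dϱ dξ dξ1 : ℝ} (hE : 1 ≤ E) (ho0 : 0 ≤ o)
    (ho : o ≤ 1) (ht0 : 0 ≤ t) (ht : t ≤ 2) (hv0 : 0 ≤ v) (hv : v ≤ 1) (hs : |s| ≤ 1)
    (hk : |k| ≤ 5) (hϱ : |ϱ| ≤ 2) (hξ1 : |ξ1| ≤ 2) (hdk : |dk| ≤ 4) (hdr : |dr| ≤ 4)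
    (hdo : |do'| ≤ 12) (hdϱ : |dϱ| ≤ 1) (hdξ : |dξ| ≤ 2) (hdξ1 : |dξ1| ≤ 1)
    (_hx : |x| ≤ 2) (_hy : |y| ≤ 2) :
    |-(1 + k / 2) * (40 * o ^ 40 * t ^ 39 * ϱ * ξ1) / 2 - E * (40 * o ^ 39 * t ^ 40 * v ^ 2 * ϱ)|
      ≤ 10 ^ 12 * E * (o ^ 20 * t ^ 20) ∧
    |- (dk / 2) * (40 * o ^ 40 * t ^ 39 * ϱ * ξ1) / 2
      - (1 + k / 2) * (40 * (40 * o ^ 39 * do' * t ^ 39 * ϱ + o ^ 40 * (39 * t ^ 38 * (s * dξ)) * ϱ
          + o ^ 40 * t ^ 39 * dϱ) * ξ1 + 40 * o ^ 40 * t ^ 39 * ϱ * dξ1) / 2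
      - E * (40 * (39 * o ^ 38 * do' * t ^ 40 * v ^ 2 * ϱ
          + o ^ 39 * (40 * t ^ 39 * (s * dξ)) * v ^ 2 * ϱ
          + o ^ 39 * t ^ 40 * (2 * v ^ 1 * dr) * ϱ + o ^ 39 * t ^ 40 * v ^ 2 * dϱ))|
      ≤ 10 ^ 12 * E * (o ^ 20 * t ^ 20) := by
  have ho' : |o| ≤ 1 := by rwa [abs_of_nonneg ho0]
  have ht' : |t| ≤ 2 := by rwa [abs_of_nonneg ht0]
  have hv' : |v| ≤ 1 := by rwa [abs_of_nonneg hv0]
  have hE' : |E| ≤ E := le_of_eq (abs_of_nonneg (by linarith))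
  have ha : 0 ≤ o ^ 20 * t ^ 20 := by positivity
  constructor
  · have e : -(1 + k / 2) * (40 * o ^ 40 * t ^ 39 * ϱ * ξ1) / 2
        - E * (40 * o ^ 39 * t ^ 40 * v ^ 2 * ϱ) =
        (-(1 + k / 2) * (40 * o ^ 20 * t ^ 19 * ϱ * ξ1) / 2
          - E * (40 * o ^ 19 * t ^ 20 * v ^ 2 * ϱ)) * (o ^ 20 * t ^ 20) := by ring
    rw [e, abs_mul, abs_of_nonneg ha]
    apply mul_le_mul_of_nonneg_right _ ha
    apply le_trans
    · bd
    · norm_num; linarith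
  · have e : - (dk / 2) * (40 * o ^ 40 * t ^ 39 * ϱ * ξ1) / 2
      - (1 + k / 2) * (40 * (40 * o ^ 39 * do' * t ^ 39 * ϱ + o ^ 40 * (39 * t ^ 38 * (s * dξ)) * ϱ
          + o ^ 40 * t ^ 39 * dϱ) * ξ1 + 40 * o ^ 40 * t ^ 39 * ϱ * dξ1) / 2
      - E * (40 * (39 * o ^ 38 * do' * t ^ 40 * v ^ 2 * ϱ
          + o ^ 39 * (40 * t ^ 39 * (s * dξ)) * v ^ 2 * ϱ
          + o ^ 39 * t ^ 40 * (2 * v ^ 1 * dr) * ϱ + o ^ 39 * t ^ 40 * v ^ 2 * dϱ)) =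
      (- (dk / 2) * (40 * o ^ 20 * t ^ 19 * ϱ * ξ1) / 2
      - (1 + k / 2) * (40 * (40 * o ^ 19 * do' * t ^ 19 * ϱ + o ^ 20 * (39 * t ^ 18 * (s * dξ)) * ϱ
          + o ^ 20 * t ^ 19 * dϱ) * ξ1 + 40 * o ^ 20 * t ^ 19 * ϱ * dξ1) / 2
      - E * (40 * (39 * o ^ 18 * do' * t ^ 20 * v ^ 2 * ϱ
          + o ^ 19 * (40 * t ^ 19 * (s * dξ)) * v ^ 2 * ϱ
          + o ^ 19 * t ^ 20 * (2 * v ^ 1 * dr) * ϱ + o ^ 19 * t ^ 20 * v ^ 2 * dϱ)))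
        * (o ^ 20 * t ^ 20) := by ring
    rw [e, abs_mul, abs_of_nonneg ha]
    apply mul_le_mul_of_nonneg_right _ ha
    apply le_trans
    · bd
    · norm_num; linarith

/-- where one of the two cut-off variables is nonpositive the divergence vanishes -/
lemma div_eq_zero {μ κ p q u : P → ℝ} {z : P} (hμ : DifferentiableAt ℝ μ z)
    (hκ : DifferentiableAt ℝ κ z) (hp : DifferentiableAt ℝ p z) (hq : DifferentiableAt ℝ q z)
    (hu : DifferentiableAt ℝ u z) (hϱ : ContDiffOn ℝ 1 ϱ O) (hξ : ContDiffOn ℝ 1 ξ O)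
    (hξ1 : ContDiffOn ℝ 1 (∂₁ ξ) O) (hz : z ∈ O) (h0 : oo c z ≤ 0 ∨ s * ξ z - t0 ≤ 0) :
    - (∂₁ (J1 μ κ p q u (βf c t0 s ϱ ξ) (γf c t0 s ϱ ξ) (αf ε c t0 s ϱ ξ)) z
      + ∂₂ (J2 κ p q u (βf c t0 s ϱ ξ) (γf c t0 s ϱ ξ) (αf ε c t0 s ϱ ξ)) z) = 0 := by
  have dϱ := diffAt_one isOpen_O hϱ hz
  have dξ := diffAt_one isOpen_O hξ hz
  have dξ1 := diffAt_one isOpen_O hξ1 hz
  rw [div_identity hμ hκ hp hq hu (diffAt_one isOpen_O (contDiffOn_βf hϱ hξ) hz)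
    (diffAt_one isOpen_O (contDiffOn_γf hϱ hξ) hz)
    (diffAt_one isOpen_O (contDiffOn_αf hϱ hξ hξ1) hz)]
  simp only [Dt, dd_βf _ dϱ dξ, dd_γf _ dϱ dξ, dd_αf _ dϱ dξ dξ1, dd_β''f _ dϱ dξ, dd_ωf _ dϱ dξ,
    dd_bb _ dξ, βf, γf, αf, β''f, ωf, bb]
  rcases h0 with h0 | h0
  · simp [pp_of_nonpos _ h0]
  · simp [pp_of_nonpos _ h0]

lemma pointwise {μ κ p q u : P → ℝ} (hc : Coef ε μ κ ϱ ξ) (hp : ContDiffOn ℝ ∞ p O)
    (hq : ContDiffOn ℝ ∞ q O) (hu : ContDiffOn ℝ ∞ u O) (hs : s = 1 ∨ s = -1) (hc1 : c ≤ 1)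
    (ht0 : 0 ≤ t0) {z : P} (hzK : z ∈ K) (ho : 0 < oo c z) (ht : t0 < s * ξ z) {Λ : ℝ}
    (hκ : |κ z - ε ^ 2 * kk z| ≤ ε ^ 2 / 1000 * |kk z|)
    (hf1 : |F1 μ p q z| ≤ ε ^ 2 / 1000 * (|p z| + |q z|))
    (hf2 : |F2 μ κ p q z| ≤ ε ^ 2 / 1000 * (|p z| + |q z|))
    (hu0 : u z ^ 2 ≤ Λ) (hu1 : (∂₁ u z - p z) ^ 2 ≤ Λ) (hu2 : (Dt μ u z - q z) ^ 2 ≤ Λ) :
    2 / 5 * ε ^ 2 * (wt c t0 s ξ z ^ 2 * (p z ^ 2 + q z ^ 2))
      - 80 * (2 * 10 ^ 12 * (100 / ε ^ 2)) ^ 2 / ε ^ 2 * Λ ≤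
    - (∂₁ (J1 μ κ p q u (βf c t0 s ϱ ξ) (γf c t0 s ϱ ξ) (αf ε c t0 s ϱ ξ)) z
      + ∂₂ (J2 κ p q u (βf c t0 s ϱ ξ) (γf c t0 s ϱ ξ) (αf ε c t0 s ϱ ξ)) z) := by
  have hz : z ∈ O := K_subset_O hzK
  have sϱ := ContDiffOn.top_one hc.smϱ
  have sξ := ContDiffOn.top_one hc.smξ
  have sξ1 := ContDiffOn.top_one (contDiffOn_dd isOpen_O e1 hc.smξ)
  have dϱ := diffAt_one isOpen_O sϱ hz
  have dξ := diffAt_one isOpen_O sξ hz
  have dξ1 := diffAt_one isOpen_O sξ1 hz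
  rw [div_identity (diffAt_top isOpen_O hc.smμ hz) (diffAt_top isOpen_O hc.smκ hz)
    (diffAt_top isOpen_O hp hz) (diffAt_top isOpen_O hq hz) (diffAt_top isOpen_O hu hz)
    (diffAt_one isOpen_O (contDiffOn_βf sϱ sξ) hz)
    (diffAt_one isOpen_O (contDiffOn_γf sϱ sξ) hz)
    (diffAt_one isOpen_O (contDiffOn_αf sϱ sξ sξ1) hz)]
  obtain ⟨hx, hy⟩ := mem_K_iff.1 hzK
  have hzn : ‖z‖ ≤ 8 / 5 := by rw [norm_eq_max]; exact max_le hx hy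
  have hξx := abs_le.1 (hc.ξ0 z hz)
  have hxx := abs_le.1 hx
  have hsx : -(2 / 1000) ≤ s * z.1 := by
    rcases hs with rfl | rfl <;> linarith
  have htle : s * ξ z - t0 ≤ 161 / 100 := by
    rcases hs with rfl | rfl <;> linarith
  have pd : PtData ε z.1 z.2 s (ϱ z) (∂₁ ϱ z) (Dt μ ϱ z) (μ z) (∂₁ μ z) (Dt μ μ z) (κ z) (∂₁ κ z)
      (Dt μ κ z) (∂₁ ξ z) (Dt μ ξ z) :=
    ⟨hc.hε, hc.hε1, hx, hy, hs, hsx, hc.ϱ0 z hz, hc.ϱ1 z hz, hc.ϱD z hz, hc.μ0 z hz, hc.μ1 z hz,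
      hc.μD z hz, hc.ξ1 z hz, hc.ξD z hz, hκ, hc.κ1 z hz, hc.κD z hz⟩
  have hss := pd.s_sq
  obtain ⟨v, hv_def⟩ : ∃ v, v = max (rr z - 3 / 2) 0 := ⟨_, rfl⟩
  have hv0 : 0 ≤ v := hv_def ▸ le_max_right _ _
  have hpv : ∀ n, pp n (rr z - 3 / 2) = v ^ n := fun n => by rw [hv_def]; rfl
  obtain ⟨o, ho_def⟩ : ∃ o, o = oo c z := ⟨_, rfl⟩
  obtain ⟨t, ht_def⟩ : ∃ t, t = s * ξ z - t0 := ⟨_, rfl⟩
  have ht' : 0 < t := by linarith
  have ho3 : o = c - v ^ 3 := by rw [ho_def, oo, hpv]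
  rw [← ho_def] at ho
  rw [← ht_def] at htle
  have hpo : ∀ n, pp n o = o ^ n := fun n => pp_of_nonneg ho.le
  have hpt : ∀ n, pp n t = t ^ n := fun n => pp_of_nonneg ht'.le
  have ho1 : o ≤ 1 := by have : 0 ≤ v ^ 3 := by positivity
                         linarith
  have hv1 : v ≤ 1 := by
    by_contra hcon
    have : (1 : ℝ) ^ 3 ≤ v ^ 3 := by gcongr; linarith
    linarith
  have hϱ0 := abs_le.1 (hc.ϱ0 z hz)
  have ewt : wt c t0 s ξ z = o ^ 20 * t ^ 20 := by rw [wt, ← ho_def, ← ht_def, hpo, hpt]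
  have ebb : bb c t0 s ξ z = (o ^ 20 * t ^ 20) ^ 2 := by
    rw [bb, ← ho_def, ← ht_def, hpo, hpt]; ring
  have eβ'' : β''f c t0 s ϱ ξ z = 40 * o ^ 40 * t ^ 39 * ϱ z := by
    rw [β''f, ← ho_def, ← ht_def, hpo, hpt]
  have eω : ωf c t0 s ϱ ξ z = 40 * o ^ 39 * t ^ 40 * v ^ 2 * ϱ z := by
    rw [ωf, ← ho_def, ← ht_def, hpo, hpt, hpv]
  have edb : ∀ w : P, dd w (bb c t0 s ξ) z =
      40 * o ^ 39 * (-(3 * v ^ 2 * (2 * z.1 * w.1 + 2 * z.2 * w.2))) * t ^ 40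
        + o ^ 40 * (40 * t ^ 39 * (s * dd w ξ z)) := by
    intro w
    rw [dd_bb w dξ, dd_oo, ← ho_def, ← ht_def, hpo, hpo, hpt, hpt, hpv]
  have hω0 : 0 ≤ ωf c t0 s ϱ ξ z := by
    rw [eω]; have : 0 ≤ ϱ z := by linarith
    positivity
  have F := pd.form_ge (b := (o ^ 20 * t ^ 20) ^ 2) (β'' := β''f c t0 s ϱ ξ z)
    («ω» := ωf c t0 s ϱ ξ z) (β := βf c t0 s ϱ ξ z) (β1 := ∂₁ (βf c t0 s ϱ ξ) z)
    (βD := Dt μ (βf c t0 s ϱ ξ) z) (γ := γf c t0 s ϱ ξ z) (γ1 := ∂₁ (γf c t0 s ϱ ξ) z)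
    (γD := Dt μ (γf c t0 s ϱ ξ) z) (α := αf ε c t0 s ϱ ξ z) (p := p z) (q := q z)
    (by positivity)
    (by
      rw [eβ'']
      have h1 : 0 ≤ o ^ 40 * t ^ 39 := by positivity
      have h2 := mul_le_mul_of_nonneg_left (show 23 * t ≤ 40 * ϱ z by linarith) h1
      linarith)
    hω0
    (by
      rcases le_total (rr z - 3 / 2) 0 with h | h
      · left; rw [eω, hv_def, max_eq_right h]; ring
      · right; unfold rr at h; linarith)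
    (by rw [βf, ebb])
    (by
      rw [dd_βf _ dϱ dξ, edb, ebb, eβ'', eω]
      simp only [e1_fst, e1_snd]
      linear_combination (40 * o ^ 40 * t ^ 39 * ϱ z * ∂₁ ξ z) * hss)
    (by
      simp only [Dt]
      rw [dd_βf _ dϱ dξ, dd_βf _ dϱ dξ, edb, edb, ebb, eβ'', eω]
      simp only [e1_fst, e1_snd, e2_fst, e2_snd]
      linear_combination (40 * o ^ 40 * t ^ 39 * ϱ z * (∂₂ ξ z - μ z * ∂₁ ξ z)) * hss)
    (by rw [γf, ebb])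
    (by
      rw [dd_γf _ dϱ dξ, dd_βf _ dϱ dξ]
      simp only [e1_snd]
      linear_combination (- z.2 * (∂₁ (bb c t0 s ξ) z * ϱ z + bb c t0 s ξ z * ∂₁ ϱ z)) * hss)
    (by
      simp only [Dt]
      rw [dd_γf _ dϱ dξ, dd_γf _ dϱ dξ, dd_βf _ dϱ dξ, dd_βf _ dϱ dξ, ← ebb]
      simp only [e1_snd, e2_snd]
      linear_combination (- z.2 * ((∂₂ (bb c t0 s ξ) z * ϱ z + bb c t0 s ξ z * ∂₂ ϱ z)
        - μ z * (∂₁ (bb c t0 s ξ) z * ϱ z + bb c t0 s ξ z * ∂₁ ϱ z))) * hss)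
    (by rw [αf, kk, rr])
  -- bounds on α
  have hε2 : 0 < ε ^ 2 := pow_pos hc.hε 2
  have hE : 1 ≤ 100 / ε ^ 2 := by rw [le_div_iff₀ hε2]; linarith [pd.ε2]
  have hkk : |kk z| ≤ 5 := pd.abs_k.trans (by norm_num)
  have hξ2 : |∂₂ ξ z| ≤ 2 := by
    have e : ∂₂ ξ z = Dt μ ξ z + μ z * ∂₁ ξ z := by simp [Dt]
    have h1 := pd.hξD.trans pd.abs_κ
    have h2 := pd.hμ; have h3 := pd.abs_ξ1; have h4 := pd.ε2
    rw [e]; apply le_trans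
    · bd
    · linarith
  have hv' : |v| ≤ 1 := by rwa [abs_of_nonneg hv0]
  have AB : ∀ w : P, (w = e1 ∨ w = e2) →
      |αf ε c t0 s ϱ ξ z| ≤ 10 ^ 12 * (100 / ε ^ 2) * (o ^ 20 * t ^ 20) ∧
      |dd w (αf ε c t0 s ϱ ξ) z| ≤ 10 ^ 12 * (100 / ε ^ 2) * (o ^ 20 * t ^ 20) := by
    intro w hw
    have hdr : |2 * z.1 * w.1 + 2 * z.2 * w.2| ≤ 4 := by
      rcases hw with rfl | rfl
      · simp only [e1_fst, e1_snd, mul_one, mul_zero, add_zero]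
        apply le_trans
        · bd
        · norm_num
      · simp only [e2_fst, e2_snd, mul_one, mul_zero, zero_add]
        apply le_trans
        · bd
        · norm_num
    have := alpha_bounds (E := 100 / ε ^ 2) (o := o) (t := t) (v := v) (s := s) (x := z.1)
      (y := z.2) (k := kk z) (ϱ := ϱ z) (ξ1 := ∂₁ ξ z) (dk := dd w kk z) (dr := dd w rr z)
      (do' := dd w (oo c) z) (dϱ := dd w ϱ z) (dξ := dd w ξ z) (dξ1 := dd w (∂₁ ξ) z) hE ho.le ho1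
      ht'.le (by linarith) hv0 hv1 pd.abs_s hkk (pd.abs_ϱ.trans (by norm_num))
      (pd.abs_ξ1.trans (by norm_num)) (by rw [dd_kk']; exact hdr) (by rw [dd_rr']; exact hdr)
      (by
        rw [dd_oo, hpv]
        apply le_trans
        · bd
        · norm_num)
      (by
        rcases hw with rfl | rfl
        · exact (hc.ϱ1 z hz).trans (by norm_num)
        · exact (hc.ϱ2 z hz).trans (by norm_num))
      (by
        rcases hw with rfl | rfl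
        · exact pd.abs_ξ1.trans (by norm_num)
        · exact hξ2)
      (by
        rcases hw with rfl | rfl
        · exact hc.ξ11 z hz
        · exact hc.ξ21 z hz)
      (hx.trans (by norm_num)) (hy.trans (by norm_num))
    rw [dd_αf w dϱ dξ dξ1, dd_β''f w dϱ dξ, dd_ωf w dϱ dξ, αf, eβ'', eω, ← ho_def, ← ht_def]
    simp only [hpo, hpt, hpv]
    exact this
  have ha0 : 0 ≤ o ^ 20 * t ^ 20 := by positivity
  have hVa : 0 ≤ 10 ^ 12 * (100 / ε ^ 2) * (o ^ 20 * t ^ 20) := by positivity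
  have R := pd.rem_le (a := o ^ 20 * t ^ 20) (V := 2 * 10 ^ 12 * (100 / ε ^ 2))
    (β := βf c t0 s ϱ ξ z) (γ := γf c t0 s ϱ ξ z) (α := αf ε c t0 s ϱ ξ z)
    (α1 := ∂₁ (αf ε c t0 s ϱ ξ) z) (αD := Dt μ (αf ε c t0 s ϱ ξ) z) (p := p z) (q := q z)
    (u := u z) (g1 := ∂₁ u z - p z) (g2 := Dt μ u z - q z) (f1 := F1 μ p q z)
    (f2 := F2 μ κ p q z) (Λ := Λ) ha0 (by positivity) (by rw [βf, ebb]) (by rw [γf, ebb])
    (by linarith [(AB e1 (Or.inl rfl)).1]) (by linarith [(AB e1 (Or.inl rfl)).2])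
    (by
      have h1 := (AB e1 (Or.inl rfl)).2
      have h2 := (AB e2 (Or.inr rfl)).2
      have h3 : |μ z| ≤ 1 := pd.hμ.trans (by norm_num)
      rw [Dt]
      apply le_trans
      · bd
      · linarith)
    hf1 hf2 hu0 hu1 hu2
  rw [ewt]
  linarith

end Mult

open Mult in
theorem mainEst (ε : ℝ) : ∃ C : ℝ, 0 < C ∧ ∀ {μ κ ϱ ξ : P → ℝ}, Coef ε μ κ ϱ ξ →
    ∀ {p q u Λ ϖ : P → ℝ}, ContDiffOn ℝ ∞ p O → ContDiffOn ℝ ∞ q O → ContDiffOn ℝ ∞ u O →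
      ContinuousOn Λ O → ContinuousOn ϖ O → (∀ z ∈ K, 0 ≤ Λ z) → (∀ z ∈ K, 0 ≤ ϖ z) →
    ∀ {s c t0 : ℝ}, (s = 1 ∨ s = -1) → c ≤ 1 → 0 ≤ t0 →
      (∀ z ∈ K, 0 < oo c z → t0 < s * ξ z →
        1 ≤ ϖ z ∧ |κ z - ε ^ 2 * kk z| ≤ ε ^ 2 / 1000 * |kk z| ∧
        |F1 μ p q z| ≤ ε ^ 2 / 1000 * (|p z| + |q z|) ∧
        |F2 μ κ p q z| ≤ ε ^ 2 / 1000 * (|p z| + |q z|) ∧
        u z ^ 2 ≤ Λ z ∧ (∂₁ u z - p z) ^ 2 ≤ Λ z ∧ (Dt μ u z - q z) ^ 2 ≤ Λ z) →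
      ∫ z in K, wt c t0 s ξ z ^ 2 * (p z ^ 2 + q z ^ 2) ≤ C * ∫ z in K, ϖ z * Λ z := by
  set C3 : ℝ := 80 * (2 * 10 ^ 12 * (100 / ε ^ 2)) ^ 2 / ε ^ 2 with hC3
  have hC30 : 0 ≤ C3 := by positivity
  refine ⟨C3 / (2 / 5 * ε ^ 2) + 1, by positivity, ?_⟩
  intro μ κ ϱ ξ hc p q u Λ ϖ hp hq hu hΛ hϖ hΛ0 hϖ0 s c t0 hs hc1 ht0 H
  have hε2 : 0 < ε ^ 2 := pow_pos hc.hε 2
  have sϱ := ContDiffOn.top_one hc.smϱ
  have sξ := ContDiffOn.top_one hc.smξ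
  have sξ1 := ContDiffOn.top_one (contDiffOn_dd isOpen_O e1 hc.smξ)
  have hJ1 := contDiffOn_J1 (ContDiffOn.top_one hc.smμ) (ContDiffOn.top_one hc.smκ)
    (ContDiffOn.top_one hp) (ContDiffOn.top_one hq) (ContDiffOn.top_one hu)
    (contDiffOn_βf (c := c) (t0 := t0) (s := s) sϱ sξ)
    (contDiffOn_γf (c := c) (t0 := t0) (s := s) sϱ sξ)
    (contDiffOn_αf (ε := ε) (c := c) (t0 := t0) (s := s) sϱ sξ sξ1)
  have hJ2 := contDiffOn_J2 (ContDiffOn.top_one hc.smκ)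
    (ContDiffOn.top_one hp) (ContDiffOn.top_one hq) (ContDiffOn.top_one hu)
    (contDiffOn_βf (c := c) (t0 := t0) (s := s) sϱ sξ)
    (contDiffOn_γf (c := c) (t0 := t0) (s := s) sϱ sξ)
    (contDiffOn_αf (ε := ε) (c := c) (t0 := t0) (s := s) sϱ sξ sξ1)
  have hdiv := integral_div_eq_zero hJ1 hJ2
    (fun z _ hz => by
      have h0 := oo_nonpos_of_notMem_K hc1 hz
      simp [J1, J2, βf, γf, αf, β''f, ωf, bb, pp_of_nonpos _ h0])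
    (fun z _ hz => by
      have h0 := oo_nonpos_of_notMem_K hc1 hz
      simp [J2, βf, γf, αf, β''f, ωf, bb, pp_of_nonpos _ h0])
  have cwt : ContinuousOn (wt c t0 s ξ) O :=
    ((contDiffOn_pp_comp (by norm_num) (contDiff_oo c).contDiffOn).mul
      (contDiffOn_pp_comp (by norm_num) (contDiffOn_t sξ))).continuousOn
  have i1 : IntegrableOn (fun z => wt c t0 s ξ z ^ 2 * (p z ^ 2 + q z ^ 2)) K :=
    ContinuousOn.integrableOn_K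
      ((cwt.pow 2).mul ((hp.continuousOn.pow 2).add (hq.continuousOn.pow 2)))
  have i2 : IntegrableOn (fun z => ϖ z * Λ z) K := ContinuousOn.integrableOn_K (hϖ.mul hΛ)
  have i3 := ContinuousOn.integrableOn_K
    ((continuousOn_dd isOpen_O e1 hJ1).add (continuousOn_dd isOpen_O e2 hJ2))
  have key : ∫ z in K, (2 / 5 * ε ^ 2 * (wt c t0 s ξ z ^ 2 * (p z ^ 2 + q z ^ 2))
      - C3 * (ϖ z * Λ z)) ≤ ∫ z in K,
      - (∂₁ (J1 μ κ p q u (βf c t0 s ϱ ξ) (γf c t0 s ϱ ξ) (αf ε c t0 s ϱ ξ)) z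
        + ∂₂ (J2 κ p q u (βf c t0 s ϱ ξ) (γf c t0 s ϱ ξ) (αf ε c t0 s ϱ ξ)) z) := by
    refine setIntegral_mono_on ((i1.const_mul _).sub (i2.const_mul _)) i3.neg measurableSet_K ?_
    intro z hzK
    have hz := K_subset_O hzK
    by_cases h : 0 < oo c z ∧ t0 < s * ξ z
    · obtain ⟨h1, h2, h3, h4, h5, h6, h7⟩ := H z hzK h.1 h.2
      have := pointwise hc hp hq hu hs hc1 ht0 hzK h.1 h.2 h2 h3 h4 h5 h6 h7
      rw [← hC3] at this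
      have h8 : C3 * Λ z ≤ C3 * (ϖ z * Λ z) :=
        mul_le_mul_of_nonneg_left (le_mul_of_one_le_left (hΛ0 z hzK) h1) hC30
      linarith
    · have h0 : oo c z ≤ 0 ∨ s * ξ z - t0 ≤ 0 := by
        rw [not_and_or, not_lt, not_lt] at h
        rcases h with h | h
        · exact Or.inl h
        · exact Or.inr (by linarith)
      rw [div_eq_zero (diffAt_top isOpen_O hc.smμ hz) (diffAt_top isOpen_O hc.smκ hz)
        (diffAt_top isOpen_O hp hz) (diffAt_top isOpen_O hq hz) (diffAt_top isOpen_O hu hz)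
        sϱ sξ sξ1 hz h0]
      have hw : wt c t0 s ξ z = 0 := by
        rcases h0 with h0 | h0 <;> simp [wt, pp_of_nonpos _ h0]
      have := mul_nonneg hC30 (mul_nonneg (hϖ0 z hzK) (hΛ0 z hzK))
      rw [hw]; linarith
  rw [integral_neg, hdiv, integral_sub (i1.const_mul _) (i2.const_mul _), integral_const_mul,
    integral_const_mul] at key
  have hI : 0 ≤ ∫ z in K, ϖ z * Λ z :=
    setIntegral_nonneg measurableSet_K fun z hz => mul_nonneg (hϖ0 z hz) (hΛ0 z hz)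
  have h5 : 0 < 2 / 5 * ε ^ 2 := by positivity
  have : ∫ z in K, wt c t0 s ξ z ^ 2 * (p z ^ 2 + q z ^ 2) ≤
      C3 / (2 / 5 * ε ^ 2) * ∫ z in K, ϖ z * Λ z := by
    rw [div_mul_eq_mul_div, le_div_iff₀ h5]; linarith
  linarith

end Crest.Agent.R220
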