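import Crest.Agent.R220.Pair
import Crest.Agent.R220.Cover
import Crest.Agent.R220.Mult
import Crest.Agent.R220.Bd

/-! # Row 220: the entropy chain -/

set_option autoImplicit false

open Set MeasureTheory Filter Topology
open scoped ContDiff

namespace Crest.Agent.R220

namespace ChainAux

open Surf

lemma contDiff_rr : ContDiff ℝ 1 rr := by unfold rr; fun_prop

lemma contDiffOn_oo (c : ℝ) : ContDiffOn ℝ 1 (oo c) O :=
  contDiffOn_const.sub (contDiffOn_pp_comp (by norm_num) (contDiff_rr.contDiffOn.sub contDiffOn_const))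

lemma contDiffOn_wt (c t s : ℝ) {ξ : P → ℝ} (hξ : ContDiffOn ℝ ∞ ξ O) :
    ContDiffOn ℝ 1 (wt c t s ξ) O :=
  (contDiffOn_pp_comp (by norm_num) (contDiffOn_oo c)).mul (contDiffOn_pp_comp (by norm_num)
    ((contDiffOn_const.mul (ContDiffOn.top_one hξ)).sub contDiffOn_const))

lemma wt_nonneg (c t s : ℝ) (ξ : P → ℝ) (z : P) : 0 ≤ wt c t s ξ z :=
  mul_nonneg (pp_nonneg _ _) (pp_nonneg _ _)

lemma pp_mono (n : ℕ) {x y : ℝ} (h : x ≤ y) : pp n x ≤ pp n y :=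
  pow_le_pow_left₀ (le_max_right _ _) (max_le_max h le_rfl) n

lemma pp_le {n : ℕ} {x B : ℝ} (hB : 0 ≤ B) (h : x ≤ B) : pp n x ≤ B ^ n := by
  simpa [pp_of_nonneg hB] using pp_mono n h

lemma le_pp {n : ℕ} {x B : ℝ} (hB : 0 ≤ B) (h : B ≤ x) : B ^ n ≤ pp n x := by
  simpa [pp_of_nonneg hB] using pp_mono n h

lemma oo_le (c : ℝ) (z : P) : oo c z ≤ c := by
  unfold oo
  linarith [pp_nonneg 3 (rr z - 3 / 2)]

lemma wt_zero_off_K {c t s : ℝ} (hc : c ≤ 1) (ξ : P → ℝ) {z : P} (hz : z ∉ K) :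
    wt c t s ξ z = 0 := by
  have h1 : 64 / 25 ≤ rr z := by
    rw [mem_K_iff, not_and_or, not_le, not_le] at hz
    unfold rr
    rcases hz with h | h
    · have := sq_abs z.1
      nlinarith [sq_nonneg z.2, abs_nonneg z.1]
    · have := sq_abs z.2
      nlinarith [sq_nonneg z.1, abs_nonneg z.2]
  have h2 : (53 / 50 : ℝ) ^ 3 ≤ pp 3 (rr z - 3 / 2) := le_pp (by norm_num) (by linarith)
  have h3 : oo c z ≤ 0 := by
    unfold oo
    norm_num at h2
    linarith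
  unfold wt
  rw [pp_of_nonpos (by norm_num) h3, zero_mul]

lemma dd_wt (c t s : ℝ) {ξ : P → ℝ} {z : P} (hξ : DifferentiableAt ℝ ξ z) (v : P) :
    dd v (wt c t s ξ) z =
      20 * pp 19 (oo c z) * (-(3 * pp 2 (rr z - 3 / 2) * (2 * z.1 * v.1 + 2 * z.2 * v.2))) *
        pp 20 (s * ξ z - t) + pp 20 (oo c z) * (20 * pp 19 (s * ξ z - t) * (s * dd v ξ z)) := by
  have hr : DifferentiableAt ℝ rr z := (contDiff_rr.differentiable one_ne_zero) z
  have hr' : DifferentiableAt ℝ (fun x => rr x - 3 / 2) z := hr.sub_const _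
  have ho : DifferentiableAt ℝ (oo c) z :=
    (differentiableAt_pp_comp hr' (by norm_num)).const_sub c
  have hl : DifferentiableAt ℝ (fun x => s * ξ x - t) z := (hξ.const_mul s).sub_const t
  have d1 : dd v rr z = 2 * z.1 * v.1 + 2 * z.2 * v.2 := by
    unfold rr
    rw [dd_add (by fun_prop) (by fun_prop), dd_sq (by fun_prop), dd_sq (by fun_prop), dd_fst, dd_snd]
  have d2 : dd v (oo c) z = -(3 * pp 2 (rr z - 3 / 2) * (2 * z.1 * v.1 + 2 * z.2 * v.2)) := by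
    unfold oo
    rw [dd_sub (by fun_prop) (differentiableAt_pp_comp hr' (by norm_num)), dd_pp (by norm_num) hr',
      dd_sub hr (by fun_prop), d1]
    simp
  have d3 : dd v (fun x => s * ξ x - t) z = s * dd v ξ z := by
    rw [dd_sub (hξ.const_mul s) (by fun_prop), dd_const_mul s hξ]
    simp
  unfold wt
  rw [dd_mul (differentiableAt_pp_comp ho (by norm_num)) (differentiableAt_pp_comp hl (by norm_num)),
    dd_pp (by norm_num) ho, dd_pp (by norm_num) hl, d2, d3]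
  norm_num

lemma abs_s {s : ℝ} (hs : s = 1 ∨ s = -1) : |s| = 1 := by rcases hs with rfl | rfl <;> simp

lemma s_mul_le {s : ℝ} (hs : s = 1 ∨ s = -1) (x : ℝ) : s * x ≤ |x| := by
  have := le_abs_self (s * x)
  rwa [abs_mul, abs_s hs, one_mul] at this

section coef

variable {ε : ℝ} {μ κ ϱ ξ : P → ℝ} (h : Coef ε μ κ ϱ ξ)
include h

lemma abs_xi_le {z : P} (hz : z ∈ O) : |ξ z| ≤ 1001 / 1000 * ‖z‖ := by
  have h1 := h.ξ0 z hz
  have h2 := abs_fst_le_norm z
  have h3 := abs_add_le (ξ z - z.1) z.1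
  rw [sub_add_cancel] at h3
  linarith

lemma lin_le {s t : ℝ} (hs : s = 1 ∨ s = -1) (ht : 0 ≤ t) {z : P} (hz : z ∈ K) :
    s * ξ z - t ≤ 2 := by
  have h1 := abs_xi_le h (K_subset_O hz)
  have h2 : ‖z‖ ≤ 8 / 5 := by simpa [K] using hz
  linarith [s_mul_le hs (ξ z)]

lemma wt_le {c s t : ℝ} (hs : s = 1 ∨ s = -1) (hc : c ≤ 1) (ht : 0 ≤ t) {z : P} (hz : z ∈ K) :
    wt c t s ξ z ≤ 2 ^ 33 := by
  have h1 : pp 20 (oo c z) ≤ 1 ^ 20 := pp_le zero_le_one ((oo_le c z).trans hc)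
  have h2 : pp 20 (s * ξ z - t) ≤ 2 ^ 20 := pp_le zero_le_two (lin_le h hs ht hz)
  unfold wt
  calc _ ≤ (1 : ℝ) ^ 20 * 2 ^ 20 := mul_le_mul h1 h2 (pp_nonneg _ _) (by norm_num)
    _ ≤ _ := by norm_num

lemma abs_dd_xi {z : P} (hz : z ∈ K) : |∂₁ ξ z| ≤ 2 ∧ |∂₂ ξ z| ≤ 2 := by
  have hO := K_subset_O hz
  have h1 := h.ξ1 z hO
  have h2 := h.ξD z hO
  have h3 := h.κ0 z hO
  have h4 := h.μ0 z hO
  have hε := h.hε
  have hε1 := h.hε1
  obtain ⟨hx, hy⟩ := mem_K_iff.mp hz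
  have hk : |kk z| ≤ 5 := by
    unfold kk rr
    have := sq_abs z.1
    have := sq_abs z.2
    rw [abs_le]
    constructor <;> nlinarith [abs_nonneg z.1, abs_nonneg z.2]
  have he : ε ^ 2 ≤ 1 / 1000 := by nlinarith
  have h5 : |κ z| ≤ 1 := by
    have a1 := abs_add_le (κ z - ε ^ 2 * kk z) (ε ^ 2 * kk z)
    rw [sub_add_cancel, abs_mul, abs_of_nonneg (sq_nonneg ε)] at a1
    nlinarith [sq_nonneg ε]
  have h6 : |∂₁ ξ z| ≤ 2 := by
    have a1 := abs_add_le (∂₁ ξ z - 1) 1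
    rw [sub_add_cancel, abs_one] at a1
    linarith
  refine ⟨h6, ?_⟩
  have a1 := abs_add_le (Dt μ ξ z) (μ z * ∂₁ ξ z)
  have a2 : Dt μ ξ z + μ z * ∂₁ ξ z = ∂₂ ξ z := by unfold Dt; ring
  rw [a2, abs_mul] at a1
  nlinarith [abs_nonneg (μ z), abs_nonneg (∂₁ ξ z)]

lemma abs_dd_wt_le {c s t : ℝ} (hs : s = 1 ∨ s = -1) (hc : c ≤ 1) (ht : 0 ≤ t) {z : P} (hz : z ∈ K)
    {v : P} (hv : v = e1 ∨ v = e2) : |dd v (wt c t s ξ) z| ≤ 2 ^ 33 := by
  obtain ⟨hx, hy⟩ := mem_K_iff.mp hz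
  have hr : rr z - 3 / 2 ≤ 4 := by
    unfold rr
    have := sq_abs z.1
    have := sq_abs z.2
    nlinarith [abs_nonneg z.1, abs_nonneg z.2]
  have b1 : |pp 19 (oo c z)| ≤ 1 ^ 19 := by
    rw [abs_of_nonneg (pp_nonneg _ _)]
    exact pp_le zero_le_one ((oo_le c z).trans hc)
  have b2 : |pp 20 (oo c z)| ≤ 1 ^ 20 := by
    rw [abs_of_nonneg (pp_nonneg _ _)]
    exact pp_le zero_le_one ((oo_le c z).trans hc)
  have b3 : |pp 19 (s * ξ z - t)| ≤ 2 ^ 19 := by
    rw [abs_of_nonneg (pp_nonneg _ _)]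
    exact pp_le zero_le_two (lin_le h hs ht hz)
  have b4 : |pp 20 (s * ξ z - t)| ≤ 2 ^ 20 := by
    rw [abs_of_nonneg (pp_nonneg _ _)]
    exact pp_le zero_le_two (lin_le h hs ht hz)
  have b5 : |pp 2 (rr z - 3 / 2)| ≤ 4 ^ 2 := by
    rw [abs_of_nonneg (pp_nonneg _ _)]
    exact pp_le (by norm_num) hr
  have b6 : |2 * z.1 * v.1 + 2 * z.2 * v.2| ≤ 4 := by
    rcases hv with rfl | rfl
    · simp only [e1_fst, e1_snd, mul_one, mul_zero, add_zero, abs_mul, abs_two]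
      linarith
    · simp only [e2_fst, e2_snd, mul_one, mul_zero, zero_add, abs_mul, abs_two]
      linarith
  have b7 : |dd v ξ z| ≤ 2 := by
    rcases hv with rfl | rfl
    · exact (abs_dd_xi h hz).1
    · exact (abs_dd_xi h hz).2
  have b8 : |s| ≤ 1 := (abs_s hs).le
  have b9 : |(20 : ℝ)| ≤ 20 := by norm_num
  have b10 : |(3 : ℝ)| ≤ 3 := by norm_num
  rw [dd_wt c t s (diffAt_top isOpen_O h.smξ (K_subset_O hz))]
  refine (bd_add (bd_mul (bd_mul (bd_mul b9 b1) (bd_neg (bd_mul (bd_mul b10 b5) b6))) b4)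
    (bd_mul b2 (bd_mul (bd_mul b9 b3) (bd_mul b8 b7)))).trans (by norm_num)

lemma wt_off {c s t : ℝ} {z : P} (hz : z ∈ K) (hA : ¬ (0 < oo c z ∧ t < s * ξ z)) :
    wt c t s ξ z = 0 ∧ ∀ v, dd v (wt c t s ξ) z = 0 := by
  rw [not_and_or, not_lt, not_lt] at hA
  refine ⟨?_, fun v => ?_⟩
  · unfold wt
    rcases hA with hA | hA
    · rw [pp_of_nonpos (by norm_num) hA, zero_mul]
    · rw [pp_of_nonpos (n := 20) (t := s * ξ z - t) (by norm_num) (by linarith), mul_zero]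
  · rw [dd_wt c t s (diffAt_top isOpen_O h.smξ (K_subset_O hz))]
    rcases hA with hA | hA
    · rw [pp_of_nonpos (n := 19) (by norm_num) hA, pp_of_nonpos (n := 20) (by norm_num) hA]
      simp
    · rw [pp_of_nonpos (n := 19) (t := s * ξ z - t) (by norm_num) (by linarith),
        pp_of_nonpos (n := 20) (t := s * ξ z - t) (by norm_num) (by linarith)]
      simp

lemma far {s t : ℝ} (hs : s = 1 ∨ s = -1) (ht : ε / 3000 ≤ t) {z : P} (hz : z ∈ K)
    (hA : t < s * ξ z) : ∀ᶠ x in 𝓝 z, ε / 12000 < ‖x‖ := by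
  have h1 := abs_xi_le h (K_subset_O hz)
  have h2 := s_mul_le hs (ξ z)
  have hε := h.hε
  exact continuousAt_const.eventually_lt continuous_norm.continuousAt (by linarith)

end coef

variable {L0 w ε : ℝ}

lemma est (N : ℝ) (par : Par L0 w ε) : ∃ C : ℝ, 0 < C ∧ ∀ a b : Surf N L0 w ε, a.Fine → b.Fine →
    a.Close b (ε ^ 2 / 10 ^ 5) → (∀ z : P, ε / 12000 < ‖z‖ → a.χ z = 0) →
    (∀ z : P, ε / 12000 < ‖z‖ → b.χ z = 0) → ∀ (s c t m : ℝ) (om : P → ℝ), (s = 1 ∨ s = -1) →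
    c ≤ 1 → ε / 3000 ≤ t → 0 < m → ContinuousOn om O →
    (∀ z ∈ K, 0 < oo c z → t < s * a.xi z → m ≤ om z) →
    ∫ z in K, wt c t s a.xi z ^ 2 * (a.dP b z ^ 2 + a.dQ b z ^ 2) ≤
      C / m ^ 2 * ∫ z in K, om z ^ 2 * a.Lam b z := by
  obtain ⟨C1, hC1, h1⟩ := mainEst ε
  obtain ⟨C2, hC2, h2⟩ := pair_source N par
  obtain ⟨C3, hC3, h3⟩ := pair_potential N par
  refine ⟨C1 * C3, by positivity, fun a b ha hb hab hχa hχb s c t m om hs hc ht hm hom hsupp => ?_⟩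
  have hε := par.hε
  have key := h1 ha.coef (p := a.dP b) (q := a.dQ b) (u := a.uu b)
    (Λ := fun z => C3 * a.Lam b z) (ϖ := fun z => om z ^ 2 / m ^ 2) (sm_dP ha hb) (sm_dQ ha hb)
    (sm_uu a b) (continuousOn_const.mul (sm_Lam a b).continuousOn) ((hom.pow 2).div_const _)
    (fun z _ => mul_nonneg hC3.le (Lam_nonneg a b z)) (fun z _ => by positivity)
    (s := s) (c := c) (t0 := t) hs hc (by linarith) (fun z hz h0 hA => by
      have hfar := far ha.coef hs ht hz hA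
      have hva : ∀ᶠ x in 𝓝 z, a.χ x = 0 := hfar.mono hχa
      have hvb : ∀ᶠ x in 𝓝 z, b.χ x = 0 := hfar.mono hχb
      have hsd : sd (a.dχ b) z = 0 := sd_eq_zero (by
        filter_upwards [hva, hvb] with x hx hy
        simp [dχ, hx, hy])
      have hsrc := h2 a b ha hb hab z hz
      rw [hsd, mul_zero, add_zero] at hsrc
      have hpot := h3 a b ha hb z (K_subset_O hz) (by rw [hva.self_of_nhds, hvb.self_of_nhds])
      refine ⟨?_, ha.κrel z (K_subset_O hz) hva, hsrc.1, hsrc.2, hpot⟩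
      rw [le_div_iff₀ (by positivity), one_mul]
      exact pow_le_pow_left₀ hm.le (hsupp z hz h0 hA) 2)
  refine key.trans (le_of_eq ?_)
  rw [← integral_const_mul, ← integral_const_mul]
  congr 1
  funext z
  ring

lemma h1est (N : ℝ) (par : Par L0 w ε) : ∃ C : ℝ, 1 ≤ C ∧ ∀ a b : Surf N L0 w ε, a.Fine → b.Fine →
    a.Close b (ε ^ 2 / 10 ^ 5) → (∀ z : P, ε / 12000 < ‖z‖ → a.χ z = 0) →
    (∀ z : P, ε / 12000 < ‖z‖ → b.χ z = 0) → ∀ (s c t m : ℝ) (om : P → ℝ), (s = 1 ∨ s = -1) →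
    c ≤ 1 → ε / 3000 ≤ t → 0 < m → ContinuousOn om O →
    (∀ z ∈ K, 0 < oo c z → t < s * a.xi z → m ≤ om z) → ∀ i,
    ∫ z in K, ((wt c t s a.xi z * a.W b i z) ^ 2 + ∂₁ (fun x => wt c t s a.xi x * a.W b i x) z ^ 2 +
      ∂₂ (fun x => wt c t s a.xi x * a.W b i x) z ^ 2) ≤
      C / m ^ 2 * ∫ z in K, om z ^ 2 * a.Lam b z := by
  obtain ⟨C1, hC1, h1⟩ := est N par
  obtain ⟨C2, hC2, h2⟩ := pair_hess N par
  obtain ⟨B, hB⟩ : ∃ B : ℝ, B = 2 ^ 33 := ⟨_, rfl⟩
  have hB1 : 1 ≤ B := by rw [hB]; norm_num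
  refine ⟨(5 + 2 * C2) * B ^ 2 + 2 * C2 * C1, by nlinarith [mul_pos hC2 hC1, mul_pos hC2 hC2],
    fun a b ha hb hab hχa hχb s c t m om hs hc ht hm hom hsupp i => ?_⟩
  have hε := par.hε
  have ht0 : 0 ≤ t := by linarith
  have hw := contDiffOn_wt c t s ha.coef.smξ
  have hW := sm_W a b i
  have hf : ContDiffOn ℝ 1 (fun x => wt c t s a.xi x * a.W b i x) O :=
    hw.mul (ContDiffOn.top_one hW)
  have hI1 : IntegrableOn (fun z => om z ^ 2 * a.Lam b z) K :=
    ContinuousOn.integrableOn_K ((hom.pow 2).mul (sm_Lam a b).continuousOn)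
  have hI2 : IntegrableOn (fun z => wt c t s a.xi z ^ 2 * (a.dP b z ^ 2 + a.dQ b z ^ 2)) K :=
    ContinuousOn.integrableOn_K ((hw.continuousOn.pow 2).mul
      (((sm_dP ha hb).continuousOn.pow 2).add ((sm_dQ ha hb).continuousOn.pow 2)))
  have hpt : ∀ z ∈ K, (wt c t s a.xi z * a.W b i z) ^ 2 +
      ∂₁ (fun x => wt c t s a.xi x * a.W b i x) z ^ 2 +
      ∂₂ (fun x => wt c t s a.xi x * a.W b i x) z ^ 2 ≤
      (5 + 2 * C2) * B ^ 2 / m ^ 2 * (om z ^ 2 * a.Lam b z) +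
        2 * C2 * (wt c t s a.xi z ^ 2 * (a.dP b z ^ 2 + a.dQ b z ^ 2)) := by
    intro z hz
    have hO := K_subset_O hz
    have hL := Lam_nonneg a b z
    rw [dd_mul (diffAt_one isOpen_O hw hO) (diffAt_top isOpen_O hW hO),
      dd_mul (diffAt_one isOpen_O hw hO) (diffAt_top isOpen_O hW hO)]
    by_cases hA : 0 < oo c z ∧ t < s * a.xi z
    · have hfar := far ha.coef hs ht hz hA.2
      have hh := h2 a b ha hb hab z hz (by
        filter_upwards [hfar.mono hχa, hfar.mono hχb] with x hx hy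
        rw [hx, hy]) i
      have b0 := wt_le ha.coef hs hc ht0 hz
      have b1 := abs_dd_wt_le ha.coef hs hc ht0 hz (Or.inl rfl)
      have b2 := abs_dd_wt_le ha.coef hs hc ht0 hz (Or.inr rfl)
      rw [← hB] at b0 b1 b2
      have b0' : wt c t s a.xi z ^ 2 ≤ B ^ 2 := pow_le_pow_left₀ (wt_nonneg _ _ _ _ _) b0 2
      have b1' : ∂₁ (wt c t s a.xi) z ^ 2 ≤ B ^ 2 := by
        rw [← sq_abs]
        exact pow_le_pow_left₀ (abs_nonneg _) b1 2
      have b2' : ∂₂ (wt c t s a.xi) z ^ 2 ≤ B ^ 2 := by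
        rw [← sq_abs]
        exact pow_le_pow_left₀ (abs_nonneg _) b2 2
      have hWL : a.W b i z ^ 2 ≤ a.Lam b z :=
        Finset.single_le_sum (f := fun i => a.W b i z ^ 2) (fun _ _ => sq_nonneg _)
          (Finset.mem_univ i)
      have hm2 : a.Lam b z ≤ 1 / m ^ 2 * (om z ^ 2 * a.Lam b z) := by
        have := pow_le_pow_left₀ hm.le (hsupp z hz hA.1 hA.2) 2
        rw [one_div_mul_eq_div, le_div_iff₀ (by positivity)]
        nlinarith
      set x := wt c t s a.xi z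
      set x1 := ∂₁ (wt c t s a.xi) z
      set x2 := ∂₂ (wt c t s a.xi) z
      set y := a.W b i z
      set y1 := ∂₁ (a.W b i) z
      set y2 := ∂₂ (a.W b i) z
      set Λ := a.Lam b z
      set p2 := a.dP b z ^ 2
      set q2 := a.dQ b z ^ 2
      have e1 : (x * y) ^ 2 ≤ B ^ 2 * Λ := by
        rw [mul_pow]
        exact mul_le_mul b0' hWL (sq_nonneg _) (sq_nonneg _)
      have e2 : (x1 * y) ^ 2 ≤ B ^ 2 * Λ := by
        rw [mul_pow]
        exact mul_le_mul b1' hWL (sq_nonneg _) (sq_nonneg _)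
      have e3 : (x2 * y) ^ 2 ≤ B ^ 2 * Λ := by
        rw [mul_pow]
        exact mul_le_mul b2' hWL (sq_nonneg _) (sq_nonneg _)
      have e4 : x ^ 2 * (y1 ^ 2 + y2 ^ 2) ≤ x ^ 2 * (C2 * (p2 + q2 + Λ)) :=
        mul_le_mul_of_nonneg_left hh (sq_nonneg _)
      have e5 : C2 * (x ^ 2 * Λ) ≤ C2 * (B ^ 2 * Λ) := by gcongr
      have e6 : (5 + 2 * C2) * B ^ 2 * Λ ≤ (5 + 2 * C2) * B ^ 2 * (1 / m ^ 2 * (om z ^ 2 * Λ)) := by
        gcongr
      have e7 : (5 + 2 * C2) * B ^ 2 * (1 / m ^ 2 * (om z ^ 2 * Λ)) =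
          (5 + 2 * C2) * B ^ 2 / m ^ 2 * (om z ^ 2 * Λ) := by ring
      nlinarith [sq_nonneg (x1 * y - x * y1), sq_nonneg (x2 * y - x * y2)]
    · obtain ⟨z0, z1⟩ := wt_off ha.coef hz hA
      rw [z0, z1, z1]
      simp only [zero_mul, add_zero, ne_eq, OfNat.ofNat_ne_zero, not_false_eq_true, zero_pow,
        mul_zero]
      positivity
  have hIl : IntegrableOn (fun z => (wt c t s a.xi z * a.W b i z) ^ 2 +
      ∂₁ (fun x => wt c t s a.xi x * a.W b i x) z ^ 2 +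
      ∂₂ (fun x => wt c t s a.xi x * a.W b i x) z ^ 2) K :=
    ContinuousOn.integrableOn_K (((hf.continuousOn.pow 2).add
      ((continuousOn_dd isOpen_O _ hf).pow 2)).add ((continuousOn_dd isOpen_O _ hf).pow 2))
  refine (setIntegral_mono_on hIl ((hI1.const_mul _).add (hI2.const_mul _)) measurableSet_K
    hpt).trans ?_
  simp only [Pi.add_apply]
  rw [integral_add (hI1.const_mul _) (hI2.const_mul _), integral_const_mul, integral_const_mul]
  have h3 := mul_le_mul_of_nonneg_left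
    (h1 a b ha hb hab hχa hχb s c t m om hs hc ht hm hom hsupp) (by positivity : 0 ≤ 2 * C2)
  refine (add_le_add le_rfl h3).trans (le_of_eq (by ring))

lemma step (N : ℝ) (par : Par L0 w ε) : ∃ C : ℝ, 0 < C ∧ ∀ s : ℝ, (s = 1 ∨ s = -1) →
    ∀ {α : Type} (S : Finset α) (F : α → Surf N L0 w ε), (∀ a ∈ S, (F a).Fine) →
    (∀ a ∈ S, ∀ b ∈ S, (F a).Close (F b) (ε ^ 2 / 10 ^ 5)) →
    (∀ a ∈ S, ∀ z : P, ε / 12000 < ‖z‖ → (F a).χ z = 0) → ∀ a ∈ S, ∀ (c t m Z : ℝ) (om om' : P → ℝ),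
    c ≤ 1 → ε / 3000 ≤ t → 0 < m → m ≤ 1 → 0 < Z → ContinuousOn om O → ContinuousOn om' O →
    (∀ z ∈ K, 0 < oo c z → t < s * (F a).xi z → m ≤ om z) →
    (∀ z ∈ K, om' z ^ 2 ≤ wt c t s (F a).xi z ^ 2) →
    (∀ b ∈ S, ∫ z in K, om z ^ 2 * (F a).Lam (F b) z ≤ Z) →
    ∃ S' ⊆ S, S'.Nonempty ∧ (S.card : ℝ) ≤ Real.exp (C / m ^ 3) * S'.card ∧
      ∀ b ∈ S', ∀ b' ∈ S', ∫ z in K, om' z ^ 2 * (F b).Lam (F b') z ≤ Z / 4 := by
  obtain ⟨C1, hC1, h1⟩ := h1est N par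
  obtain ⟨C2, hC2, h2⟩ := l2Cover (Bool × Fin 3)
  have hq1 : 1 ≤ √(24 * C1) := Real.one_le_sqrt.mpr (by linarith)
  have hq2 : √(24 * C1) ^ 2 = 24 * C1 := Real.sq_sqrt (by linarith)
  refine ⟨C2 * √(24 * C1) ^ 3, by positivity,
    fun s hs α S F hF hcl hχ a ha c t m Z om om' hc ht hm hm1 hZ hom hom' hsupp hle hZb => ?_⟩
  have hr2 : √(C1 / m ^ 2 * Z) ^ 2 = C1 / m ^ 2 * Z := Real.sq_sqrt (by positivity)
  have hw := contDiffOn_wt c t s (hF a ha).coef.smξ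
  obtain ⟨S', hS', hne, hcard, hd⟩ := h2 (m / √(24 * C1)) (√(C1 / m ^ 2 * Z)) (by positivity)
    ((div_le_one (by positivity)).mpr (hm1.trans hq1)) (Real.sqrt_pos.mpr (by positivity)) S ⟨a, ha⟩
    (fun b i x => wt c t s (F a).xi x * (F a).W (F b) i x) (fun b hb i =>
      ⟨hw.mul (ContDiffOn.top_one (sm_W _ _ i)), fun z _ hz => by
        simp only [wt_zero_off_K hc _ hz, zero_mul], by
        rw [hr2]
        refine (h1 (F a) (F b) (hF a ha) (hF b hb) (hcl a ha b hb) (hχ a ha) (hχ b hb) s c t m om hs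
          hc ht hm hom hsupp i).trans ?_
        exact mul_le_mul_of_nonneg_left (hZb b hb) (by positivity)⟩)
  refine ⟨S', hS', hne, hcard.trans (le_of_eq ?_), fun b hb b' hb' => ?_⟩
  · congr 2
    field_simp
  · have hlam : (m / √(24 * C1)) ^ 2 * √(C1 / m ^ 2 * Z) ^ 2 = Z / 24 := by
      rw [hr2, div_pow, hq2]
      field_simp
    have hI : ∀ i, IntegrableOn (fun z => wt c t s (F a).xi z ^ 2 * (F b).W (F b') i z ^ 2) K :=
      fun i => ContinuousOn.integrableOn_K ((hw.continuousOn.pow 2).mul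
        ((sm_W _ _ i).continuousOn.pow 2))
    have hi : ∀ i, ∫ z in K, wt c t s (F a).xi z ^ 2 * (F b).W (F b') i z ^ 2 ≤ Z / 24 := by
      intro i
      have := hd b' hb' b hb i
      simp only [← mul_sub, W_sub, mul_pow] at this
      rwa [hlam] at this
    calc ∫ z in K, om' z ^ 2 * (F b).Lam (F b') z
        ≤ ∫ z in K, ∑ i, wt c t s (F a).xi z ^ 2 * (F b).W (F b') i z ^ 2 := by
          refine setIntegral_mono_on (ContinuousOn.integrableOn_K ((hom'.pow 2).mul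
            (sm_Lam _ _).continuousOn)) (integrable_finsetSum _ fun i _ => hI i) measurableSet_K
            fun z hz => ?_
          rw [← Finset.mul_sum]
          exact mul_le_mul_of_nonneg_right (hle z hz) (Lam_nonneg _ _ z)
      _ = ∑ i, ∫ z in K, wt c t s (F a).xi z ^ 2 * (F b).W (F b') i z ^ 2 :=
          integral_finsetSum _ fun i _ => hI i
      _ ≤ ∑ _i : Bool × Fin 3, Z / 24 := Finset.sum_le_sum fun i _ => hi i
      _ = Z / 4 := by
          simp only [Finset.sum_const, Finset.card_univ, Fintype.card_prod, Fintype.card_bool,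
            Fintype.card_fin, nsmul_eq_mul]
          push_cast
          ring

end ChainAux

open ChainAux Surf in
/-- After paying a factor `exp (C J^121)` in cardinality, all pairs are `4^{-J}`-close on one side
(`η = ε / 3000`). -/
theorem chain (N : ℝ) {L0 w ε : ℝ} (par : Par L0 w ε) : ∃ C : ℝ, 0 < C ∧ ∀ J : ℕ, 1 ≤ J →
    ∀ s : ℝ, (s = 1 ∨ s = -1) → ∀ {α : Type} (S : Finset α), S.Nonempty →
    ∀ F : α → Surf N L0 w ε, (∀ a ∈ S, (F a).Fine) →
      (∀ a ∈ S, ∀ b ∈ S, (F a).Close (F b) (ε ^ 2 / 10 ^ 5)) →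
      (∀ a ∈ S, ∀ b ∈ S, ∀ z ∈ K, |(F a).xi z - (F b).xi z| ≤ ε / (12000 * J)) →
      (∀ a ∈ S, ∀ z : P, ε / 12000 < ‖z‖ → (F a).χ z = 0) →
      ∃ S' ⊆ S, S'.Nonempty ∧ (S.card : ℝ) ≤ Real.exp (C * J ^ 121) * S'.card ∧
        ∀ a ∈ S', ∀ b ∈ S', ∫ z in K, wt (1 / 4) (ε / 1200) s (F a).xi z ^ 2 *
          ((F a).dP (F b) z ^ 2 + (F a).dQ (F b) z ^ 2) ≤ C / 4 ^ J := by
  obtain ⟨C1, hC1, h1⟩ := est N par
  obtain ⟨C2, hC2, h2⟩ := step N par
  have hε := par.hε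
  have hε1 := par.hε1
  obtain ⟨C0, hC0⟩ : ∃ C0 : ℝ, C0 = (2 ^ 33) ^ 2 * (24 * N ^ 2) * (256 / 25) + 1 := ⟨_, rfl⟩
  have hC00 : 0 < C0 := by rw [hC0]; positivity
  have hA : 0 < C2 * (12000 / ε) ^ 60 := by positivity
  have hB : 0 < C1 / ((ε / 48000) ^ 20) ^ 2 * C0 := by positivity
  refine ⟨C2 * (12000 / ε) ^ 60 + C1 / ((ε / 48000) ^ 20) ^ 2 * C0, by positivity,
    fun J hJ s hs α S hS F hF hcl hξ hχ => ?_⟩
  obtain ⟨a0, ha0⟩ := hS
  have hJ1 : (1 : ℝ) ≤ J := by exact_mod_cast hJ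
  have hJ0 : (0 : ℝ) < J := by linarith
  obtain ⟨u, hu⟩ : ∃ u : ℝ, u = (J : ℝ)⁻¹ := ⟨_, rfl⟩
  have hu0 : 0 < u := by rw [hu]; positivity
  have hu1 : u ≤ 1 := by rw [hu]; exact inv_le_one_of_one_le₀ hJ1
  have hJu : J * u = 1 := by rw [hu]; field_simp
  have hξ' : ∀ a ∈ S, ∀ z ∈ K, s * (F a).xi z - ε * u / 12000 ≤ s * (F a0).xi z ∧
      s * (F a0).xi z ≤ s * (F a).xi z + ε * u / 12000 := by
    intro a ha z hz
    have e : ε / (12000 * J) = ε * u / 12000 := by rw [hu]; field_simp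
    have b1 := hξ a ha a0 ha0 z hz
    have b2 := hξ a0 ha0 a ha z hz
    have b3 := s_mul_le hs ((F a).xi z - (F a0).xi z)
    have b4 := s_mul_le hs ((F a0).xi z - (F a).xi z)
    rw [e] at b1 b2
    constructor <;> linarith
  let om : ℕ → P → ℝ := fun i => wt (1 - i * u / 2) (ε / 3000 * (1 + i * u)) s (F a0).xi
  have homc : ∀ i, ContinuousOn (om i) O := fun i =>
    (contDiffOn_wt _ _ _ (hF a0 ha0).coef.smξ).continuousOn
  have claim : ∀ i : ℕ, ∃ S' ⊆ S, S'.Nonempty ∧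
      (S.card : ℝ) ≤ Real.exp (C2 * (12000 / ε) ^ 60 * J ^ 120) ^ i * S'.card ∧
      ∀ a ∈ S', ∀ b ∈ S', ∫ z in K, om i z ^ 2 * (F a).Lam (F b) z ≤ C0 / 4 ^ i := by
    intro i
    induction i with
    | zero =>
      refine ⟨S, le_rfl, ⟨a0, ha0⟩, by simp, fun a _ b _ => ?_⟩
      have hb : ∀ z ∈ K, ‖om 0 z ^ 2 * (F a).Lam (F b) z‖ ≤ (2 ^ 33) ^ 2 * (24 * N ^ 2) := by
        intro z hz
        have b1 : om 0 z ≤ 2 ^ 33 := wt_le (hF a0 ha0).coef hs (by simp) (by positivity) hz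
        have b2 := Lam_le (F a) (F b) (K_subset_O hz)
        have b3 := Lam_nonneg (F a) (F b) z
        have b4 : 0 ≤ om 0 z := wt_nonneg _ _ _ _ _
        rw [Real.norm_of_nonneg (by positivity)]
        gcongr
      have := norm_setIntegral_le_of_norm_le_const (μ := volume) isCompact_K.measure_lt_top hb
      rw [Measure.real, volume_real_K] at this
      have h3 := (le_abs_self _).trans this
      rw [hC0]
      simp only [pow_zero, div_one]
      linarith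
    | succ i ih =>
      obtain ⟨Si, hSi, ⟨a, ha⟩, hcard, hZ⟩ := ih
      have hi0 : (0 : ℝ) ≤ i := by positivity
      have hiu : 0 ≤ i * u := by positivity
      have hεu : 0 < ε * u := by positivity
      have hεiu : 0 ≤ ε * (i * u) := by positivity
      obtain ⟨S', hS', hne, hc', hZ'⟩ := h2 s hs Si F (fun a ha => hF a (hSi ha))
        (fun a ha b hb => hcl a (hSi ha) b (hSi hb)) (fun a ha => hχ a (hSi ha)) a ha
        (1 - (i + 1 : ℕ) * u / 2) (ε / 3000 * (1 + (i + 1 : ℕ) * u) - ε * u / 12000)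
        ((u / 2) ^ 20 * (ε * u / 6000) ^ 20) (C0 / 4 ^ i) (om i) (om (i + 1))
        (by have : 0 ≤ ((i + 1 : ℕ) : ℝ) * u := by positivity
            linarith)
        (by push_cast; linarith) (by positivity)
        (mul_le_one₀ (pow_le_one₀ (by positivity) (by linarith)) (by positivity)
          (pow_le_one₀ (by positivity) (by nlinarith)))
        (by positivity) (homc i) (homc (i + 1))
        (fun z hz h0 ht => by
          have b1 := (hξ' a (hSi ha) z hz).1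
          push_cast at h0 ht
          refine mul_le_mul (le_pp (by positivity) ?_) (le_pp (by positivity) ?_) (by positivity)
            (pp_nonneg _ _)
          · unfold oo at h0 ⊢
            linarith
          · linarith)
        (fun z hz => by
          have b1 := (hξ' a (hSi ha) z hz).2
          refine pow_le_pow_left₀ (wt_nonneg _ _ _ _ _) ?_ 2
          exact mul_le_mul_of_nonneg_left (pp_mono _ (by linarith)) (pp_nonneg _ _))
        (hZ a ha)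
      refine ⟨S', hS'.trans hSi, hne, ?_, fun b hb b' hb' => (hZ' b hb b' hb').trans
        (le_of_eq (by rw [pow_succ]; field_simp))⟩
      have e : C2 / ((u / 2) ^ 20 * (ε * u / 6000) ^ 20) ^ 3 = C2 * (12000 / ε) ^ 60 * J ^ 120 := by
        rw [hu]
        field_simp
        norm_num
      rw [e] at hc'
      rw [pow_succ, mul_assoc]
      exact hcard.trans (mul_le_mul_of_nonneg_left hc' (by positivity))
  obtain ⟨S', hS', hne, hcard, hZ⟩ := claim J
  refine ⟨S', hS', hne, hcard.trans ?_, fun a ha b hb => ?_⟩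
  · rw [← Real.exp_nat_mul]
    refine mul_le_mul_of_nonneg_right (Real.exp_le_exp.mpr ?_) (by positivity)
    have : 0 ≤ C1 / ((ε / 48000) ^ 20) ^ 2 * C0 * J ^ 121 := by positivity
    calc (J : ℝ) * (C2 * (12000 / ε) ^ 60 * J ^ 120) = C2 * (12000 / ε) ^ 60 * J ^ 121 := by ring
      _ ≤ _ := by rw [add_mul]; linarith
  · have h3 := h1 (F a) (F b) (hF a (hS' ha)) (hF b (hS' hb)) (hcl a (hS' ha) b (hS' hb))
      (hχ a (hS' ha)) (hχ b (hS' hb)) s (1 / 4) (ε / 1200) ((ε / 48000) ^ 20) (om J) hs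
      (by norm_num) (by linarith) (by positivity) (homc J) (fun z hz h0 ht => by
        have b1 := (hξ' a (hS' ha) z hz).1
        have b2 : ε * u ≤ ε := mul_le_of_le_one_right hε.le hu1
        have e : (ε / 48000) ^ 20 = (1 / 4) ^ 20 * (ε / 12000) ^ 20 := by
          rw [← mul_pow]
          congr 1
          ring
        rw [e]
        simp only [om, hJu]
        refine mul_le_mul (le_pp (by positivity) ?_) (le_pp (by positivity) ?_) (by positivity)
          (pp_nonneg _ _)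
        · unfold oo at h0 ⊢
          linarith
        · linarith)
    refine h3.trans ((mul_le_mul_of_nonneg_left (hZ a ha b hb) (by positivity)).trans ?_)
    rw [← mul_div_assoc]
    gcongr
    linarith

end Crest.Agent.R220
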