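import Crest.Agent.R220.DetectAux

/-! # Row 220: auxiliary lemmas for the detection step, part 2 -/

set_option autoImplicit false

open Set MeasureTheory Filter Topology
open scoped ContDiff

namespace Crest.Agent.R220

open PairAux

lemma det_chi_bounds : ∃ C : ℝ, 0 < C ∧ ∀ h : ℝ, 0 < h → ∀ (k n : ℕ) (α β : Fin n → Bool),
    ∀ f : P → ℝ, (f = fun x => chi h (k + 4) n β x - chi h (k + 4) n α x) → ∀ z ∈ O,
      |f z| ≤ C * n * h ^ k * h ^ 4 ∧ |∂₁ f z| ≤ C * n * h ^ k * h ^ 3 ∧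
      |∂₂ f z| ≤ C * n * h ^ k * h ^ 3 ∧ |lap f z| ≤ C * n * h ^ k * h ^ 2 ∧
      |∂₁ (lap f) z| ≤ C * n * h ^ k * h := by
  obtain ⟨C, hC, hq⟩ := exists_QB_chi
  refine ⟨4 * C, by positivity, fun h hh k n α β f hf z hz => ?_⟩
  have hw : 0 < 1 / h := by positivity
  have q0 : QB (1 / h) _ 3 f := hf ▸ (hq h hh (k + 4) n β).sub (hq h hh (k + 4) n α)
  have q1 := q0.d1' hw
  have q2 := q0.d2' hw
  have ql : QB (1 / h) _ 1 (lap f) := (q1.d1' hw).add (q2.d2' hw)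
  have hn : (0 : ℝ) ≤ n := by positivity
  have hp : 0 ≤ C * n * h ^ k := by positivity
  refine ⟨(q0.bound z hz).trans ?_, (q1.bound z hz).trans ?_, (q2.bound z hz).trans ?_,
    (ql.bound z hz).trans (le_of_eq ?_), (ql.abs_d1_le hw z hz).trans (le_of_eq ?_)⟩
  · have : C * n * h ^ (k + 4) = C * n * h ^ k * h ^ 4 := by ring
    rw [this]; nlinarith [pow_pos hh 4]
  · have : (C * n * h ^ (k + 4) + C * n * h ^ (k + 4)) * (1 / h) = 2 * (C * n * h ^ k * h ^ 3) := by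
      field_simp; ring
    rw [this]; nlinarith [pow_pos hh 3]
  · have : (C * n * h ^ (k + 4) + C * n * h ^ (k + 4)) * (1 / h) = 2 * (C * n * h ^ k * h ^ 3) := by
      field_simp; ring
    rw [this]; nlinarith [pow_pos hh 3]
  · field_simp; ring
  · field_simp; ring

lemma det_slopes {N L0 w ε : ℝ} {a : Surf N L0 w ε} (ha : a.Fine) : ∃ ap am : ℝ,
    |ap| ≤ 1 / 10 ∧ |am| ≤ 1 ∧ a.L 0 * (ap + am) = 2 * a.M 0 ∧ a.L 0 * (ap * am) = a.Nn 0 := by
  have hκ := ha.coef.κ0 0 zero_mem_O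
  have hμ := ha.coef.μ0 0 zero_mem_O
  have hk : kk 0 = -1 := by simp [kk, rr]
  have hε := ha.coef.hε
  have hε1 := ha.coef.hε1
  have hL := ha.pa_L_ne zero_mem_O
  rw [hk, abs_le] at hκ
  have hε2 : ε ^ 2 ≤ 1 / 10 ^ 6 := by nlinarith
  have h0 : 0 ≤ - a.ka 0 := by nlinarith [sq_nonneg ε]
  have h1 : - a.ka 0 ≤ (1 / 100) ^ 2 := by nlinarith [sq_nonneg ε]
  have hs := Real.sq_sqrt h0
  have hs0 := Real.sqrt_nonneg (- a.ka 0)
  have hs1 : √(- a.ka 0) ≤ 1 / 100 := Real.sqrt_le_iff.2 ⟨by norm_num, h1⟩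
  rw [abs_le] at hμ
  refine ⟨a.mu 0 + √(- a.ka 0), a.mu 0 - √(- a.ka 0), abs_le.2 ⟨by linarith, by linarith⟩,
    abs_le.2 ⟨by linarith, by linarith⟩, ?_, ?_⟩
  · simp only [Surf.mu]; field_simp; ring
  · have : (a.mu 0 + √(- a.ka 0)) * (a.mu 0 - √(- a.ka 0)) = a.mu 0 ^ 2 + a.ka 0 := by
      linear_combination -hs
    rw [this]; simp only [Surf.mu, Surf.ka]; field_simp; ring

lemma det_lip {f : P → ℝ} (hf : ContDiffOn ℝ ∞ f O) {B R : ℝ}
    (h : ∀ z ∈ O, |∂₁ f z| ≤ B ∧ |∂₂ f z| ≤ B) {z : P} (hz : z ∈ O) (hR : ‖z‖ ≤ 2 * R) :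
    |f 0 - f z| ≤ 4 * B * R := by
  have hB : 0 ≤ B := (abs_nonneg _).trans (h z hz).1
  have := abs_sub_le_of_dd_bound (fun z hz => diffAt_top isOpen_O hf hz) (fun z hz => (h z hz).1)
    (fun z hz => (h z hz).2) hz zero_mem_O
  rw [zero_sub, norm_neg] at this
  nlinarith

lemma det_exp {N L0 w ε : ℝ} {b : Surf N L0 w ε} (hb : b.Fine) :
    1 / 2 ≤ Real.exp (2 * b.ψ 0) ∧ ∀ R : ℝ, ∀ z ∈ O, ‖z‖ ≤ 2 * R →
      |Real.exp (2 * b.ψ 0) - Real.exp (2 * b.ψ z)| ≤ R := by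
  have hτ := Surf.pa_tau_le hb.coef.hε hb.coef.hε1
  constructor
  · have h1 := hb.pa_ψ zero_mem_O
    have h2 := exp_two_sub_one_le (h1.trans (by norm_num))
    have := (abs_le.1 h2).1
    norm_num at h1
    linarith
  · intro R z hz hR
    have hR0 : 0 ≤ R := by linarith [norm_nonneg z]
    have h1 := det_lip b.pa_iso.smψ hb.ψ1 hz hR
    have h2 : |b.ψ 0 - b.ψ z| ≤ 1 / 10 :=
      (bd_sub (hb.pa_ψ zero_mem_O) (hb.pa_ψ hz)).trans (by norm_num)
    have h3 := exp_two_sub_one_le h2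
    have h4 := exp_two_le ((hb.pa_ψ hz).trans (by norm_num : (1 : ℝ) / 10 ^ 11 ≤ 1 / 10))
    have e : Real.exp (2 * b.ψ 0) - Real.exp (2 * b.ψ z) =
        Real.exp (2 * b.ψ z) * (Real.exp (2 * (b.ψ 0 - b.ψ z)) - 1) := by
      rw [mul_sub, ← Real.exp_add]; congr 1
      · congr 1; ring
      · ring
    rw [e]
    refine (bd_mul h4 h3).trans ?_
    have : ε ^ 2 / 10 ^ 5 * R ≤ 1 / 10 ^ 11 * R := by gcongr
    nlinarith

/-- the analytic core of the detection step, for abstract fields -/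
lemma det_core {p q r Q S0 lp cz L M N ζ : P → ℝ} {T t : ℝ → ℝ}
    {h c ap am R Ct Cz Cc X Y lam lam' ϖ : ℝ}
    (hp : ContDiffOn ℝ ∞ p O) (hq : ContDiffOn ℝ ∞ q O) (hr : ContDiffOn ℝ ∞ r O)
    (hQ : ContinuousOn Q O) (hlp : ContinuousOn lp O)
    (hζ : ContDiff ℝ ∞ ζ) (ζ1 : ∀ z, |ζ z| ≤ 1) (ζin : ∀ z, ‖z‖ ≤ R → ζ z = 1)
    (ζout : ∀ z, 2 * R ≤ ‖z‖ → ζ z = 0) (ζd : ∀ z, |∂₁ ζ z| ≤ Cz / R ∧ |∂₂ ζ z| ≤ Cz / R)
    (hT : ContDiff ℝ ∞ T) (hTt : ∀ s, HasDerivAt T (t s) s) (ht : Continuous t)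
    (hCt : ∀ s, |T s| ≤ Ct ∧ |t s| ≤ Ct) (hh : 0 < h) (hhR : h ≤ R) (hR : 2 * R ≤ 8 / 5)
    (hϖ : ϖ < R) (hCz : 0 ≤ Cz) (hCc : 0 ≤ Cc) (hX : 0 ≤ X) (hY : 0 ≤ Y)
    (hl : 0 < lam) (hl' : 0 < lam') (ham : |am| ≤ 1) (hL0 : |L 0| ≤ 2)
    (e1' : L 0 * (ap + am) = 2 * M 0) (e2' : L 0 * (ap * am) = N 0)
    (eS : ∀ z, S0 z = (L z + p z) * (N z + r z) - (M z + q z) ^ 2 - (L z * N z - M z ^ 2))
    (hb : ∀ z ∈ K, ‖z‖ ≤ 2 * R → |cz 0 - cz z| ≤ Cc * R ∧ |lp z| ≤ Y ∧ |S0 z + cz z * lp z| ≤ X ∧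
      |L 0 - L z| ≤ R ∧ |M 0 - M z| ≤ R ∧ |N 0 - N z| ≤ R ∧ |q z| ≤ |p z| + |Q z| ∧
      |r z| ≤ |p z| + |Q z| + 2 * Y ∧ |∂₂ p z - ∂₁ q z| ≤ |p z| + |Q z| + 3 * Y ∧
      |∂₂ q z - ∂₁ r z| ≤ |p z| + |Q z| + 3 * Y)
    (hout : ∀ z ∈ K, ϖ < ‖z‖ → |q z| ≤ |p z| + |Q z| ∧ |r z| ≤ |p z| + |Q z|) :
    |cz 0 * ∫ z in K, ζ z * t ((z.1 - c + ap * z.2) / h) * lp z| ≤
      Ct * (6 + 16 * (R / lam)) * (∫ z in Metric.closedBall (0 : P) (2 * R), (p z ^ 2 + Q z ^ 2)) +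
        Ct * ((Cc + 14) * R * Y + X + Y ^ 2 + 8 * R * lam) * (16 * R ^ 2) +
      (16 * Ct * Cz / lam' * (∫ z in Metric.closedBall (0 : P) (2 * R) \ Metric.ball (0 : P) R,
          (p z ^ 2 + Q z ^ 2)) + 8 * Ct * Cz * lam' * (16 * R ^ 2)) := by
  have hR0 : 0 < R := hh.trans_le hhR
  have hCt0 : 0 ≤ Ct := (abs_nonneg _).trans (hCt 0).1
  have cl : Continuous (fun z : P => (z.1 - c + ap * z.2) / h) := by fun_prop
  have ct : ContinuousOn (fun z : P => t ((z.1 - c + ap * z.2) / h)) O :=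
    (ht.comp cl).continuousOn
  have cT : ContinuousOn (fun z : P => h * T ((z.1 - c + ap * z.2) / h)) O :=
    (continuous_const.mul (hT.continuous.comp cl)).continuousOn
  have cζ : ContinuousOn ζ O := hζ.continuous.continuousOn
  have cζ1 : ContinuousOn (∂₁ ζ) O := (contDiff_dd _ hζ).continuous.continuousOn
  have cζ2 : ContinuousOn (∂₂ ζ) O := (contDiff_dd _ hζ).continuous.continuousOn
  have cp := hp.continuousOn
  have cq := hq.continuousOn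
  have cr := hr.continuousOn
  have cp2 := (contDiffOn_dd isOpen_O e2 hp).continuousOn
  have cq1 := (contDiffOn_dd isOpen_O e1 hq).continuousOn
  have cq2 := (contDiffOn_dd isOpen_O e2 hq).continuousOn
  have cr1 := (contDiffOn_dd isOpen_O e1 hr).continuousOn
  have hsub : Metric.closedBall (0 : P) (2 * R) ⊆ K := Metric.closedBall_subset_closedBall hR
  have hζ0 : ∀ z, z ∉ K → ζ z = 0 := fun z hz => ζout z (by
    have : ¬ ‖z‖ ≤ 2 * R := fun h' => hz (hsub (mem_closedBall_zero_iff.2 h'))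
    linarith [not_le.1 this])
  have hdiv := det_div hp hq hr hζ hζ0 hT hTt hh.ne' c ap am
  set F : P → ℝ := fun z => ζ z * t ((z.1 - c + ap * z.2) / h) * lp z with hF
  set Ψa : P → ℝ := fun z => cz 0 * (ζ z * t ((z.1 - c + ap * z.2) / h) * lp z) +
    L 0 * (ζ z * t ((z.1 - c + ap * z.2) / h) * ((r z - am * q z) - ap * (q z - am * p z)) -
      ζ z * (h * T ((z.1 - c + ap * z.2) / h)) *
        ((∂₂ q z - ∂₁ r z) - am * (∂₂ p z - ∂₁ q z))) with hΨa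
  set Ψb : P → ℝ := fun z => L 0 * (h * T ((z.1 - c + ap * z.2) / h) *
    (∂₁ ζ z * (r z - am * q z) - ∂₂ ζ z * (q z - am * p z))) with hΨb
  have cF : ContinuousOn F O := by rw [hF]; fun_prop
  have cΨa : ContinuousOn Ψa O := by rw [hΨa]; fun_prop
  have cΨb : ContinuousOn Ψb O := by rw [hΨb]; fun_prop
  have cu : ContinuousOn (fun z => p z ^ 2 + Q z ^ 2) O := by fun_prop
  have key : cz 0 * ∫ z in K, F z = (∫ z in K, Ψa z) + ∫ z in K, Ψb z := by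
    rw [← integral_add (ContinuousOn.integrableOn_K cΨa) (ContinuousOn.integrableOn_K cΨb),
      ← add_zero (cz 0 * ∫ z in K, F z), ← mul_zero (L 0), ← hdiv, ← integral_const_mul,
      ← integral_const_mul, ← integral_add]
    · refine setIntegral_congr_fun measurableSet_K fun z _ => ?_
      simp only [hF, hΨa, hΨb]; ring
    · exact (ContinuousOn.integrableOn_K cF).const_mul _
    · exact ContinuousOn.integrableOn_K (by fun_prop)
  have hmu : ∀ z, (|p z| + |Q z|) ^ 2 ≤ 2 * (p z ^ 2 + Q z ^ 2) := fun z => by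
    rw [← sq_abs (p z), ← sq_abs (Q z)]; nlinarith [sq_nonneg (|p z| - |Q z|)]
  have hpm : ∀ z, |p z| ≤ |p z| + |Q z| := fun z => le_add_of_nonneg_right (abs_nonneg _)
  have hTh : ∀ s, |h * T s| ≤ Ct * h := fun s => by
    rw [abs_mul, abs_of_pos hh, mul_comm]; exact mul_le_mul_of_nonneg_right (hCt s).1 hh.le
  rw [key]
  refine (abs_add_le _ _).trans (add_le_add ?_ ?_)
  · refine det_int_bound hR0.le cΨa cu Metric.isClosed_closedBall.measurableSet hsub subset_rfl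
      (by positivity) (fun z _ hz => ?_) (fun z hz => ?_)
    · have : ζ z = 0 := ζout z (by
        rw [mem_closedBall_zero_iff, not_le] at hz; exact hz.le)
      simp [hΨa, this]
    · obtain ⟨b1, b2, b3, b4, b5, b6, b7, b8, b9, b10⟩ :=
        hb z (hsub hz) (mem_closedBall_zero_iff.1 hz)
      exact det_ptA e1' e2' (eS z) (ζ1 z) (hCt _).2 ((hTh _).trans (by gcongr)) hL0 ham b1 b2 b3
        b4 b5 b6 (hpm z) b7 b8 b9 b10 hl (hmu z)
  · refine det_int_bound hR0.le cΨb cu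
      (Metric.isClosed_closedBall.measurableSet.diff Metric.isOpen_ball.measurableSet)
      (sdiff_subset.trans hsub) sdiff_subset (by positivity) (fun z _ hz => ?_) (fun z hz => ?_)
    · have : ∀ v, dd v ζ z = 0 := fun v => by
        by_cases h1 : ‖z‖ < R
        · have : ζ =ᶠ[𝓝 z] fun _ => 1 := by
            filter_upwards [(isOpen_lt continuous_norm continuous_const).mem_nhds h1] with x hx
            exact ζin x (le_of_lt hx)
          rw [dd_congr this, dd_const]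
        · have h2 : 2 * R < ‖z‖ := by
            by_contra h2
            exact hz ⟨mem_closedBall_zero_iff.2 (not_lt.1 h2), by simpa using not_lt.1 h1⟩
          refine dd_eq_zero_of_eventually ?_
          filter_upwards [(isOpen_lt continuous_const continuous_norm).mem_nhds h2] with x hx
          exact ζout x (le_of_lt hx)
      simp [hΨb, this]
    · have h1 : R ≤ ‖z‖ := by simpa using hz.2
      obtain ⟨b1, b2⟩ := hout z (hsub hz.1) (hϖ.trans_le h1)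
      exact det_ptB hL0 (hTh _) (ζd z).1 (ζd z).2 ham (hpm z) b1 b2 hh hhR hCt0 hCz hl' (hmu z)

end Crest.Agent.R220
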