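import Crest.Agent.R220.Hyp

/-! # Row 220: `L²` bounds near the cluster of bumps (consequence of `hypEst`) -/

set_option autoImplicit false

open Set MeasureTheory Filter Topology
open scoped ContDiff

namespace Crest.Agent.R220

lemma loc_continuous_rr : Continuous rr := by unfold rr; fun_prop

lemma loc_continuousOn_wt (c t0 s : ℝ) {ξ : P → ℝ} (hξ : ContinuousOn ξ O) :
    ContinuousOn (wt c t0 s ξ) O := by
  unfold wt oo
  refine ((continuous_pp 20).comp_continuousOn ?_).mul ((continuous_pp 20).comp_continuousOn ?_)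
  · exact (continuous_const.sub ((continuous_pp 3).comp
      (loc_continuous_rr.sub continuous_const))).continuousOn
  · exact (continuousOn_const.mul hξ).sub continuousOn_const

lemma loc_wt_lower {ε s : ℝ} (hε : 0 < ε) {ξ : P → ℝ} {z : P} (hz : ‖z‖ ≤ 1 / 2)
    (h : s * ξ z ≤ -(ε / 1000)) :
    (1 / 4) ^ 20 * (ε / 6000) ^ 20 ≤ wt (1 / 4) (ε / 1200) (-s) ξ z := by
  have h1 := (abs_fst_le_norm z).trans hz
  have h2 := (abs_snd_le_norm z).trans hz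
  have h3 : rr z - 3 / 2 ≤ 0 := by
    unfold rr
    rw [← sq_abs z.1, ← sq_abs z.2]
    nlinarith [abs_nonneg z.1, abs_nonneg z.2]
  unfold wt oo
  rw [pp_of_nonpos (by norm_num) h3, sub_zero, pp_of_nonneg (by norm_num),
    pp_of_nonneg (by linarith)]
  gcongr
  linarith

/-- `hypEst` with the weight coming from the one-sided estimates -/
lemma loc_hyp (ε : ℝ) : ∃ C : ℝ, 0 < C ∧ ∀ {μ κ ϱ ξ : P → ℝ}, Coef ε μ κ ϱ ξ →
    ∀ {p q S : P → ℝ}, ContDiffOn ℝ ∞ p O → ContDiffOn ℝ ∞ q O → ContinuousOn S O →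
      (∀ z ∈ K, 0 ≤ S z) →
      (∀ z ∈ K, |F1 μ p q z| ≤ ε ^ 2 / 1000 * (|p z| + |q z|) + S z ∧
        |F2 μ κ p q z| ≤ ε ^ 2 / 1000 * (|p z| + |q z|) + S z) →
    ∀ {δ2 : ℝ}, (∀ s : ℝ, s = 1 ∨ s = -1 →
        ∫ z in K, wt (1 / 4) (ε / 1200) s ξ z ^ 2 * (p z ^ 2 + q z ^ 2) ≤ δ2) →
    ∀ {s σ τ0 : ℝ}, (s = 1 ∨ s = -1) → (σ = 1 ∨ σ = -1) → τ0 ≤ ε / 800 →
      ∫ z in K, pp 1 (τ0 - tau ε s σ ξ z) * pp 2 (s * ξ z + ε / 20) * (p z ^ 2 + q z ^ 2) ≤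
        C * (δ2 + ∫ z in K, pp 3 (τ0 - tau ε s σ ξ z) * S z ^ 2) := by
  obtain ⟨C, hC, H⟩ := hypEst ε
  set m : ℝ := (1 / 4) ^ 20 * (ε / 6000) ^ 20 with hm
  refine ⟨C * (1 / m ^ 2 + 1), by positivity, ?_⟩
  intro μ κ ϱ ξ hc p q S hp hq hS hS0 hF δ2 hδ s σ τ0 hs hσ hτ
  have hε := hc.hε
  have hm0 : 0 < m := by positivity
  have hwc := loc_continuousOn_wt (1 / 4) (ε / 1200) (-s) hc.smξ.continuousOn
  have h1 := H hc (ϖ := fun z => 1 / m ^ 2 * wt (1 / 4) (ε / 1200) (-s) ξ z ^ 2) hp hq hS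
    (continuousOn_const.mul (hwc.pow 2)) hS0 (fun z _ => by positivity) hF hs hσ hτ (by
      intro z _ hz h
      have h2 := loc_wt_lower hε hz h
      rw [← hm] at h2
      have h3 : m ^ 2 ≤ wt (1 / 4) (ε / 1200) (-s) ξ z ^ 2 := by gcongr
      rw [one_div, inv_mul_eq_div, one_le_div (by positivity)]
      exact h3)
  have h2 := hδ (-s) (by rcases hs with rfl | rfl <;> simp)
  have h3 : 0 ≤ ∫ z in K, wt (1 / 4) (ε / 1200) (-s) ξ z ^ 2 * (p z ^ 2 + q z ^ 2) :=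
    setIntegral_nonneg measurableSet_K fun z _ => by positivity
  have h4 : 0 ≤ ∫ z in K, pp 3 (τ0 - tau ε s σ ξ z) * S z ^ 2 :=
    setIntegral_nonneg measurableSet_K fun z _ => mul_nonneg (pp_nonneg _ _) (sq_nonneg _)
  simp only [mul_assoc (1 / m ^ 2), integral_const_mul] at h1
  refine h1.trans ?_
  rw [mul_assoc]
  refine mul_le_mul_of_nonneg_left ?_ hC.le
  have h5 : 0 ≤ 1 / m ^ 2 := by positivity
  have h6 := mul_le_mul_of_nonneg_left h2 h5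
  have h7 := mul_nonneg h5 h4
  nlinarith

lemma loc_abs_xi {ε : ℝ} {μ κ ϱ ξ : P → ℝ} (hc : Coef ε μ κ ϱ ξ) {z : P} (hz : z ∈ O) :
    |ξ z| ≤ 1001 / 1000 * ‖z‖ := by
  obtain ⟨a1, a2⟩ := abs_le.1 (hc.ξ0 z hz)
  obtain ⟨a3, a4⟩ := abs_le.1 (abs_fst_le_norm z)
  exact abs_le.2 ⟨by linarith, by linarith⟩

lemma loc_tau_lower {ε s σ : ℝ} {μ κ ϱ ξ : P → ℝ} (hc : Coef ε μ κ ϱ ξ) (hs : s = 1 ∨ s = -1)
    (hσ : σ = 1 ∨ σ = -1) {z : P} (hz : z ∈ O) : ε / 1600 - 2 * ‖z‖ ≤ tau ε s σ ξ z := by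
  have hε := hc.hε
  have hε1 := hc.hε1
  obtain ⟨a1, a2⟩ := abs_le.1 (loc_abs_xi hc hz)
  obtain ⟨a3, a4⟩ := abs_le.1 (abs_snd_le_norm z)
  have hn := norm_nonneg z
  have h1 : 1 / 1600 - ‖z‖ / 20 ≤ (z.2 - σ / 40) ^ 2 := by
    rcases hσ with rfl | rfl <;> nlinarith [sq_nonneg z.2]
  have h2 := mul_le_mul_of_nonneg_left h1 hε.le
  have h3 : ε * ‖z‖ ≤ ‖z‖ := by nlinarith
  unfold tau
  rcases hs with rfl | rfl <;> nlinarith

lemma loc_tau_upper {ε : ℝ} {μ κ ϱ ξ : P → ℝ} (hc : Coef ε μ κ ϱ ξ) {z : P} (hz : ‖z‖ ≤ 1 / 40) :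
    tau ε 1 1 ξ z ≤ ε / 1600 + 3 / 2 * ‖z‖ := by
  have hε := hc.hε
  have hε1 := hc.hε1
  have hzO : z ∈ O := by simp only [O, Metric.mem_ball, dist_zero_right]; linarith
  obtain ⟨a1, a2⟩ := abs_le.1 (loc_abs_xi hc hzO)
  obtain ⟨a3, a4⟩ := abs_le.1 (abs_snd_le_norm z)
  have hn := norm_nonneg z
  have h1 : (z.2 - 1 / 40) ^ 2 ≤ 1 / 1600 + ‖z‖ / 10 := by nlinarith
  have h2 := mul_le_mul_of_nonneg_left h1 hε.le
  have h3 : ε * ‖z‖ ≤ ‖z‖ := by nlinarith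
  unfold tau
  nlinarith

lemma loc_tau_choice {ε : ℝ} {μ κ ϱ ξ : P → ℝ} (hc : Coef ε μ κ ϱ ξ) {z : P} (hz : ‖z‖ ≤ 1 / 40) :
    ∃ s σ : ℝ, (s = 1 ∨ s = -1) ∧ (σ = 1 ∨ σ = -1) ∧ tau ε s σ ξ z ≤ ε / 1600 - ε * ‖z‖ / 40 := by
  have hε := hc.hε
  have hε1 := hc.hε1
  have hzO : z ∈ O := by simp only [O, Metric.mem_ball, dist_zero_right]; linarith
  obtain ⟨s, hs, hs'⟩ : ∃ s : ℝ, (s = 1 ∨ s = -1) ∧ s * ξ z = -|ξ z| := by
    rcases le_total 0 (ξ z) with h | h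
    · exact ⟨-1, Or.inr rfl, by rw [abs_of_nonneg h]; ring⟩
    · exact ⟨1, Or.inl rfl, by rw [abs_of_nonpos h]; ring⟩
  obtain ⟨σ, hσ, hσ'⟩ : ∃ σ : ℝ, (σ = 1 ∨ σ = -1) ∧
      (z.2 - σ / 40) ^ 2 = |z.2| ^ 2 - |z.2| / 20 + 1 / 1600 := by
    rcases le_total 0 z.2 with h | h
    · exact ⟨1, Or.inl rfl, by rw [abs_of_nonneg h]; ring⟩
    · exact ⟨-1, Or.inr rfl, by rw [abs_of_nonpos h]; ring⟩
  refine ⟨s, σ, hs, hσ, ?_⟩
  unfold tau
  rw [hs', hσ']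
  have hn := norm_nonneg z
  have b1 := abs_snd_le_norm z
  have b2 := abs_nonneg z.2
  have b3 := abs_nonneg (ξ z)
  rcases max_cases |z.1| |z.2| with ⟨h, -⟩ | ⟨h, -⟩
  · rw [← norm_eq_max] at h
    have c1 : |z.1| - ‖z‖ / 1000 ≤ |ξ z| := by
      have d1 := hc.ξ0 z hzO
      have d2 := abs_sub_abs_le_abs_sub z.1 (ξ z)
      rw [abs_sub_comm] at d2
      linarith
    have c2 : |z.2| ^ 2 - |z.2| / 20 + 1 / 1600 ≤ 1 / 1600 := by nlinarith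
    have c3 := mul_le_mul_of_nonneg_left c2 hε.le
    have c4 : ε * ‖z‖ ≤ ‖z‖ := by nlinarith
    linarith
  · rw [← norm_eq_max] at h
    rw [← h]
    have c2 : ‖z‖ ^ 2 - ‖z‖ / 20 + 1 / 1600 ≤ 1 / 1600 - ‖z‖ / 40 := by nlinarith
    have c3 := mul_le_mul_of_nonneg_left c2 hε.le
    linarith

lemma loc_volume_ball {r : ℝ} (hr : 0 ≤ r) :
    (volume : Measure P).real (Metric.closedBall 0 r) = 4 * r ^ 2 := by
  have : Metric.closedBall (0 : P) r = Icc (-r) r ×ˢ Icc (-r) r := by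
    ext z
    simp only [Metric.mem_closedBall, dist_zero_right, norm_eq_max, max_le_iff, abs_le, mem_prod,
      mem_Icc]
  rw [Measure.real, this, Measure.volume_eq_prod, Measure.prod_prod, Real.volume_Icc,
    ← ENNReal.ofReal_mul (by linarith), ENNReal.toReal_ofReal (by nlinarith)]
  ring

theorem localEst (ε : ℝ) : ∃ C : ℝ, 0 < C ∧ ∀ {μ κ ϱ ξ : P → ℝ}, Coef ε μ κ ϱ ξ →
    ∀ {p q S : P → ℝ}, ContDiffOn ℝ ∞ p O → ContDiffOn ℝ ∞ q O → ContinuousOn S O →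
      (∀ z ∈ K, 0 ≤ S z) →
      (∀ z ∈ K, |F1 μ p q z| ≤ ε ^ 2 / 1000 * (|p z| + |q z|) + S z ∧
        |F2 μ κ p q z| ≤ ε ^ 2 / 1000 * (|p z| + |q z|) + S z) →
    ∀ {ϖ σ0 δ2 : ℝ}, 0 < ϖ → ϖ ≤ ε ^ 2 / (2 * 10 ^ 6) →
      (∀ z ∈ K, S z ≤ σ0) → (∀ z ∈ K, ϖ < ‖z‖ → S z = 0) →
      (∀ s : ℝ, s = 1 ∨ s = -1 →
        ∫ z in K, wt (1 / 4) (ε / 1200) s ξ z ^ 2 * (p z ^ 2 + q z ^ 2) ≤ δ2) →
      (∫ z in Metric.closedBall (0 : P) (240 * ϖ / ε) \ Metric.ball (0 : P) (120 * ϖ / ε),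
          (p z ^ 2 + q z ^ 2) ≤ C * δ2 / ϖ) ∧
      (∫ z in Metric.closedBall (0 : P) (240 * ϖ / ε), (p z ^ 2 + q z ^ 2) ≤
          C * (δ2 / ϖ + ϖ ^ 4 * σ0 ^ 2)) := by
  obtain ⟨C, hC, H⟩ := loc_hyp ε
  refine ⟨C * (6400 / ε ^ 2 + 10 ^ 11 / ε ^ 4 + 1), by positivity, ?_⟩
  intro μ κ ϱ ξ hc p q S hp hq hS hS0 hF ϖ σ0 δ2 hϖ hϖ1 hSσ hSϖ hδ
  have hε := hc.hε
  have hε1 := hc.hε1
  have H' := fun s σ τ0 => H hc hp hq hS hS0 hF hδ (s := s) (σ := σ) (τ0 := τ0)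
  have hδ0 : 0 ≤ δ2 :=
    (setIntegral_nonneg measurableSet_K fun z _ => by positivity).trans (hδ 1 (Or.inl rfl))
  obtain ⟨R, hR⟩ : ∃ R : ℝ, R = 120 * ϖ / ε := ⟨_, rfl⟩
  have hR2 : 240 * ϖ / ε = 2 * R := by rw [hR]; ring
  rw [hR2, ← hR]
  have hεR : ε * R = 120 * ϖ := by rw [hR]; field_simp
  have hR0 : 0 < R := by rw [hR]; positivity
  have hR1 : R ≤ 6 / 100000 * ε := by
    rw [hR, div_le_iff₀ hε]; nlinarith
  have hϖR : ϖ ≤ R / 2 := by nlinarith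
  have hBK : Metric.closedBall (0 : P) (2 * R) ⊆ K :=
    Metric.closedBall_subset_closedBall (by linarith)
  have cp := hp.continuousOn
  have cq := hq.continuousOn
  have cξ := hc.smξ.continuousOn
  have cE : ContinuousOn (fun z => p z ^ 2 + q z ^ 2) O := (cp.pow 2).add (cq.pow 2)
  have iE : IntegrableOn (fun z => p z ^ 2 + q z ^ 2) K := ContinuousOn.integrableOn_K cE
  obtain ⟨I, hI⟩ : ∃ I : ℝ → ℝ → ℝ → P → ℝ, I = fun s σ τ0 z =>
      pp 1 (τ0 - tau ε s σ ξ z) * pp 2 (s * ξ z + ε / 20) * (p z ^ 2 + q z ^ 2) := ⟨_, rfl⟩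
  have cτ : ∀ s σ τ0 : ℝ, ContinuousOn (fun z => τ0 - tau ε s σ ξ z) O := fun s σ τ0 =>
    continuousOn_const.sub (contDiffOn_tau hc.smξ).continuousOn
  have iI : ∀ s σ τ0, IntegrableOn (I s σ τ0) K := by
    intro s σ τ0
    rw [hI]
    exact ContinuousOn.integrableOn_K ((((continuous_pp 1).comp_continuousOn (cτ s σ τ0)).mul
      ((continuous_pp 2).comp_continuousOn
        ((continuousOn_const.mul cξ).add continuousOn_const))).mul cE)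
  have I0 : ∀ s σ τ0 z, 0 ≤ I s σ τ0 z := by
    intro s σ τ0 z
    rw [hI]
    exact mul_nonneg (mul_nonneg (pp_nonneg _ _) (pp_nonneg _ _)) (by positivity)
  have Ilow : ∀ s σ τ0 a : ℝ, (s = 1 ∨ s = -1) → 0 ≤ a → ∀ z : P, ‖z‖ ≤ 2 * R →
      a ≤ τ0 - tau ε s σ ξ z → a * (ε / 40) ^ 2 * (p z ^ 2 + q z ^ 2) ≤ I s σ τ0 z := by
    intro s σ τ0 a hs ha z hz h
    have hzO : z ∈ O := K_subset_O (hBK (by simpa using hz))
    obtain ⟨a1, a2⟩ := abs_le.1 (loc_abs_xi hc hzO)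
    have h1 : ε / 40 ≤ s * ξ z + ε / 20 := by rcases hs with rfl | rfl <;> linarith
    rw [hI]
    simp only
    have h2 := ha.trans h
    rw [pp_of_nonneg h2, pp_of_nonneg (by linarith), pow_one]
    gcongr
  have H'' : ∀ s σ τ0 : ℝ, (s = 1 ∨ s = -1) → (σ = 1 ∨ σ = -1) → τ0 ≤ ε / 800 →
      ∫ z in K, I s σ τ0 z ≤ C * (δ2 + ∫ z in K, pp 3 (τ0 - tau ε s σ ξ z) * S z ^ 2) := by
    intro s σ τ0 hs hσ hτ
    rw [hI]
    exact H' s σ τ0 hs hσ hτ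
  constructor
  · -- the annulus
    set τ0 := ε / 1600 - 2 * ϖ with hτ0
    have hA : ∀ s σ : ℝ, (s = 1 ∨ s = -1) → (σ = 1 ∨ σ = -1) →
        ∫ z in K, I s σ τ0 z ≤ C * δ2 := by
      intro s σ hs hσ
      have h1 := H'' s σ τ0 hs hσ (by linarith)
      have h2 : ∫ z in K, pp 3 (τ0 - tau ε s σ ξ z) * S z ^ 2 = 0 := by
        refine setIntegral_eq_zero_of_forall_eq_zero fun z hz => ?_
        rcases lt_or_ge ϖ ‖z‖ with h | h
        · rw [hSϖ z hz h]; ring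
        · have := loc_tau_lower hc hs hσ (K_subset_O hz)
          rw [pp_of_nonpos (by norm_num) (by linarith), zero_mul]
      rwa [h2, add_zero] at h1
    set A := Metric.closedBall (0 : P) (2 * R) \ Metric.ball (0 : P) R with hAdef
    have hAK : A ⊆ K := sdiff_subset.trans hBK
    have mA : MeasurableSet A := measurableSet_closedBall.diff measurableSet_ball
    have iS : IntegrableOn (fun z => I 1 1 τ0 z + I 1 (-1) τ0 z + I (-1) 1 τ0 z +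
        I (-1) (-1) τ0 z) K := (((iI _ _ _).add (iI _ _ _)).add (iI _ _ _)).add (iI _ _ _)
    have h1 : ∫ z in A, ϖ * (ε / 40) ^ 2 * (p z ^ 2 + q z ^ 2) ≤
        ∫ z in A, (I 1 1 τ0 z + I 1 (-1) τ0 z + I (-1) 1 τ0 z + I (-1) (-1) τ0 z) := by
      refine setIntegral_mono_on ((iE.mono_set hAK).const_mul _) (iS.mono_set hAK) mA ?_
      rintro z ⟨hz1, hz2⟩
      have hz1' : ‖z‖ ≤ 2 * R := by simpa using hz1
      have hz2' : R ≤ ‖z‖ := by simpa using hz2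
      obtain ⟨s, σ, hs, hσ, h⟩ := loc_tau_choice hc (z := z) (by linarith)
      have h3 : ε * R ≤ ε * ‖z‖ := mul_le_mul_of_nonneg_left hz2' hε.le
      have h4 := Ilow s σ τ0 ϖ hs hϖ.le z hz1' (by linarith)
      have b1 := I0 1 1 τ0 z
      have b2 := I0 1 (-1) τ0 z
      have b3 := I0 (-1) 1 τ0 z
      have b4 := I0 (-1) (-1) τ0 z
      rcases hs with rfl | rfl <;> rcases hσ with rfl | rfl <;> linarith
    have h2 : ∫ z in A, (I 1 1 τ0 z + I 1 (-1) τ0 z + I (-1) 1 τ0 z + I (-1) (-1) τ0 z) ≤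
        ∫ z in K, (I 1 1 τ0 z + I 1 (-1) τ0 z + I (-1) 1 τ0 z + I (-1) (-1) τ0 z) :=
      setIntegral_mono_set iS (Eventually.of_forall fun z => by
        have b1 := I0 1 1 τ0 z
        have b2 := I0 1 (-1) τ0 z
        have b3 := I0 (-1) 1 τ0 z
        have b4 := I0 (-1) (-1) τ0 z
        positivity) hAK.eventuallyLE
    have h3 : ∫ z in K, (I 1 1 τ0 z + I 1 (-1) τ0 z + I (-1) 1 τ0 z + I (-1) (-1) τ0 z) =
        (∫ z in K, I 1 1 τ0 z) + (∫ z in K, I 1 (-1) τ0 z) + (∫ z in K, I (-1) 1 τ0 z) +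
          ∫ z in K, I (-1) (-1) τ0 z := by
      have j2 : IntegrableOn (fun z => I 1 1 τ0 z + I 1 (-1) τ0 z) K := (iI _ _ _).add (iI _ _ _)
      have j3 : IntegrableOn (fun z => I 1 1 τ0 z + I 1 (-1) τ0 z + I (-1) 1 τ0 z) K :=
        j2.add (iI _ _ _)
      rw [integral_add j3 (iI _ _ _), integral_add j2 (iI _ _ _),
        integral_add (iI _ _ _) (iI _ _ _)]
    rw [integral_const_mul] at h1
    have b1 := hA 1 1 (Or.inl rfl) (Or.inl rfl)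
    have b2 := hA 1 (-1) (Or.inl rfl) (Or.inr rfl)
    have b3 := hA (-1) 1 (Or.inr rfl) (Or.inl rfl)
    have b4 := hA (-1) (-1) (Or.inr rfl) (Or.inr rfl)
    have h4 : ϖ * (ε / 40) ^ 2 * ∫ z in A, (p z ^ 2 + q z ^ 2) ≤ 4 * (C * δ2) := by linarith
    rw [le_div_iff₀ hϖ]
    set X := ∫ z in A, (p z ^ 2 + q z ^ 2)
    have h5 : X * ϖ = 1600 / ε ^ 2 * (ϖ * (ε / 40) ^ 2 * X) := by field_simp; ring
    have h6 := mul_le_mul_of_nonneg_left h4 (show 0 ≤ 1600 / ε ^ 2 by positivity)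
    have h7 : 0 ≤ C * (10 ^ 11 / ε ^ 4 + 1) * δ2 := by positivity
    have h8 : C * (6400 / ε ^ 2 + 10 ^ 11 / ε ^ 4 + 1) * δ2 =
      1600 / ε ^ 2 * (4 * (C * δ2)) + C * (10 ^ 11 / ε ^ 4 + 1) * δ2 := by ring
    linarith
  · -- the ball
    set τ0 := ε / 1600 + 6 * R with hτ0
    set B := Metric.closedBall (0 : P) (2 * R) with hBdef
    have h0 := H'' 1 1 τ0 (Or.inl rfl) (Or.inl rfl) (by linarith)
    have h1 : ∫ z in B, 3 * R * (ε / 40) ^ 2 * (p z ^ 2 + q z ^ 2) ≤ ∫ z in B, I 1 1 τ0 z := by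
      refine setIntegral_mono_on ((iE.mono_set hBK).const_mul _) ((iI _ _ _).mono_set hBK)
        measurableSet_closedBall ?_
      intro z hz
      have hz' : ‖z‖ ≤ 2 * R := by simpa [hBdef] using hz
      have h3 := loc_tau_upper hc (z := z) (by linarith)
      exact Ilow 1 1 τ0 (3 * R) (Or.inl rfl) (by positivity) z hz' (by linarith)
    have h2 : ∫ z in B, I 1 1 τ0 z ≤ ∫ z in K, I 1 1 τ0 z :=
      setIntegral_mono_set (iI _ _ _) (Eventually.of_forall fun z => I0 _ _ _ z) hBK.eventuallyLE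
    have hb : Metric.closedBall (0 : P) ϖ ⊆ K := Metric.closedBall_subset_closedBall (by linarith)
    have h3 : ∫ z in K, pp 3 (τ0 - tau ε 1 1 ξ z) * S z ^ 2 ≤ (7 * R) ^ 3 * σ0 ^ 2 * (4 * ϖ ^ 2) := by
      have i3 : IntegrableOn (fun z => pp 3 (τ0 - tau ε 1 1 ξ z) * S z ^ 2) K :=
        ContinuousOn.integrableOn_K (((continuous_pp 3).comp_continuousOn (cτ _ _ _)).mul
          (hS.pow 2))
      rw [setIntegral_eq_of_subset_of_forall_sdiff_eq_zero measurableSet_K hb (by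
        rintro z ⟨hz1, hz2⟩
        rw [hSϖ z hz1 (by simpa using hz2)]; ring), ← loc_volume_ball hϖ.le, mul_comm,
        ← smul_eq_mul, ← setIntegral_const]
      refine setIntegral_mono_on (i3.mono_set hb)
        (integrableOn_const measure_closedBall_lt_top.ne) measurableSet_closedBall ?_
      intro z hz
      have hz' : ‖z‖ ≤ ϖ := by simpa using hz
      have b1 := loc_tau_lower hc (Or.inl rfl) (Or.inl rfl) (K_subset_O (hb hz))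
      have b2 : pp 3 (τ0 - tau ε 1 1 ξ z) ≤ (7 * R) ^ 3 := by
        unfold pp
        gcongr
        exact max_le (by linarith) (by positivity)
      have b3 := hS0 z (hb hz)
      have b4 := hSσ z (hb hz)
      gcongr
    rw [integral_const_mul] at h1
    set X := ∫ z in B, (p z ^ 2 + q z ^ 2)
    have h4 : 3 * R * (ε / 40) ^ 2 * X ≤ C * (δ2 + (7 * R) ^ 3 * σ0 ^ 2 * (4 * ϖ ^ 2)) := by
      refine (h1.trans (h2.trans h0)).trans ?_
      gcongr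
    have h5 : X = 1600 / (3 * R * ε ^ 2) * (3 * R * (ε / 40) ^ 2 * X) := by field_simp; ring
    have h6 := mul_le_mul_of_nonneg_left h4 (show 0 ≤ 1600 / (3 * R * ε ^ 2) by positivity)
    have h7 : 1600 / (3 * R * ε ^ 2) * (C * (δ2 + (7 * R) ^ 3 * σ0 ^ 2 * (4 * ϖ ^ 2))) =
        C * (ε / 1440 * (6400 / ε ^ 2) * (δ2 / ϖ) +
          (1600 * 343 * 4 * 4800 / 10 ^ 11) * (10 ^ 11 / ε ^ 4) * (ϖ ^ 4 * σ0 ^ 2)) := by
      rw [hR]; field_simp; ring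
    rw [h5]
    refine h6.trans ?_
    rw [h7, mul_assoc C]
    refine mul_le_mul_of_nonneg_left ?_ hC.le
    have b1 : 0 ≤ δ2 / ϖ := by positivity
    have b2 : 0 ≤ ϖ ^ 4 * σ0 ^ 2 := by positivity
    have b3 : 0 ≤ 6400 / ε ^ 2 := by positivity
    have b4 : 0 ≤ 10 ^ 11 / ε ^ 4 := by positivity
    set u := δ2 / ϖ
    set v := ϖ ^ 4 * σ0 ^ 2
    set a := 6400 / ε ^ 2
    set b := 10 ^ 11 / ε ^ 4
    have c1 := mul_nonneg b3 b1
    have c2 := mul_nonneg b3 b2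
    have c3 := mul_nonneg b4 b1
    have c4 := mul_nonneg b4 b2
    have c5 : ε / 1440 * (a * u) ≤ a * u := mul_le_of_le_one_left c1 (by linarith)
    nlinarith

end Crest.Agent.R220
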