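import Crest.Agent.R220.Pair
import Crest.Agent.R220.Local
import Crest.Agent.R220.DetectAux2

/-! # Row 220: detection of a bump (Lemma D of the blueprint) -/

set_option autoImplicit false

open Set MeasureTheory Filter Topology
open scoped ContDiff

namespace Crest.Agent.R220

theorem detect (N : ℝ) {L0 w ε : ℝ} (par : Par L0 w ε) : ∃ C : ℝ, 0 < C ∧
    ∀ (M n : ℕ) (h δ2 : ℝ), 4 ≤ M → 0 < h → h ≤ 1 → 5 * n * h ≤ ε ^ 2 / (2 * 10 ^ 6) →
    ∀ (α β : Fin n → Bool), α ≠ β → ∀ a b : Surf N L0 w ε, a.χ = chi h M n α → b.χ = chi h M n β →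
      a.Fine → b.Fine → a.Close b (ε ^ 2 / 10 ^ 5) →
      (∀ s : ℝ, s = 1 ∨ s = -1 →
        ∫ z in K, wt (1 / 4) (ε / 1200) s a.xi z ^ 2 * (a.dP b z ^ 2 + a.dQ b z ^ 2) ≤ δ2) →
      h ^ M ≤ C * ((n : ℝ) ^ 10 * h ^ (M + 1) + δ2 / h ^ (M + 2)) := by
  obtain ⟨Cl, hCl, hloc⟩ := localEst ε
  obtain ⟨Cs, hCs, hsrc⟩ := Surf.pair_source N par
  obtain ⟨Cd, hCd, hdet⟩ := Surf.pair_detect N par
  obtain ⟨Cχ, hCχ, hχ⟩ := det_chi_bounds
  obtain ⟨Cz, hCz, hcut⟩ := det_exists_cutoff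
  obtain ⟨Ct, hCt, T, t, hT, hTt, ht, ht1, ht2, hTb⟩ := det_exists_test
  have hε := par.hε
  have hε1 := par.hε1
  set l : ℝ := ((w * L0) ^ 2)⁻¹ with hl
  have hl0 : 0 < l := by have := Surf.pa_lam_ne par; positivity
  have hI := integral_bump0_pos
  obtain ⟨C, hC, hfin⟩ := det_final (Ct := Ct) (Cl := Cl) (Cc := l) (Cs := Cs * (5 * Cχ))
    (CY := Cχ * (1 + 2 * Cd)) (CX := Cd * Cχ) (Cz := Cz) (ρ := 600 / ε) hCt hCl hl0.le
    (by positivity) (by positivity) hCz (by positivity)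
  refine ⟨C / (l * ∫ z, bump0 z), by positivity, ?_⟩
  intro M n h δ2 hM hh hh1 hϖ α β hαβ a b haχ hbχ ha hb hc hδ
  obtain ⟨i, hi⟩ := Function.ne_iff.1 hαβ
  obtain ⟨k, rfl⟩ : ∃ k, M = k + 4 := ⟨M - 4, by omega⟩
  have hn : (1 : ℝ) ≤ n := by exact_mod_cast i.pos
  have hg : 0 < h ^ k := pow_pos hh k
  have hg1 : h ^ k ≤ 1 := pow_le_one₀ hh.le hh1
  have hδ0 : 0 ≤ δ2 := le_trans (integral_nonneg fun z => by positivity) (hδ 1 (Or.inl rfl))
  have hf : a.dχ b = fun x => chi h (k + 4) n β x - chi h (k + 4) n α x := by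
    funext x; rw [Surf.dχ, haχ, hbχ]
  have hχb := hχ h hh k n α β _ hf
  have hϖ0 : 0 < 5 * n * h := by positivity
  have hz0 : ∀ z : P, 5 * n * h < ‖z‖ → ∀ᶠ x in 𝓝 z, a.dχ b x = 0 := fun z hz => by
    filter_upwards [(isOpen_lt continuous_const continuous_norm).mem_nhds hz] with x hx
    rw [hf]
    simp only [chi_eq_zero hh _ _ _ (le_of_lt hx), sub_self]
  have hA : 0 ≤ Cχ * n * h ^ k := by positivity
  have hp : ∀ j m : ℕ, m ≤ j → Cχ * n * h ^ k * h ^ j ≤ Cχ * n * h ^ k * h ^ m := fun j m hjm =>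
    mul_le_mul_of_nonneg_left (pow_le_pow_of_le_one hh.le hh1 hjm) hA
  obtain ⟨loc1, loc2⟩ := hloc ha.coef (p := a.dP b) (q := a.dQ b)
    (S := fun z => Cs * sd (a.dχ b) z) (Surf.sm_dP ha hb) (Surf.sm_dQ ha hb)
    (continuousOn_const.mul (Surf.continuousOn_sd (Surf.sm_dχ a b)))
    (fun z _ => by unfold sd; positivity) (fun z hz => hsrc a b ha hb hc z hz)
    (ϖ := 5 * n * h) (σ0 := Cs * (5 * Cχ) * n * h ^ k * h) (δ2 := δ2) hϖ0 hϖ
    (fun z hz => by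
      obtain ⟨b1, b2, b3, b4, b5⟩ := hχb z (K_subset_O hz)
      have h1 := hp 4 1 (by omega)
      have h2 := hp 3 1 (by omega)
      have h3 := hp 2 1 (by omega)
      rw [pow_one] at h1 h2 h3
      have : sd (a.dχ b) z ≤ 5 * (Cχ * n * h ^ k * h) := by unfold sd; linarith
      nlinarith)
    (fun z _ hz => by simp only [Surf.sd_eq_zero (hz0 z hz), mul_zero]) hδ
  set R : ℝ := 600 / ε * n * h with hR
  have eR1 : 120 * (5 * n * h) / ε = R := by rw [hR]; ring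
  have eR2 : 240 * (5 * n * h) / ε = 2 * R := by rw [hR]; ring
  rw [eR1, eR2] at loc1
  rw [eR2] at loc2
  have hρ : 6 ≤ 600 / ε := by rw [le_div_iff₀ hε]; linarith
  have hnh : h ≤ n * h := le_mul_of_one_le_left hh.le hn
  have hϖR : 5 * n * h < R := by rw [hR]; nlinarith
  have hhR : h ≤ R := by nlinarith
  have hR0 : 0 < R := hh.trans_le hhR
  have hR2 : 2 * R ≤ 8 / 5 := by
    rw [← eR2, div_le_iff₀ hε]; nlinarith
  obtain ⟨ζ, hζ, ζ1, ζin, ζout, ζd⟩ := hcut R hR0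
  obtain ⟨ap, am, hap, ham, e1', e2'⟩ := det_slopes ha
  obtain ⟨hE0, hE⟩ := det_exp hb
  have core := det_core (p := a.dP b) (q := a.dM b) (r := a.dR b) (Q := a.dQ b) (S0 := a.S0 b)
    (lp := lap (a.dχ b)) (cz := fun z => l * Real.exp (2 * b.ψ z)) (L := a.L) (M := a.M)
    (N := a.Nn) (c := 5 * i * h) (ap := ap) (am := am) (Cc := l)
    (X := Cd * Cχ * n * h ^ k * h ^ 4) (Y := Cχ * (1 + 2 * Cd) * n * h ^ k * h ^ 2)
    (lam := h ^ k * h ^ 2) (lam' := h ^ k * h ^ 3) (ϖ := 5 * n * h)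
    (Surf.sm_dP ha hb) (Surf.sm_dM ha hb) (Surf.sm_dR ha hb) (Surf.sm_dQ ha hb).continuousOn
    (Surf.pa_sm_lap (Surf.sm_dχ a b)).continuousOn hζ ζ1 ζin ζout ζd hT hTt ht hTb hh hhR hR2
    hϖR hCz.le hl0.le (by positivity) (by positivity) (by positivity) (by positivity) ham
    ((ha.pa_L_abs zero_mem_O).trans (by norm_num)) e1' e2'
    (fun z => by simp only [Surf.S0, Surf.dP, Surf.dM, Surf.dR]; ring)
    (fun z hz hzR => by
      have hzO := K_subset_O hz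
      obtain ⟨b1, b2, b3, b4, -⟩ := hχb z hzO
      obtain ⟨d1, d2, d3, d4, d5, d6⟩ := hdet a b ha hb hc z hz
      have h1 := hp 4 2 (by omega)
      have h2 := hp 3 2 (by omega)
      have h0 : 0 ≤ Cχ * n * h ^ k * h ^ 2 := by positivity
      have eY : Cχ * (1 + 2 * Cd) * n * h ^ k * h ^ 2 =
        Cχ * n * h ^ k * h ^ 2 + 2 * (Cd * (Cχ * n * h ^ k * h ^ 2)) := by ring
      have h3 : 0 ≤ Cd * (Cχ * n * h ^ k * h ^ 2) := by positivity
      have hS : |a.S0 b z| ≤ 2 * (Cd * (Cχ * n * h ^ k * h ^ 2)) := by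
        refine d6.trans ?_
        have : |lap (a.dχ b) z| + |a.dχ b z| ≤ 2 * (Cχ * n * h ^ k * h ^ 2) := by linarith
        nlinarith
      have l1 := det_lip ha.smL ha.L1 hzO hzR
      have l2 := det_lip ha.smM ha.M1 hzO hzR
      have l3 := det_lip ha.smN ha.N1 hzO hzR
      rw [eY]
      refine ⟨?_, by linarith, d5.trans ?_, by linarith, by linarith, by linarith, d1,
        by linarith, by linarith, by linarith⟩
      · rw [← mul_sub, abs_mul, abs_of_pos hl0]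
        exact mul_le_mul_of_nonneg_left (hE R z hzO hzR) hl0.le
      · have := mul_le_mul_of_nonneg_left b1 hCd.le
        linarith)
    (fun z hz hzϖ => by
      obtain ⟨d1, d2, -, -, -, d6⟩ := hdet a b ha hb hc z hz
      have h1 : lap (a.dχ b) z = 0 := bm_lap_eq_zero (hz0 z hzϖ)
      have h2 : a.dχ b z = 0 := (hz0 z hzϖ).self_of_nhds
      rw [h1, h2, abs_zero, add_zero, mul_zero] at d6
      exact ⟨d1, by linarith⟩)
  have main : ∫ z in K, ζ z * t ((z.1 - 5 * i * h + ap * z.2) / h) * lap (a.dχ b) z =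
      ∫ z : P, t ((z.1 - 5 * i * h + ap * z.2) / h) * lap (a.dχ b) z := by
    have h0 : ∀ z, z ∉ K → t ((z.1 - 5 * i * h + ap * z.2) / h) * lap (a.dχ b) z = 0 := by
      intro z hz
      have h1 : ¬ ‖z‖ ≤ 8 / 5 := fun h' => hz (mem_closedBall_zero_iff.2 h')
      have h2 : 5 * n * h < ‖z‖ := (hϖR.trans_le (by linarith only [hR2, hR0])).trans (not_le.1 h1)
      rw [bm_lap_eq_zero (hz0 z h2), mul_zero]
    rw [← setIntegral_eq_integral_of_forall_compl_eq_zero h0]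
    refine setIntegral_congr_fun measurableSet_K fun z _ => ?_
    by_cases h1 : ‖z‖ ≤ R
    · simp only [ζin z h1, one_mul]
    · simp only [bm_lap_eq_zero (hz0 z (hϖR.trans (not_le.1 h1))), mul_zero]
  have tl := test_lap_chi hh (k + 4) n α β i hi hap ht ht1 ht2
  rw [← hf] at tl
  rw [main, abs_mul, tl, abs_of_pos (by positivity)] at core
  have fin := hfin n h (h ^ k) δ2 hn hh hh1 hg hg1 hδ0
  rw [← hR] at fin
  have k1 := mul_le_mul_of_nonneg_left loc2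
    (show 0 ≤ Ct * (6 + 16 * (R / (h ^ k * h ^ 2))) by positivity)
  have k2 := mul_le_mul_of_nonneg_left loc1
    (show 0 ≤ 16 * Ct * Cz / (h ^ k * h ^ 3) by positivity)
  have k3 : l * (∫ z, bump0 z) * h ^ (k + 4) ≤
      l * Real.exp (2 * b.ψ 0) * (2 * (1 + ap ^ 2) * h ^ (k + 4) * ∫ z, bump0 z) := by
    have h1 : 1 ≤ Real.exp (2 * b.ψ 0) * (2 * (1 + ap ^ 2)) := by nlinarith [sq_nonneg ap]
    have h2 := mul_le_mul_of_nonneg_left h1
      (show 0 ≤ l * (∫ z, bump0 z) * h ^ (k + 4) by positivity)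
    linarith
  rw [div_mul_eq_mul_div, le_div_iff₀ (by positivity), show h ^ (k + 4 + 1) = h ^ k * h ^ 5 by ring,
    show h ^ (k + 4 + 2) = h ^ k * h ^ 6 by ring]
  linarith

end Crest.Agent.R220
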