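import Crest.Agent.R220.Chain
import Crest.Agent.R220.Detect

/-! # Row 220: the core local non-existence theorem -/

set_option autoImplicit false

open Set MeasureTheory Filter Topology
open scoped ContDiff

namespace Crest.Agent.R220

/-- a compactly supported smooth extension of `Phi` from `O` -/
lemma core_exists_ext (m : ℕ) : ∃ (g : P → ℝ) (B : ℝ), 0 < B ∧ ContDiff ℝ ∞ g ∧
    (∀ z ∈ O, g z = Phi z) ∧ (∀ z : P, 3 ≤ ‖z‖ → g z = 0) ∧
    ∀ k ≤ m, ∀ z, ‖iteratedFDeriv ℝ k g z‖ ≤ B := by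
  let ζ : ContDiffBump (0 : P) := ⟨2, 3, by norm_num, by norm_num⟩
  have hg : ContDiff ℝ ∞ (fun z => Phi z * ζ z) := contDiff_Phi.mul ζ.contDiff
  have hc : HasCompactSupport (fun z => Phi z * ζ z) := ζ.hasCompactSupport.mul_left
  have key : ∀ j : ℕ, ∃ C, ∀ x, ‖iteratedFDeriv ℝ j (fun z => Phi z * ζ z) x‖ ≤ C := fun j =>
    (hc.iteratedFDeriv j).exists_bound_of_continuous
      (hg.continuous_iteratedFDeriv (by exact_mod_cast le_top))
  choose D hD using key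
  refine ⟨fun z => Phi z * ζ z, 1 + ∑ j ∈ Finset.range (m + 1), |D j|, ?_, hg, ?_, ?_, ?_⟩
  · have := Finset.sum_nonneg (s := Finset.range (m + 1)) fun j _ => abs_nonneg (D j)
    linarith
  · intro z hz
    show Phi z * ζ z = Phi z
    rw [ζ.one_of_mem_closedBall (Metric.ball_subset_closedBall hz), mul_one]
  · intro z hz
    show Phi z * ζ z = 0
    rw [ζ.zero_of_le_dist (by simpa using hz), mul_zero]
  · intro k hk z
    have h1 := Finset.single_le_sum (f := fun j => |D j|) (s := Finset.range (m + 1))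
      (fun _ _ => abs_nonneg _) (Finset.mem_range.2 (Nat.lt_succ_of_le hk))
    linarith [hD k z, le_abs_self (D k)]

lemma core_chi_bound (m : ℕ) : ∃ C : ℝ, 0 < C ∧ ∀ h : ℝ, 0 < h → h ≤ 1 →
    ∀ (n : ℕ) (α : Fin n → Bool), ∀ k ≤ m, ∀ z : P,
      ‖iteratedFDeriv ℝ k (chi h (m + 4) n α) z‖ ≤ C * (n * h) := by
  choose D hD0 hD using exists_iteratedFDeriv_chi
  refine ⟨∑ j ∈ Finset.range (m + 1), D j,
    Finset.sum_pos (fun j _ => hD0 j) ⟨0, by simp⟩, fun h hh hh1 n α k hk z => ?_⟩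
  have h1 := Finset.single_le_sum (f := D) (s := Finset.range (m + 1))
    (fun j _ => (hD0 j).le) (Finset.mem_range.2 (Nat.lt_succ_of_le hk))
  refine (hD k h hh (m + 4) n α z).trans ?_
  have h2 : h ^ (m + 4) / h ^ k ≤ h := by
    rw [div_le_iff₀ (by positivity), ← pow_succ']
    exact pow_le_pow_of_le_one hh.le hh1 (by omega)
  have h3 := hD0 k
  have h4 := h3.le.trans h1
  calc D k * n * h ^ (m + 4) / h ^ k = D k * (n * (h ^ (m + 4) / h ^ k)) := by ring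
    _ ≤ _ := by gcongr

lemma core_iso_congr {ψ ψ' : P → ℝ} {G : Fin 3 → P → ℝ} (h : Iso O ψ G)
    (he : ∀ z ∈ O, ψ' z = ψ z) : Iso O ψ' G :=
  ⟨h.isOpen, h.smψ.congr he, h.smG, fun z hz => by rw [he z hz]; exact h.h11 z hz, h.h12,
    fun z hz => by rw [he z hz]; exact h.h22 z hz⟩

lemma core_II_congr {ψ ψ' : P → ℝ} {G : Fin 3 → P → ℝ} {z : P} (v v' : P) (he : ψ' z = ψ z) :
    II v v' ψ' G z = II v v' ψ G z := by
  simp only [II, dot, nrm, he]

/-- the seven functions that have to be close -/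
noncomputable def coreFam {N L0 w ε : ℝ} (a : Surf N L0 w ε) : Fin 7 → P → ℝ :=
  ![a.L, a.M, a.Nn, ∂₁ a.L, ∂₁ a.M, ∂₁ a.Nn, a.xi]

lemma core_fam_bound (N : ℝ) {L0 w ε : ℝ} (par : Par L0 w ε) : ∃ B : ℝ, ∀ a : Surf N L0 w ε,
    ∀ i, QB w B 1 (coreFam a i) := by
  obtain ⟨C, hC, h⟩ := exists_QB N L0
  have hw := par.hw
  have hCw : C * w ≤ C := mul_le_of_le_one_right hC.le par.hw1
  refine ⟨C + |(-(w * L0)⁻¹)| * (|N| * C + |N| * C + |N| * C), fun a i => ?_⟩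
  obtain ⟨-, hn, hL, hM, hN⟩ := h w ε par a
  have h0 : 0 ≤ |(-(w * L0)⁻¹)| * (|N| * C + |N| * C + |N| * C) := by positivity
  have hc : ∀ c, QB w (|N| * C) 1 (fun z => ∂₁ (a.G c) 0 * a.n c z) := fun c =>
    (((hn c).of_le (by norm_num)).const_mul _).mono (by
      have := ((a.qG1 c).bound 0 zero_mem_O).trans (le_abs_self N)
      gcongr)
  fin_cases i
  · exact (hL.of_le (by norm_num)).mono (by linarith)
  · exact (hM.of_le (by norm_num)).mono (by linarith)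
  · exact (hN.of_le (by norm_num)).mono (by linarith)
  · exact (hL.d1' hw).mono (by linarith)
  · exact (hM.d1' hw).mono (by linarith)
  · exact (hN.d1' hw).mono (by linarith)
  · refine (((((hc 0).add (hc 1)).add (hc 2)).const_mul (-(w * L0)⁻¹)).mono (by linarith)).congr
      fun z _ => ?_
    show a.xi z = _
    simp only [Surf.xi, dot]
    ring

/-- the counting part: many fine surfaces contain two different very close ones -/
lemma core_count (N : ℝ) {L0 w ε : ℝ} (par : Par L0 w ε) : ∃ C : ℝ, 0 < C ∧ ∀ J : ℕ, 1 ≤ J →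
    ∀ {α : Type} [Fintype α] (F : α → Surf N L0 w ε), (∀ a, (F a).Fine) →
      (∀ a, ∀ z : P, ε / 12000 < ‖z‖ → (F a).χ z = 0) →
      Real.exp (C * J ^ 121) < Fintype.card α →
      ∃ a b, a ≠ b ∧ (F a).Close (F b) (ε ^ 2 / 10 ^ 5) ∧ ∀ s : ℝ, s = 1 ∨ s = -1 →
        ∫ z in K, wt (1 / 4) (ε / 1200) s (F a).xi z ^ 2 *
          ((F a).dP (F b) z ^ 2 + (F a).dQ (F b) z ^ 2) ≤ C / 4 ^ J := by
  classical
  obtain ⟨B, hB⟩ := core_fam_bound N par
  obtain ⟨C1, hC1, h1⟩ := supCover (Fin 7) B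
  obtain ⟨C2, hC2, h2⟩ := chain N par
  have hε := par.hε
  have hε1 := par.hε1
  have hw := par.hw
  refine ⟨C1 * 10 ^ 15 / ε ^ 6 + 2 * C2, by positivity, fun J hJ α _ F hF hχ hcard => ?_⟩
  have hJ' : (1 : ℝ) ≤ J := by exact_mod_cast hJ
  have hne : (Finset.univ : Finset α).Nonempty := by
    rw [← Finset.card_pos, Finset.card_univ]
    have := (Real.exp_pos _).trans hcard
    exact_mod_cast this
  have hτ1 : ε ^ 2 / (10 ^ 5 * J) ≤ ε ^ 2 / 10 ^ 5 := by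
    gcongr; linarith
  have hτ2 : ε ^ 2 / (10 ^ 5 * J) ≤ ε / (12000 * J) := by
    rw [div_le_div_iff₀ (by positivity) (by positivity)]
    have : ε * 12000 ≤ 10 ^ 5 := by linarith
    calc ε ^ 2 * (12000 * J) = (ε * 12000) * (ε * J) := by ring
      _ ≤ 10 ^ 5 * (ε * J) := by gcongr
      _ = _ := by ring
  obtain ⟨S1, -, hS1, hc1, hd1⟩ := h1 (ε ^ 2 / (10 ^ 5 * J)) (by positivity)
    (hτ1.trans (by nlinarith)) Finset.univ hne (fun a => coreFam (F a)) (by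
      intro a _ i z hz
      have h := hB (F a) i
      have hBw : B * w ≤ B := mul_le_of_le_one_right h.nonneg par.hw1
      exact ⟨diffAt_top isOpen_O h.smooth hz, h.bound z hz, (h.abs_d1_le hw z hz).trans hBw,
        (h.abs_d2_le hw z hz).trans hBw⟩)
  have hclose : ∀ a ∈ S1, ∀ b ∈ S1, (F a).Close (F b) (ε ^ 2 / 10 ^ 5) := by
    intro a ha b hb z hz
    have hz' := K_subset_O hz
    have h := fun i => (hd1 b hb a ha i z hz).trans hτ1
    refine ⟨h 0, h 1, h 2, ?_, ?_, ?_⟩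
    · have := dd_sub (v := e1) (diffAt_top isOpen_O (hF b).smL hz') (diffAt_top isOpen_O (hF a).smL hz')
      exact (congrArg abs this).trans_le (h 3)
    · have := dd_sub (v := e1) (diffAt_top isOpen_O (hF b).smM hz') (diffAt_top isOpen_O (hF a).smM hz')
      exact (congrArg abs this).trans_le (h 4)
    · have := dd_sub (v := e1) (diffAt_top isOpen_O (hF b).smN hz') (diffAt_top isOpen_O (hF a).smN hz')
      exact (congrArg abs this).trans_le (h 5)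
  have hxi : ∀ a ∈ S1, ∀ b ∈ S1, ∀ z ∈ K, |(F a).xi z - (F b).xi z| ≤ ε / (12000 * J) :=
    fun a ha b hb z hz => (hd1 a ha b hb 6 z hz).trans hτ2
  obtain ⟨S2, hs2, hS2, hc2, hd2⟩ := h2 J hJ 1 (Or.inl rfl) S1 hS1 F (fun a _ => hF a) hclose hxi
    (fun a _ => hχ a)
  obtain ⟨S3, hs3, hS3, hc3, hd3⟩ := h2 J hJ (-1) (Or.inr rfl) S2 hS2 F (fun a _ => hF a)
    (fun a ha b hb => hclose a (hs2 ha) b (hs2 hb)) (fun a ha b hb => hxi a (hs2 ha) b (hs2 hb))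
    (fun a _ => hχ a)
  have hlt : 1 < S3.card := by
    by_contra hle
    have hle' : (S3.card : ℝ) ≤ 1 := by exact_mod_cast not_lt.1 hle
    have h3 : C1 / (ε ^ 2 / (10 ^ 5 * J)) ^ 3 ≤ C1 * 10 ^ 15 / ε ^ 6 * J ^ 121 := by
      have : C1 / (ε ^ 2 / (10 ^ 5 * J)) ^ 3 = C1 * 10 ^ 15 / ε ^ 6 * J ^ 3 := by field_simp
      rw [this]
      exact mul_le_mul_of_nonneg_left (pow_le_pow_right₀ hJ' (by norm_num)) (by positivity)
    rw [Finset.card_univ] at hc1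
    have h4 : (Fintype.card α : ℝ) ≤ Real.exp ((C1 * 10 ^ 15 / ε ^ 6 + 2 * C2) * J ^ 121) := by
      calc (Fintype.card α : ℝ) ≤ Real.exp (C1 / (ε ^ 2 / (10 ^ 5 * J)) ^ 3) * S1.card := hc1
        _ ≤ Real.exp (C1 * 10 ^ 15 / ε ^ 6 * J ^ 121) * (Real.exp (C2 * J ^ 121) *
            (Real.exp (C2 * J ^ 121) * 1)) := by
          gcongr
          refine hc2.trans ?_
          gcongr
          refine hc3.trans ?_
          gcongr
        _ = _ := by
          rw [mul_one, ← Real.exp_add, ← Real.exp_add]; congr 1; ring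
    linarith
  obtain ⟨a, ha, b, hb, hab⟩ := Finset.one_lt_card.1 hlt
  refine ⟨a, b, hab, hclose a (hs2 (hs3 ha)) b (hs2 (hs3 hb)), fun s hs => ?_⟩
  have h5 : C2 / 4 ^ J ≤ (C1 * 10 ^ 15 / ε ^ 6 + 2 * C2) / 4 ^ J := by
    gcongr
    have : 0 < C1 * 10 ^ 15 / ε ^ 6 := by positivity
    linarith
  rcases hs with rfl | rfl
  · exact (hd2 a (hs3 ha) b (hs3 hb)).trans h5
  · exact (hd3 a ha b hb).trans h5

lemma core_exists_level (δ T : ℝ) (hδ : 0 < δ) :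
    ∃ l : ℕ, 1 ≤ l ∧ T < l ∧ ((l ^ 122 : ℕ) : ℝ) ^ 10 * (1 / 2 ^ l) < δ := by
  have h1 := (tendsto_pow_const_div_const_pow_of_one_lt 1220 (r := 2) (by norm_num)).eventually
    (gt_mem_nhds hδ)
  obtain ⟨l, hl1, hl2, hl3⟩ := (h1.and ((eventually_ge_atTop 1).and
    (tendsto_natCast_atTop_atTop (R := ℝ).eventually_gt_atTop T))).exists
  refine ⟨l, hl2, hl3, ?_⟩
  push_cast
  rw [← pow_mul, mul_one_div]
  exact hl1

theorem core (N L0 r0 : ℝ) (hL0 : L0 ≠ 0) (hr0 : 0 < r0) : ∃ w : ℝ, 0 < w ∧ w ≤ r0 ∧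
    ∀ (m : ℕ) (η : ℝ), 0 < η → ∃ ψ : P → ℝ, ContDiff ℝ ∞ ψ ∧ (∀ z : P, 3 ≤ ‖z‖ → ψ z = 0) ∧
      (∀ k ≤ m, ∀ z, ‖iteratedFDeriv ℝ k ψ z‖ ≤ η) ∧
      ¬ ∃ G : Fin 3 → P → ℝ, Iso O ψ G ∧ (∀ c, QB w N 3 (∂₁ (G c)) ∧ QB w N 3 (∂₂ (G c))) ∧
        |II e1 e1 ψ G 0 / (w * L0) - 1| ≤ 1 / 10 ^ 5 ∧ |II e1 e2 ψ G 0 / (w * L0)| ≤ 1 / 10 ^ 5 := by
  classical
  obtain ⟨w0, hw0, hfine⟩ := exists_fine N L0
  set w : ℝ := min (min w0 r0) 1 with hwdef
  have hw : 0 < w := lt_min (lt_min hw0 hr0) one_pos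
  have hw1 : w ≤ 1 := min_le_right _ _
  have hww0 : w ≤ w0 := (min_le_left _ _).trans (min_le_left _ _)
  refine ⟨w, hw, (min_le_left _ _).trans (min_le_right _ _), fun m η hη => ?_⟩
  obtain ⟨g, B, hB, hg, hgO, hg0, hgB⟩ := core_exists_ext m
  -- choice of `ε`
  obtain ⟨ε, hε, hε1, hεL, hεB⟩ : ∃ ε : ℝ, 0 < ε ∧ ε ≤ 1 / 1000 ∧ (ε * L0) ^ 2 ≤ 1 / 100 ∧
      (ε * L0) ^ 2 * B ≤ η / 2 := by
    have t1 : Tendsto (fun ε : ℝ => (ε * L0) ^ 2) (𝓝[>] 0) (𝓝 0) := by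
      have : Continuous (fun ε : ℝ => (ε * L0) ^ 2) := by fun_prop
      have h := this.tendsto 0
      simp only [zero_mul, ne_eq, OfNat.ofNat_ne_zero, not_false_eq_true, zero_pow] at h
      exact h.mono_left nhdsWithin_le_nhds
    have t2 : Tendsto (fun ε : ℝ => (ε * L0) ^ 2 * B) (𝓝[>] 0) (𝓝 0) := by
      simpa using t1.mul_const B
    have t3 : ∀ᶠ ε : ℝ in 𝓝[>] 0, ε ≤ 1 / 1000 :=
      nhdsWithin_le_nhds (Iic_mem_nhds (by norm_num))
    have t4 : ∀ᶠ ε : ℝ in 𝓝[>] 0, 0 < ε := self_mem_nhdsWithin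
    obtain ⟨ε, h1, h2, h3, h4⟩ := (t4.and
      (t3.and ((t1.eventually (ge_mem_nhds (by norm_num : (0 : ℝ) < 1 / 100))).and
        (t2.eventually (ge_mem_nhds (by positivity : (0 : ℝ) < η / 2)))))).exists
    exact ⟨ε, h1, h2, h3, h4⟩
  have par : Par L0 w ε := ⟨hL0, hw, hw1, hε, hε1, hεL⟩
  obtain ⟨C1, hC1, hchi⟩ := core_chi_bound m
  obtain ⟨C2, hC2, hqchi⟩ := exists_QB_chi
  obtain ⟨C3, hC3, hcount⟩ := core_count N par
  obtain ⟨C4, hC4, hdet⟩ := detect N par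
  have hA : 0 < (ε * w * L0) ^ 2 := by positivity
  obtain ⟨l, hl1, hl2, hl3⟩ := core_exists_level
    (min (min (η / 2 / C1) ((ε * w * L0) ^ 2 / 10 ^ 5 / C2))
      (min (ε ^ 2 / (2 * 10 ^ 6) / 5) (1 / (C4 * (1 + C3)))))
    (C3 * ((m + 6 : ℕ) : ℝ) ^ 121 / Real.log 2) (by positivity)
  set n : ℕ := l ^ 122 with hn
  set h : ℝ := 1 / 2 ^ l with hh
  have hn1 : 1 ≤ n := Nat.one_le_pow _ _ hl1
  have hn1' : (1 : ℝ) ≤ n := by exact_mod_cast hn1
  have hpos : 0 < h := by positivity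
  have hle1 : h ≤ 1 := by
    rw [hh, div_le_one (by positivity)]; exact one_le_pow₀ (by norm_num)
  have hnh : n * h ≤ (n : ℝ) ^ 10 * h := by
    gcongr; exact le_self_pow₀ hn1' (by norm_num)
  simp only [lt_min_iff] at hl3
  obtain ⟨⟨hs1, hs2⟩, hs3, hs4⟩ := hl3
  have hs1' : C1 * (n * h) ≤ η / 2 := by
    rw [lt_div_iff₀ hC1] at hs1; nlinarith
  have hs2' : C2 * (n * h) ≤ (ε * w * L0) ^ 2 / 10 ^ 5 := by
    rw [lt_div_iff₀ hC2] at hs2; nlinarith
  have hs3' : 5 * n * h ≤ ε ^ 2 / (2 * 10 ^ 6) := by linarith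
  have hs5 : 5 * n * h ≤ ε / 12000 := hs3'.trans (by nlinarith)
  by_contra hcon
  have hex : ∀ α : Fin n → Bool, ∃ a : Surf N L0 w ε, a.χ = chi h (m + 4) n α := by
    intro α
    have hO : ∀ z ∈ O, psi L0 w ε (chi h (m + 4) n α) z =
        (ε * w * L0) ^ 2 * g z + chi h (m + 4) n α z := fun z hz => by rw [psi, hgO z hz]
    have hG : ∃ G : Fin 3 → P → ℝ,
        Iso O (fun z => (ε * w * L0) ^ 2 * g z + chi h (m + 4) n α z) G ∧
        (∀ c, QB w N 3 (∂₁ (G c)) ∧ QB w N 3 (∂₂ (G c))) ∧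
        |II e1 e1 (fun z => (ε * w * L0) ^ 2 * g z + chi h (m + 4) n α z) G 0 / (w * L0) - 1| ≤
          1 / 10 ^ 5 ∧
        |II e1 e2 (fun z => (ε * w * L0) ^ 2 * g z + chi h (m + 4) n α z) G 0 / (w * L0)| ≤
          1 / 10 ^ 5 := by
      by_contra hG
      refine hcon ⟨_, (contDiff_const.mul hg).add (contDiff_chi _ _ _ _), fun z hz => ?_,
        fun k hk z => ?_, hG⟩
      · rw [hg0 z hz, chi_eq_zero hpos _ _ _ (by linarith)]; simp
      · have hk' : ((k : ℕ) : WithTop ℕ∞) ≤ ∞ := by exact_mod_cast le_top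
        have e1 := iteratedFDeriv_add_apply (𝕜 := ℝ) (i := k) (x := z)
          (f := fun z => (ε * w * L0) ^ 2 • g z) (g := chi h (m + 4) n α)
          ((hg.const_smul _).of_le hk').contDiffAt
          ((contDiff_chi _ _ _ _).of_le hk').contDiffAt
        rw [iteratedFDeriv_const_smul_apply' (hg.of_le hk').contDiffAt] at e1
        refine (congrArg norm e1).trans_le ((norm_add_le _ _).trans ?_)
        rw [norm_smul, Real.norm_eq_abs, abs_of_pos hA]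
        have h1 := hgB k hk z
        have h2 := hchi h hpos hle1 n α k hk z
        have h3 : (ε * w * L0) ^ 2 ≤ (ε * L0) ^ 2 := by
          have : w ^ 2 ≤ 1 := pow_le_one₀ hw.le hw1
          calc (ε * w * L0) ^ 2 = (ε * L0) ^ 2 * w ^ 2 := by ring
            _ ≤ (ε * L0) ^ 2 * 1 := by gcongr
            _ = _ := mul_one _
        have h4 : (ε * w * L0) ^ 2 * ‖iteratedFDeriv ℝ k g z‖ ≤ (ε * L0) ^ 2 * B := by gcongr
        linarith
    obtain ⟨G, h1, h2, h3, h4⟩ := hG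
    have hq : QB 1 ((ε * w * L0) ^ 2 / 10 ^ 5) 3 (chi h (m + 4) n α) := by
      refine ((hqchi h hpos (m + 4) n α).rescale one_pos (by
        rw [le_div_iff₀ hpos]; linarith)).mono (le_trans ?_ hs2')
      have e : C2 * n * h ^ (m + 4) * (1 / h / 1) ^ 3 = C2 * (n * (h * h ^ m)) := by
        field_simp
        ring
      rw [e]
      gcongr
      exact mul_le_of_le_one_right hpos.le (pow_le_one₀ hpos.le hle1)
    exact ⟨⟨chi h (m + 4) n α, G, core_iso_congr h1 hO, fun c => (h2 c).1, fun c => (h2 c).2, hq,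
      by rw [core_II_congr (ψ := fun z => (ε * w * L0) ^ 2 * g z + chi h (m + 4) n α z) e1 e1
        (hO 0 zero_mem_O)]; exact h3,
      by rw [core_II_congr (ψ := fun z => (ε * w * L0) ^ 2 * g z + chi h (m + 4) n α z) e1 e2
        (hO 0 zero_mem_O)]; exact h4⟩, rfl⟩
  choose F hF using hex
  obtain ⟨a, b, hab, hcl, hint⟩ := hcount ((m + 6) * l) (Nat.mul_pos (by omega) hl1) F
    (fun a => hfine w ε par hww0 (F a))
    (fun a z hz => by rw [hF a]; exact chi_eq_zero hpos _ _ _ (by linarith)) (by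
      have hlog : 0 < Real.log 2 := Real.log_pos (by norm_num)
      have hl0 : (0 : ℝ) < l := by exact_mod_cast hl1
      rw [div_lt_iff₀ hlog] at hl2
      have e : ((Fintype.card (Fin n → Bool) : ℕ) : ℝ) = Real.exp (n * Real.log 2) := by
        rw [Real.exp_nat_mul, Real.exp_log (by norm_num)]; simp
      rw [e, Real.exp_lt_exp, hn]
      push_cast at hl2 ⊢
      calc C3 * (((m : ℝ) + 6) * l) ^ 121 = (C3 * ((m : ℝ) + 6) ^ 121) * l ^ 121 := by ring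
        _ < (l * Real.log 2) * l ^ 121 := by gcongr
        _ = _ := by ring)
  have h6 := hdet (m + 4) n h (C3 / 4 ^ ((m + 6) * l)) (by omega) hpos hle1 hs3' a b hab (F a) (F b)
    (hF a) (hF b) (hfine w ε par hww0 _) (hfine w ε par hww0 _) hcl hint
  have e4 : C3 / 4 ^ ((m + 6) * l) / h ^ (m + 4 + 2) = C3 * h ^ (m + 6) := by
    have : (4 : ℝ) ^ ((m + 6) * l) = (2 ^ l) ^ (m + 6) * (2 ^ l) ^ (m + 6) := by
      rw [← mul_pow, ← mul_pow, ← pow_mul, mul_comm l]; norm_num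
    rw [this, hh, one_div_pow, show m + 4 + 2 = m + 6 from rfl]
    field_simp
  rw [e4] at h6
  have h7 : 1 ≤ C4 * ((n : ℝ) ^ 10 * h + C3 * h ^ 2) := by
    have hp : 0 < h ^ (m + 4) := by positivity
    have : h ^ (m + 4) * 1 ≤ h ^ (m + 4) * (C4 * ((n : ℝ) ^ 10 * h + C3 * h ^ 2)) := by
      calc h ^ (m + 4) * 1 = h ^ (m + 4) := mul_one _
        _ ≤ _ := h6
        _ = _ := by ring
    exact le_of_mul_le_mul_left this hp
  have h8 : h ^ 2 ≤ (n : ℝ) ^ 10 * h := by nlinarith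
  rw [lt_div_iff₀ (by positivity)] at hs4
  have h9 : C4 * ((n : ℝ) ^ 10 * h + C3 * h ^ 2) ≤ C4 * ((n : ℝ) ^ 10 * h + C3 * ((n : ℝ) ^ 10 * h)) := by
    gcongr
  nlinarith

end Crest.Agent.R220
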