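import Crest.Agent.R220.Basic

/-!
# Row 220 (S0341): definitions shared by all files

See `Crest/Agent/R220/Blueprint.lean` for the paper proof.
-/

set_option autoImplicit false

open Set MeasureTheory Filter Topology
open scoped ContDiff

namespace Crest.Agent.R220

/-! ### Surfaces in conformal coordinates (three scalar components) -/

/-- pointwise Euclidean inner product of two vector fields -/
def dot (a b : Fin 3 → P → ℝ) (z : P) : ℝ := a 0 z * b 0 z + a 1 z * b 1 z + a 2 z * b 2 z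

/-- componentwise directional derivative -/
noncomputable def D (v : P) (G : Fin 3 → P → ℝ) : Fin 3 → P → ℝ := fun c => dd v (G c)

/-- cross product of two vector fields -/
def cross (a b : Fin 3 → P → ℝ) : Fin 3 → P → ℝ :=
  ![fun z => a 1 z * b 2 z - a 2 z * b 1 z, fun z => a 2 z * b 0 z - a 0 z * b 2 z,
    fun z => a 0 z * b 1 z - a 1 z * b 0 z]

/-- unit normal `e^{-2ψ} G₁ × G₂` -/
noncomputable def nrm (ψ : P → ℝ) (G : Fin 3 → P → ℝ) : Fin 3 → P → ℝ :=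
  fun c z => Real.exp (-2 * ψ z) * cross (D e1 G) (D e2 G) c z

/-- second fundamental form `⟨∂_v ∂_w G, n⟩` -/
noncomputable def II (v w : P) (ψ : P → ℝ) (G : Fin 3 → P → ℝ) (z : P) : ℝ :=
  dot (D v (D w G)) (nrm ψ G) z

/-- `G` is a smooth isometric immersion of `e^{2ψ}(dx²+dy²)` on the open set `U`. -/
structure Iso (U : Set P) (ψ : P → ℝ) (G : Fin 3 → P → ℝ) : Prop where
  isOpen : IsOpen U
  smψ : ContDiffOn ℝ ∞ ψ U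
  smG : ∀ c, ContDiffOn ℝ ∞ (G c) U
  h11 : ∀ z ∈ U, dot (D e1 G) (D e1 G) z = Real.exp (2 * ψ z)
  h12 : ∀ z ∈ U, dot (D e1 G) (D e2 G) z = 0
  h22 : ∀ z ∈ U, dot (D e2 G) (D e2 G) z = Real.exp (2 * ψ z)

/-- flat Laplacian -/
noncomputable def lap (f : P → ℝ) (z : P) : ℝ := ∂₁ (∂₁ f) z + ∂₂ (∂₂ f) z

/-! ### Quantitative `C^k` bounds with derivatives scaled by `w` -/

/-- `QB w C k f`: `f` is smooth on `O` and all iterated partials of order `j ≤ k` are bounded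
by `C * w ^ j` on `O`. -/
def QB (w C : ℝ) : ℕ → (P → ℝ) → Prop
  | 0, f => ContDiffOn ℝ ∞ f O ∧ ∀ z ∈ O, |f z| ≤ C
  | k + 1, f => (ContDiffOn ℝ ∞ f O ∧ ∀ z ∈ O, |f z| ≤ C) ∧
      QB w C k (fun z => ∂₁ f z / w) ∧ QB w C k (fun z => ∂₂ f z / w)

/-- uniform version over a family -/
def UB {I : Type} (w : I → ℝ) (k : ℕ) (f : I → P → ℝ) : Prop := ∃ C, ∀ a, QB (w a) C k (f a)

/-- the affine map `z ↦ c + w z₁ v₁ + w z₂ v₂` -/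
def aff (c v1 v2 : P) (w : ℝ) (z : P) : P := c + (w * z.1) • v1 + (w * z.2) • v2

/-! ### The abstract mixed-type system -/

def rr (z : P) : ℝ := z.1 ^ 2 + z.2 ^ 2
/-- curvature profile of an island -/
def kk (z : P) : ℝ := rr z - 1
/-- `-Δ Phi = kk` -/
noncomputable def Phi (z : P) : ℝ := rr z / 4 - rr z ^ 2 / 16

/-- the transport derivative `∂₂ - μ ∂₁` -/
noncomputable def Dt (μ f : P → ℝ) (z : P) : ℝ := ∂₂ f z - μ z * ∂₁ f z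

/-- residual of the first equation -/
noncomputable def F1 (μ p q : P → ℝ) (z : P) : ℝ := Dt μ p z - ∂₁ q z - ∂₁ μ z * p z

/-- residual of the second equation -/
noncomputable def F2 (μ κ p q : P → ℝ) (z : P) : ℝ :=
  Dt μ q z + κ z * ∂₁ p z - 2 * ∂₁ μ z * q z + (Dt μ μ z + ∂₁ κ z) * p z

/-- Hypotheses on the coefficients (`θ = 1/1000`). -/
structure Coef (ε : ℝ) (μ κ ϱ ξ : P → ℝ) : Prop where
  hε : 0 < ε
  hε1 : ε ≤ 1 / 1000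
  smμ : ContDiffOn ℝ ∞ μ O
  smκ : ContDiffOn ℝ ∞ κ O
  smϱ : ContDiffOn ℝ ∞ ϱ O
  smξ : ContDiffOn ℝ ∞ ξ O
  ϱ0 : ∀ z ∈ O, |ϱ z - 1| ≤ 1 / 1000
  ϱ1 : ∀ z ∈ O, |∂₁ ϱ z| ≤ 1 / 1000
  ϱ2 : ∀ z ∈ O, |∂₂ ϱ z| ≤ 1 / 1000
  ϱD : ∀ z ∈ O, |Dt μ ϱ z + 2 * ∂₁ μ z * ϱ z| ≤ ε / 1000
  μ0 : ∀ z ∈ O, |μ z| ≤ 1 / 1000
  μ1 : ∀ z ∈ O, |∂₁ μ z| ≤ 1 / 1000
  μD : ∀ z ∈ O, |Dt μ μ z - ∂₁ κ z| ≤ ε ^ 2 / 1000
  ξ0 : ∀ z ∈ O, |ξ z - z.1| ≤ ‖z‖ / 1000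
  ξ1 : ∀ z ∈ O, |∂₁ ξ z - 1| ≤ 1 / 1000
  ξD : ∀ z ∈ O, |Dt μ ξ z| ≤ |κ z|
  ξ11 : ∀ z ∈ O, |∂₁ (∂₁ ξ) z| ≤ 1
  ξ21 : ∀ z ∈ O, |∂₂ (∂₁ ξ) z| ≤ 1
  κ0 : ∀ z ∈ O, |κ z - ε ^ 2 * kk z| ≤ ε ^ 2 / 1000
  κ1 : ∀ z ∈ O, |∂₁ κ z - 2 * ε ^ 2 * z.1| ≤ ε ^ 2 / 1000
  κD : ∀ z ∈ O, |Dt μ κ z - 2 * ε ^ 2 * z.2| ≤ ε ^ 2 / 1000

/-- the outer cut-off variable `c - (r² - 3/2)₊³` -/
noncomputable def oo (c : ℝ) (z : P) : ℝ := c - pp 3 (rr z - 3 / 2)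

/-- the one-sided weight `(c - (r²-3/2)₊³)₊²⁰ (s ξ - t₀)₊²⁰` -/
noncomputable def wt (c t0 s : ℝ) (ξ : P → ℝ) (z : P) : ℝ :=
  pp 20 (oo c z) * pp 20 (s * ξ z - t0)

/-- time function of the hyperbolic estimate -/
noncomputable def tau (ε s σ : ℝ) (ξ : P → ℝ) (z : P) : ℝ := s * ξ z + ε * (z.2 - σ / 40) ^ 2

/-- size of a source term coming from a difference of conformal factors -/
noncomputable def sd (f : P → ℝ) (z : P) : ℝ :=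
  |f z| + |∂₁ f z| + |∂₂ f z| + |lap f z| + |∂₁ (lap f) z|

/-! ### Surfaces over an island -/

/-- conformal factor of a (rescaled) island with perturbation `χ` -/
noncomputable def psi (L0 w ε : ℝ) (χ : P → ℝ) (z : P) : ℝ := (ε * w * L0) ^ 2 * Phi z + χ z

/-- admissible parameters -/
structure Par (L0 w ε : ℝ) : Prop where
  hL0 : L0 ≠ 0
  hw : 0 < w
  hw1 : w ≤ 1
  hε : 0 < ε
  hε1 : ε ≤ 1 / 1000
  hεL : (ε * L0) ^ 2 ≤ 1 / 100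

/-- An isometric immersion of a perturbed island with a priori bounds, close to a cylinder. -/
structure Surf (N L0 w ε : ℝ) where
  χ : P → ℝ
  G : Fin 3 → P → ℝ
  iso : Iso O (psi L0 w ε χ) G
  qG1 : ∀ c, QB w N 3 (∂₁ (G c))
  qG2 : ∀ c, QB w N 3 (∂₂ (G c))
  qχ : QB 1 ((ε * w * L0) ^ 2 / 10 ^ 5) 3 χ
  hL : |II e1 e1 (psi L0 w ε χ) G 0 / (w * L0) - 1| ≤ 1 / 10 ^ 5
  hM : |II e1 e2 (psi L0 w ε χ) G 0 / (w * L0)| ≤ 1 / 10 ^ 5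

namespace Surf
variable {N L0 w ε : ℝ}

noncomputable def ψ (a : Surf N L0 w ε) : P → ℝ := psi L0 w ε a.χ
noncomputable def n (a : Surf N L0 w ε) : Fin 3 → P → ℝ := nrm a.ψ a.G
/-- normalised second fundamental form -/
noncomputable def L (a : Surf N L0 w ε) (z : P) : ℝ := II e1 e1 a.ψ a.G z / (w * L0)
noncomputable def M (a : Surf N L0 w ε) (z : P) : ℝ := II e1 e2 a.ψ a.G z / (w * L0)
noncomputable def Nn (a : Surf N L0 w ε) (z : P) : ℝ := II e2 e2 a.ψ a.G z / (w * L0)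
noncomputable def mu (a : Surf N L0 w ε) (z : P) : ℝ := a.M z / a.L z
noncomputable def ka (a : Surf N L0 w ε) (z : P) : ℝ := (a.L z * a.Nn z - a.M z ^ 2) / a.L z ^ 2
noncomputable def rh (a : Surf N L0 w ε) (z : P) : ℝ := (a.L z ^ 2)⁻¹
/-- the Lagrangian coordinate: a component of the Gauss map -/
noncomputable def xi (a : Surf N L0 w ε) (z : P) : ℝ :=
  - dot a.n (fun c _ => ∂₁ (a.G c) 0) z / (w * L0)

/-- differences of second fundamental forms -/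
noncomputable def dP (a b : Surf N L0 w ε) (z : P) : ℝ := b.L z - a.L z
noncomputable def dM (a b : Surf N L0 w ε) (z : P) : ℝ := b.M z - a.M z
noncomputable def dR (a b : Surf N L0 w ε) (z : P) : ℝ := b.Nn z - a.Nn z
noncomputable def dQ (a b : Surf N L0 w ε) (z : P) : ℝ := dM a b z - a.mu z * dP a b z
/-- difference of the perturbations -/
noncomputable def dχ (a b : Surf N L0 w ε) (z : P) : ℝ := b.χ z - a.χ z
/-- potential -/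
noncomputable def uu (a b : Surf N L0 w ε) (z : P) : ℝ := dot (D e1 b.G) a.n z / (w * L0)
/-- components of `∇(G_b - G_a)`; `j = true` is `∂₁`, `j = false` is `∂₂` -/
noncomputable def W (a b : Surf N L0 w ε) (i : Bool × Fin 3) (z : P) : ℝ :=
  if i.1 then ∂₁ (b.G i.2) z - ∂₁ (a.G i.2) z else ∂₂ (b.G i.2) z - ∂₂ (a.G i.2) z
/-- `|∇(G_b - G_a)|²` -/
noncomputable def Lam (a b : Surf N L0 w ε) (z : P) : ℝ := ∑ i, W a b i z ^ 2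

/-- `C¹`-type closeness on `K` -/
def Close (a b : Surf N L0 w ε) (τ : ℝ) : Prop :=
  ∀ z ∈ K, |dP a b z| ≤ τ ∧ |dM a b z| ≤ τ ∧ |dR a b z| ≤ τ ∧
    |∂₁ (dP a b) z| ≤ τ ∧ |∂₁ (dM a b) z| ≤ τ ∧ |∂₁ (dR a b) z| ≤ τ

/-- fine pointwise bounds available once `w` is small -/
structure Fine (a : Surf N L0 w ε) : Prop where
  coef : Coef ε a.mu a.ka a.rh a.xi
  smL : ContDiffOn ℝ ∞ a.L O
  smM : ContDiffOn ℝ ∞ a.M O
  smN : ContDiffOn ℝ ∞ a.Nn O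
  L0' : ∀ z ∈ O, |a.L z - 1| ≤ 1 / 10 ^ 4
  M0 : ∀ z ∈ O, |a.M z| ≤ 1 / 10 ^ 4
  N0 : ∀ z ∈ O, |a.Nn z| ≤ 1 / 10 ^ 4
  L1 : ∀ z ∈ O, |∂₁ a.L z| ≤ 1 / 10 ^ 4 ∧ |∂₂ a.L z| ≤ 1 / 10 ^ 4
  M1 : ∀ z ∈ O, |∂₁ a.M z| ≤ 1 / 10 ^ 4 ∧ |∂₂ a.M z| ≤ 1 / 10 ^ 4
  N1 : ∀ z ∈ O, |∂₁ a.Nn z| ≤ 1 / 10 ^ 4 ∧ |∂₂ a.Nn z| ≤ 1 / 10 ^ 4
  ψ0 : ∀ z ∈ O, |a.ψ z| ≤ ε ^ 2 / 10 ^ 5
  ψ1 : ∀ z ∈ O, |∂₁ a.ψ z| ≤ ε ^ 2 / 10 ^ 5 ∧ |∂₂ a.ψ z| ≤ ε ^ 2 / 10 ^ 5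
  κrel : ∀ z ∈ O, (∀ᶠ x in 𝓝 z, a.χ x = 0) → |a.ka z - ε ^ 2 * kk z| ≤ ε ^ 2 / 1000 * |kk z|

end Surf

/-! ### Bumps -/

noncomputable def bump0 (z : P) : ℝ := expNegInvGlue (1 - rr z)

/-- bump of radius `h` centred at `(5 i h, 0)` -/
noncomputable def bumpAt (h : ℝ) (i : ℕ) (z : P) : ℝ := bump0 ((z.1 - 5 * i * h) / h, z.2 / h)

/-- a configuration of `n` bumps of height `h ^ M` -/
noncomputable def chi (h : ℝ) (M n : ℕ) (α : Fin n → Bool) (z : P) : ℝ :=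
  h ^ M * ∑ i : Fin n, if α i then bumpAt h i z else 0

end Crest.Agent.R220
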