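import Crest.Agent.R220.Pair
import Crest.Agent.R220.Bd

/-! # Row 220: auxiliary lemmas for the detection step -/

set_option autoImplicit false

open Set MeasureTheory Filter Topology
open scoped ContDiff

namespace Crest.Agent.R220

lemma det_exists_cutoff : ∃ Cz : ℝ, 0 < Cz ∧ ∀ R : ℝ, 0 < R → ∃ ζ : P → ℝ, ContDiff ℝ ∞ ζ ∧
    (∀ z, |ζ z| ≤ 1) ∧ (∀ z, ‖z‖ ≤ R → ζ z = 1) ∧ (∀ z, 2 * R ≤ ‖z‖ → ζ z = 0) ∧
    ∀ z, |∂₁ ζ z| ≤ Cz / R ∧ |∂₂ ζ z| ≤ Cz / R := by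
  let φ : ContDiffBump (0 : P) := ⟨1, 2, by norm_num, by norm_num⟩
  have hφ : ContDiff ℝ ∞ φ := φ.contDiff
  have hb : ∀ v : P, ∃ C, ∀ z, |dd v φ z| ≤ C := fun v => by
    have h1 : Continuous (dd v φ) := continuous_dd v (hφ.of_le (by exact_mod_cast le_top))
    have h2 : HasCompactSupport (dd v φ) :=
      (φ.hasCompactSupport.fderiv ℝ).comp_left (g := fun L : P →L[ℝ] ℝ => L v) (by simp)
    exact h1.bounded_above_of_compact_support h2
  obtain ⟨C1, h1⟩ := hb e1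
  obtain ⟨C2, h2⟩ := hb e2
  have p1 : 0 ≤ C1 := (abs_nonneg _).trans (h1 0)
  have p2 : 0 ≤ C2 := (abs_nonneg _).trans (h2 0)
  refine ⟨C1 + C2 + 1, by positivity, fun R hR => ?_⟩
  have hn : ∀ z : P, ‖aff 0 e1 e2 R⁻¹ z‖ = R⁻¹ * ‖z‖ := fun z => by
    have : aff 0 e1 e2 R⁻¹ z = R⁻¹ • z := by ext <;> simp [aff]
    rw [this, norm_smul, Real.norm_eq_abs, abs_of_pos (inv_pos.mpr hR)]
  refine ⟨fun z => φ (aff 0 e1 e2 R⁻¹ z), hφ.comp (contDiff_aff _ _ _ _), fun z => ?_,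
    fun z hz => ?_, fun z hz => ?_, fun z => ?_⟩
  · rw [abs_of_nonneg φ.nonneg]; exact φ.le_one
  · refine φ.one_of_mem_closedBall ?_
    rw [mem_closedBall_zero_iff, hn, inv_mul_le_iff₀ hR]
    simpa [φ] using hz
  · refine φ.zero_of_le_dist ?_
    rw [dist_zero_right, hn, le_inv_mul_iff₀ hR]
    simpa [φ, mul_comm] using hz
  · have hd : DifferentiableAt ℝ φ (aff 0 e1 e2 R⁻¹ z) := (hφ.differentiable (by simp)) _
    rw [d1_comp_aff hd, d2_comp_aff hd, abs_mul, abs_mul, abs_of_pos (inv_pos.mpr hR),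
      div_eq_inv_mul]
    have := inv_pos.mpr hR
    constructor
    · gcongr; linarith [h1 (aff 0 e1 e2 R⁻¹ z)]
    · gcongr; linarith [h2 (aff 0 e1 e2 R⁻¹ z)]

lemma det_exists_test : ∃ Ct : ℝ, 0 < Ct ∧ ∃ T t : ℝ → ℝ, ContDiff ℝ ∞ T ∧
    (∀ s, HasDerivAt T (t s) s) ∧ Continuous t ∧ (∀ s, |s| ≤ 2 → t s = s ^ 2) ∧
    (∀ s, 3 ≤ |s| → t s = 0) ∧ ∀ s, |T s| ≤ Ct ∧ |t s| ≤ Ct := by
  let g : ContDiffBump (0 : ℝ) := ⟨9 / 4, 11 / 4, by norm_num, by norm_num⟩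
  have hg : ContDiff ℝ ∞ g := g.contDiff
  let T : ℝ → ℝ := fun s => s ^ 3 / 3 * g s
  have hT : ContDiff ℝ ∞ T := by unfold T; fun_prop
  have hc : HasCompactSupport T := g.hasCompactSupport.mul_left
  have ht : Continuous (deriv T) := hT.continuous_deriv (by exact_mod_cast le_top)
  obtain ⟨C1, h1⟩ := hT.continuous.bounded_above_of_compact_support hc
  obtain ⟨C2, h2⟩ := ht.bounded_above_of_compact_support hc.deriv
  have p1 : 0 ≤ C1 := (norm_nonneg _).trans (h1 0)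
  have p2 : 0 ≤ C2 := (norm_nonneg _).trans (h2 0)
  refine ⟨C1 + C2 + 1, by positivity, T, deriv T, hT,
    fun s => (hT.differentiable (by simp) s).hasDerivAt, ht, fun s hs => ?_, fun s hs => ?_,
    fun s => ⟨?_, ?_⟩⟩
  · have : T =ᶠ[𝓝 s] fun x => x ^ 3 / 3 := by
      have : {x : ℝ | |x| < 9 / 4} ∈ 𝓝 s :=
        (isOpen_lt continuous_abs continuous_const).mem_nhds (by simp only [mem_setOf_eq]; linarith)
      filter_upwards [this] with x hx
      have : g x = 1 := g.one_of_mem_closedBall (by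
        rw [mem_closedBall_zero_iff]; exact le_of_lt hx)
      simp [T, this]
    rw [this.deriv_eq, ((hasDerivAt_pow 3 s).div_const 3).deriv]
    norm_num
  · have : T =ᶠ[𝓝 s] fun _ => 0 := by
      have : {x : ℝ | 11 / 4 < |x|} ∈ 𝓝 s :=
        (isOpen_lt continuous_const continuous_abs).mem_nhds (by simp only [mem_setOf_eq]; linarith)
      filter_upwards [this] with x hx
      have : g x = 0 := g.zero_of_le_dist (by rw [dist_zero_right]; exact le_of_lt hx)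
      simp [T, this]
    rw [this.deriv_eq]; simp
  · have := h1 s; rw [Real.norm_eq_abs] at this; linarith
  · have := h2 s; rw [Real.norm_eq_abs] at this; linarith

/-- integral bound from a pointwise bound on a small set -/
lemma det_int_bound {f u : P → ℝ} {S : Set P} {R A B : ℝ} (hR : 0 ≤ R) (hf : ContinuousOn f O)
    (hu : ContinuousOn u O) (hS : MeasurableSet S) (hSK : S ⊆ K)
    (hSR : S ⊆ Metric.closedBall 0 (2 * R)) (hB : 0 ≤ B)
    (h0 : ∀ z ∈ K, z ∉ S → f z = 0) (hb : ∀ z ∈ S, |f z| ≤ A * u z + B) :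
    |∫ z in K, f z| ≤ A * (∫ z in S, u z) + B * (16 * R ^ 2) := by
  have hfin : volume S ≠ ⊤ := ((measure_mono hSK).trans_lt isCompact_K.measure_lt_top).ne
  have iu : IntegrableOn u S := (ContinuousOn.integrableOn_K hu).mono_set hSK
  have iB : IntegrableOn (fun _ : P => B) S := integrableOn_const hfin
  have hv : (volume : Measure P).real S ≤ 16 * R ^ 2 := by
    have e : Metric.closedBall (0 : P) (2 * R) = Icc (-(2 * R)) (2 * R) ×ˢ Icc (-(2 * R)) (2 * R) := by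
      ext z
      simp only [mem_closedBall_zero_iff, norm_eq_max, max_le_iff, abs_le, mem_prod, mem_Icc]
    refine (measureReal_mono hSR (isCompact_closedBall _ _).measure_lt_top.ne).trans (le_of_eq ?_)
    rw [e, Measure.real, Measure.volume_eq_prod, Measure.prod_prod, Real.volume_Icc,
      ← ENNReal.ofReal_mul (by linarith), ENNReal.toReal_ofReal (by nlinarith)]
    ring
  rw [setIntegral_eq_of_subset_of_forall_sdiff_eq_zero measurableSet_K hSK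
    (fun z hz => h0 z hz.1 hz.2)]
  calc |∫ z in S, f z| ≤ ∫ z in S, (A * u z + B) := by
        rw [← Real.norm_eq_abs]
        refine norm_integral_le_of_norm_le ((iu.const_mul A).add iB) ?_
        exact (ae_restrict_iff' hS).2 (Eventually.of_forall fun z hz => hb z hz)
    _ = A * (∫ z in S, u z) + B * (volume : Measure P).real S := by
        rw [integral_add (iu.const_mul A) iB, integral_const_mul, setIntegral_const, smul_eq_mul,
          mul_comm _ B]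
    _ ≤ _ := by gcongr

/-- the integrated divergence identity -/
lemma det_div {p q r ζ : P → ℝ} (hp : ContDiffOn ℝ ∞ p O) (hq : ContDiffOn ℝ ∞ q O)
    (hr : ContDiffOn ℝ ∞ r O) (hζ : ContDiff ℝ ∞ ζ) (hζ0 : ∀ z, z ∉ K → ζ z = 0) {T t : ℝ → ℝ}
    (hT : ContDiff ℝ ∞ T) (hTt : ∀ s, HasDerivAt T (t s) s) {h : ℝ} (hh : h ≠ 0) (c ap am : ℝ) :
    ∫ z in K, (ζ z * t ((z.1 - c + ap * z.2) / h) * ((r z - am * q z) - ap * (q z - am * p z)) +
      h * T ((z.1 - c + ap * z.2) / h) * (∂₁ ζ z * (r z - am * q z) - ∂₂ ζ z * (q z - am * p z)) -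
      ζ z * (h * T ((z.1 - c + ap * z.2) / h)) *
        ((∂₂ q z - ∂₁ r z) - am * (∂₂ p z - ∂₁ q z))) = 0 := by
  have hl : ContDiff ℝ ∞ (fun z : P => (z.1 - c + ap * z.2) / h) := by fun_prop
  have hTT : ContDiff ℝ ∞ (fun z : P => h * T ((z.1 - c + ap * z.2) / h)) :=
    contDiff_const.mul (hT.comp hl)
  have hw1 : ContDiffOn ℝ ∞ (fun z => q z - am * p z) O := hq.sub (contDiffOn_const.mul hp)
  have hw2 : ContDiffOn ℝ ∞ (fun z => r z - am * q z) O := hr.sub (contDiffOn_const.mul hq)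
  have := integral_div_eq_zero
    (J1 := fun z => ζ z * (h * T ((z.1 - c + ap * z.2) / h)) * (r z - am * q z))
    (J2 := fun z => -(ζ z * (h * T ((z.1 - c + ap * z.2) / h)) * (q z - am * p z)))
    (ContDiffOn.top_one ((hζ.contDiffOn.mul hTT.contDiffOn).mul hw2))
    (ContDiffOn.top_one ((hζ.contDiffOn.mul hTT.contDiffOn).mul hw1).neg)
    (fun z _ hz => by simp [hζ0 z hz]) (fun z _ hz => by simp [hζ0 z hz])
  rw [← this]
  refine setIntegral_congr_fun measurableSet_K fun z hz => ?_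
  have hz' := K_subset_O hz
  have dζ : DifferentiableAt ℝ ζ z := hζ.differentiable (by simp) z
  have dl : DifferentiableAt ℝ (fun z : P => (z.1 - c + ap * z.2) / h) z :=
    hl.differentiable (by simp) z
  have dT : DifferentiableAt ℝ (fun z : P => h * T ((z.1 - c + ap * z.2) / h)) z :=
    hTT.differentiable (by simp) z
  have dp := diffAt_top isOpen_O hp hz'
  have dq := diffAt_top isOpen_O hq hz'
  have dr := diffAt_top isOpen_O hr hz'
  have eT : ∀ v : P, dd v (fun z : P => h * T ((z.1 - c + ap * z.2) / h)) z =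
      t ((z.1 - c + ap * z.2) / h) * (v.1 + ap * v.2) := fun v => by
    have dT0 : DifferentiableAt ℝ (fun z : P => T ((z.1 - c + ap * z.2) / h)) z :=
      (hTt _).differentiableAt.comp z dl
    rw [dd_const_mul h dT0, dd_comp (hTt _) dl,
      dd_div_const h (by fun_prop), dd_add (by fun_prop) (by fun_prop),
      dd_sub (by fun_prop) (by fun_prop), dd_const_mul ap (by fun_prop), dd_fst, dd_snd, dd_const]
    field_simp
    ring
  beta_reduce
  rw [dd_neg, dd_mul (dζ.fun_mul dT) (dr.fun_sub (dq.const_mul am)),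
    dd_mul (dζ.fun_mul dT) (dq.fun_sub (dp.const_mul am)),
    dd_mul dζ dT, dd_mul dζ dT, eT, eT, dd_sub dr (dq.const_mul am), dd_sub dq (dp.const_mul am),
    dd_const_mul am dq, dd_const_mul am dp]
  simp only [e1_fst, e1_snd, e2_fst, e2_snd]
  ring

lemma det_am {m u lam : ℝ} (hl : 0 < lam) (hmu : m ^ 2 ≤ 2 * u) : m ≤ 2 * u / lam + lam := by
  have : m * lam ≤ 2 * u + lam * lam := by nlinarith [sq_nonneg (m - lam)]
  rw [div_add' _ _ _ hl.ne', le_div_iff₀ hl]; exact this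

lemma det_ptA {ζ t T p q r S0 lp c1 c2 L M N L0 M0 N0 cz c0 ap am m u Ct Cc R X Y lam : ℝ}
    (e1 : L0 * (ap + am) = 2 * M0) (e2 : L0 * (ap * am) = N0)
    (eS : S0 = (L + p) * (N + r) - (M + q) ^ 2 - (L * N - M ^ 2))
    (hζ : |ζ| ≤ 1) (ht : |t| ≤ Ct) (hT : |T| ≤ Ct * R) (hL0 : |L0| ≤ 2) (ham : |am| ≤ 1)
    (hc : |c0 - cz| ≤ Cc * R) (hlp : |lp| ≤ Y) (hS : |S0 + cz * lp| ≤ X)
    (hL : |L0 - L| ≤ R) (hM : |M0 - M| ≤ R) (hN : |N0 - N| ≤ R)
    (hp : |p| ≤ m) (hq : |q| ≤ m) (hr : |r| ≤ m + 2 * Y) (h1 : |c1| ≤ m + 3 * Y)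
    (h2 : |c2| ≤ m + 3 * Y) (hl : 0 < lam) (hmu : m ^ 2 ≤ 2 * u) :
    |c0 * (ζ * t * lp) + L0 * (ζ * t * ((r - am * q) - ap * (q - am * p)) - ζ * T * (c2 - am * c1))|
      ≤ Ct * (6 + 16 * (R / lam)) * u + Ct * ((Cc + 14) * R * Y + X + Y ^ 2 + 8 * R * lam) := by
  have e : c0 * (ζ * t * lp) + L0 * (ζ * t * ((r - am * q) - ap * (q - am * p)) -
      ζ * T * (c2 - am * c1)) = ζ * t * ((c0 - cz) * lp + (S0 + cz * lp) - (p * r - q * q) +
        (L0 - L) * r - ((M0 - M) * q + (M0 - M) * q) + (N0 - N) * p) -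
        L0 * (ζ * T * (c2 - am * c1)) := by
    rw [eS]; linear_combination (-(ζ * t * q)) * e1 + ζ * t * p * e2
  have hCt : 0 ≤ Ct := (abs_nonneg _).trans ht
  have hR : 0 ≤ R := (abs_nonneg _).trans hL
  have hm := det_am hl hmu
  generalize c0 - cz = x1 at *
  generalize S0 + cz * lp = x2 at *
  generalize L0 - L = x3 at *
  generalize M0 - M = x4 at *
  generalize N0 - N = x5 at *
  rw [e]
  apply le_trans
  · bd
  · have k1 : 8 * R * m ≤ 8 * R * (2 * u / lam + lam) := by gcongr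
    have k2 : Cc * R * Y + X + (m * (m + 2 * Y) + m * m) + R * (m + 2 * Y) + (R * m + R * m) + R * m
        + 4 * R * (m + 3 * Y) ≤ (6 + 16 * (R / lam)) * u +
          ((Cc + 14) * R * Y + X + Y ^ 2 + 8 * R * lam) := by
      have : 8 * R * (2 * u / lam + lam) = 16 * (R / lam) * u + 8 * R * lam := by ring
      nlinarith [sq_nonneg (m - Y)]
    nlinarith [mul_le_mul_of_nonneg_left k2 hCt]

lemma det_ptB {L0 T z1 z2 p q r am m u Ct Cz R h lam : ℝ} (hL0 : |L0| ≤ 2) (hT : |T| ≤ Ct * h)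
    (h1 : |z1| ≤ Cz / R) (h2 : |z2| ≤ Cz / R) (ham : |am| ≤ 1) (hp : |p| ≤ m) (hq : |q| ≤ m)
    (hr : |r| ≤ m) (hh : 0 < h) (hR : h ≤ R) (hCt : 0 ≤ Ct) (hCz : 0 ≤ Cz) (hl : 0 < lam)
    (hmu : m ^ 2 ≤ 2 * u) :
    |L0 * (T * (z1 * (r - am * q) - z2 * (q - am * p)))| ≤
      16 * Ct * Cz / lam * u + 8 * Ct * Cz * lam := by
  have hm := det_am hl hmu
  have hm0 : 0 ≤ m := (abs_nonneg _).trans hp
  apply le_trans
  · bd
  · have k0 : h / R ≤ 1 := (div_le_one (by linarith)).2 hR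
    have k1 : 8 * Ct * Cz * (h / R) * m ≤ 8 * Ct * Cz * 1 * (2 * u / lam + lam) := by gcongr
    calc _ = 8 * Ct * Cz * (h / R) * m := by ring
      _ ≤ _ := k1
      _ = _ := by ring

lemma det_mono {n g h : ℝ} (hn : 1 ≤ n) (hg : 0 < g) (hg1 : g ≤ 1) (hh : 0 < h) (hh1 : h ≤ 1)
    {a b c : ℕ} (ha : a ≤ 10) (hb : 1 ≤ b) (hc : 5 ≤ c) :
    n ^ a * g ^ b * h ^ c ≤ n ^ 10 * (g * h ^ 5) := by
  have h1 : n ^ a ≤ n ^ 10 := pow_le_pow_right₀ hn ha
  have h2 : g ^ b ≤ g ^ 1 := pow_le_pow_of_le_one hg.le hg1 hb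
  have h3 : h ^ c ≤ h ^ 5 := pow_le_pow_of_le_one hh.le hh1 hc
  rw [pow_one] at h2
  rw [← mul_assoc]
  gcongr

lemma det_final {Ct Cl Cc Cs CY CX Cz ρ : ℝ} (hCt : 0 < Ct) (hCl : 0 < Cl) (hCc : 0 ≤ Cc)
    (hCY : 0 ≤ CY) (hCX : 0 ≤ CX) (hCz : 0 < Cz) (hρ : 0 < ρ) : ∃ C : ℝ, 0 < C ∧
    ∀ n h g δ : ℝ, 1 ≤ n → 0 < h → h ≤ 1 → 0 < g → g ≤ 1 → 0 ≤ δ →
      Ct * (6 + 16 * (ρ * n * h / (g * h ^ 2))) *
          (Cl * (δ / (5 * n * h) + (5 * n * h) ^ 4 * (Cs * n * g * h) ^ 2)) +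
        Ct * ((Cc + 14) * (ρ * n * h) * (CY * n * g * h ^ 2) + CX * n * g * h ^ 4 +
          (CY * n * g * h ^ 2) ^ 2 + 8 * (ρ * n * h) * (g * h ^ 2)) * (16 * (ρ * n * h) ^ 2) +
        (16 * Ct * Cz / (g * h ^ 3) * (Cl * δ / (5 * n * h)) +
          8 * Ct * Cz * (g * h ^ 3) * (16 * (ρ * n * h) ^ 2)) ≤
      C * (n ^ 10 * (g * h ^ 5) + δ / (g * h ^ 6)) := by
  refine ⟨Ct * Cl * (6 + 16 * ρ) * (1 + 625 * Cs ^ 2) +
    16 * Ct * ((Cc + 14) * ρ ^ 3 * CY + ρ ^ 2 * CX + ρ ^ 2 * CY ^ 2 + 8 * ρ ^ 3) +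
    16 * Ct * Cz * Cl + 128 * Ct * Cz * ρ ^ 2, by positivity, fun n h g δ hn hh hh1 hg hg1 hδ => ?_⟩
  have hn0 : 0 < n := by linarith
  set U := n ^ 10 * (g * h ^ 5) with hU
  set V := δ / (g * h ^ 6) with hV
  have U0 : 0 ≤ U := by positivity
  have V0 : 0 ≤ V := by positivity
  have m1 := det_mono hn hg hg1 hh hh1 (a := 6) (b := 2) (c := 6) (by omega) (by omega) (by omega)
  have m2 := det_mono hn hg hg1 hh hh1 (a := 7) (b := 1) (c := 5) (by omega) (by omega) (by omega)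
  have m3 := det_mono hn hg hg1 hh hh1 (a := 4) (b := 1) (c := 5) (by omega) (by omega) (by omega)
  have m4 := det_mono hn hg hg1 hh hh1 (a := 3) (b := 1) (c := 6) (by omega) (by omega) (by omega)
  have m5 := det_mono hn hg hg1 hh hh1 (a := 4) (b := 2) (c := 6) (by omega) (by omega) (by omega)
  have m6 := det_mono hn hg hg1 hh hh1 (a := 3) (b := 1) (c := 5) (by omega) (by omega) (by omega)
  have m7 := det_mono hn hg hg1 hh hh1 (a := 2) (b := 1) (c := 5) (by omega) (by omega) (by omega)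
  rw [← hU] at m1 m2 m3 m4 m5 m6 m7
  have hp : ∀ k : ℕ, h ^ k ≤ 1 := fun k => pow_le_one₀ hh.le hh1
  have v1 : δ / (5 * n * h) ≤ V := by
    rw [hV]; refine div_le_div_of_nonneg_left hδ (by positivity) ?_
    have := hp 5
    have : g * h ^ 5 ≤ 5 * n := by nlinarith [mul_le_mul hg1 this (by positivity) zero_le_one]
    nlinarith
  have v2 : δ / (5 * g * h ^ 2) ≤ V := by
    rw [hV]; refine div_le_div_of_nonneg_left hδ (by positivity) ?_
    have := mul_le_mul_of_nonneg_left (hp 4) (show 0 ≤ g * h ^ 2 by positivity)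
    nlinarith [show 0 ≤ g * h ^ 2 by positivity]
  have v3 : δ / (5 * n * g * h ^ 4) ≤ V := by
    rw [hV]; refine div_le_div_of_nonneg_left hδ (by positivity) ?_
    have := mul_le_mul_of_nonneg_left (hp 2) (show 0 ≤ g * h ^ 4 by positivity)
    nlinarith [show 0 ≤ g * h ^ 4 by positivity]
  calc _ = Ct * Cl * (6 * (δ / (5 * n * h)) + 6 * 625 * Cs ^ 2 * (n ^ 6 * g ^ 2 * h ^ 6) +
          16 * ρ * (δ / (5 * g * h ^ 2)) + 16 * ρ * 625 * Cs ^ 2 * (n ^ 7 * g ^ 1 * h ^ 5)) +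
        16 * Ct * ((Cc + 14) * ρ ^ 3 * CY * (n ^ 4 * g ^ 1 * h ^ 5) +
          ρ ^ 2 * CX * (n ^ 3 * g ^ 1 * h ^ 6) + ρ ^ 2 * CY ^ 2 * (n ^ 4 * g ^ 2 * h ^ 6) +
          8 * ρ ^ 3 * (n ^ 3 * g ^ 1 * h ^ 5)) +
        16 * Ct * Cz * Cl * (δ / (5 * n * g * h ^ 4)) +
        128 * Ct * Cz * ρ ^ 2 * (n ^ 2 * g ^ 1 * h ^ 5) := by field_simp; ring
    _ ≤ Ct * Cl * (6 * (U + V) + 6 * 625 * Cs ^ 2 * (U + V) +
          16 * ρ * (U + V) + 16 * ρ * 625 * Cs ^ 2 * (U + V)) +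
        16 * Ct * ((Cc + 14) * ρ ^ 3 * CY * (U + V) + ρ ^ 2 * CX * (U + V) +
          ρ ^ 2 * CY ^ 2 * (U + V) + 8 * ρ ^ 3 * (U + V)) +
        16 * Ct * Cz * Cl * (U + V) + 128 * Ct * Cz * ρ ^ 2 * (U + V) := by
      gcongr <;> linarith
    _ = _ := by ring

end Crest.Agent.R220
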