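import Crest.Agent.R220.Defs

/-! # Row 220: the divergence identity (Lemma A of the blueprint) -/

set_option autoImplicit false

open Set MeasureTheory Filter Topology
open scoped ContDiff

namespace Crest.Agent.R220

noncomputable def J2 (κ p q u β γ α : P → ℝ) (z : P) : ℝ :=
  β z * p z * q z + γ z * (q z ^ 2 - κ z * p z ^ 2) / 2 + α z * u z * q z

noncomputable def J1 (μ κ p q u β γ α : P → ℝ) (z : P) : ℝ :=
  - μ z * J2 κ p q u β γ α z + β z * (κ z * p z ^ 2 - q z ^ 2) / 2 + γ z * κ z * p z * q z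
    + α z * κ z * u z * p z

lemma contDiffOn_J2 {κ p q u β γ α : P → ℝ} (hκ : ContDiffOn ℝ 1 κ O) (hp : ContDiffOn ℝ 1 p O)
    (hq : ContDiffOn ℝ 1 q O) (hu : ContDiffOn ℝ 1 u O) (hβ : ContDiffOn ℝ 1 β O)
    (hγ : ContDiffOn ℝ 1 γ O) (hα : ContDiffOn ℝ 1 α O) :
    ContDiffOn ℝ 1 (J2 κ p q u β γ α) O := by
  unfold J2; fun_prop

lemma contDiffOn_J1 {μ κ p q u β γ α : P → ℝ} (hμ : ContDiffOn ℝ 1 μ O) (hκ : ContDiffOn ℝ 1 κ O)
    (hp : ContDiffOn ℝ 1 p O) (hq : ContDiffOn ℝ 1 q O) (hu : ContDiffOn ℝ 1 u O)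
    (hβ : ContDiffOn ℝ 1 β O) (hγ : ContDiffOn ℝ 1 γ O) (hα : ContDiffOn ℝ 1 α O) :
    ContDiffOn ℝ 1 (J1 μ κ p q u β γ α) O := by
  unfold J1 J2; fun_prop

/-- The pointwise divergence identity. -/
lemma div_identity {μ κ p q u β γ α : P → ℝ} {z : P} (hμ : DifferentiableAt ℝ μ z)
    (hκ : DifferentiableAt ℝ κ z) (hp : DifferentiableAt ℝ p z) (hq : DifferentiableAt ℝ q z)
    (hu : DifferentiableAt ℝ u z) (hβ : DifferentiableAt ℝ β z) (hγ : DifferentiableAt ℝ γ z)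
    (hα : DifferentiableAt ℝ α z) :
    - (∂₁ (J1 μ κ p q u β γ α) z + ∂₂ (J2 κ p q u β γ α) z) =
      (∂₁ β z / 2 - Dt μ γ z / 2 - 3 * ∂₁ μ z * γ z / 2 - α z) * q z ^ 2
      + (- (Dt μ β z + 2 * ∂₁ μ z * β z) - ∂₁ γ z * κ z + γ z * Dt μ μ z) * (p z * q z)
      + (β z * (Dt μ μ z + ∂₁ κ z / 2) - ∂₁ β z * κ z / 2 + κ z * ∂₁ μ z * γ z / 2
          + κ z * Dt μ γ z / 2 + γ z * Dt μ κ z / 2 - α z * κ z) * p z ^ 2
      - (β z * (p z * F2 μ κ p q z + q z * F1 μ p q z)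
          + γ z * (q z * F2 μ κ p q z - κ z * p z * F1 μ p q z) + α z * u z * F2 μ κ p q z
          + α z * (q z * (Dt μ u z - q z) + κ z * p z * (∂₁ u z - p z))
          + u z * ((Dt μ α z + ∂₁ μ z * α z) * q z
            + (∂₁ α z * κ z - α z * Dt μ μ z) * p z)) := by
  unfold J1 J2
  simp (disch := fun_prop) only [dd_add, dd_sub, dd_mul, dd_neg, dd_div_const, dd_sq]
  simp only [Dt, F1, F2]
  ring

end Crest.Agent.R220
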