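import Crest.Agent.R220.Geom
import Crest.Agent.R220.Bump
import Crest.Agent.R220.Bd

/-! # Row 220: from a surface to the coefficient hypotheses -/

set_option autoImplicit false

open Set MeasureTheory Filter Topology
open scoped ContDiff

namespace Crest.Agent.R220

/-- index type of all surfaces with admissible parameters -/
structure FineIdx (N L0 : ℝ) where
  w : ℝ
  ε : ℝ
  par : Par L0 w ε
  a : Surf N L0 w ε

namespace Surf
variable {N L0 w ε : ℝ}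

/-- `e^{-2ψ} ⟨G₁, G₁(0)⟩` -/
noncomputable def fz1 (a : Surf N L0 w ε) (z : P) : ℝ :=
  Real.exp (-2 * a.ψ z) * dot (D e1 a.G) (fun c _ => ∂₁ (a.G c) 0) z
/-- `e^{-2ψ} ⟨G₂, G₁(0)⟩` -/
noncomputable def fz2 (a : Surf N L0 w ε) (z : P) : ℝ :=
  Real.exp (-2 * a.ψ z) * dot (D e2 a.G) (fun c _ => ∂₁ (a.G c) 0) z

lemma fine_QB_psi (a : Surf N L0 w ε) : QB 1 (7 * (ε * w * L0) ^ 2) 3 a.ψ := by
  have h := (QB_Phi.const_mul ((ε * w * L0) ^ 2)).add a.qχ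
  refine h.mono ?_
  rw [abs_of_nonneg (sq_nonneg _)]
  nlinarith [sq_nonneg (ε * w * L0)]

lemma fine_QB_psi' (par : Par L0 w ε) (a : Surf N L0 w ε) : QB w 1 2 a.ψ := by
  have h := (a.fine_QB_psi.of_le (j := 2) (by norm_num)).rescale par.hw par.hw1
  refine h.mono ?_
  have hw := par.hw
  have : 7 * (ε * w * L0) ^ 2 * (1 / w) ^ 2 = 7 * (ε * L0) ^ 2 := by field_simp
  rw [this]
  linarith [par.hεL]

end Surf

lemma fine_exists_QB (N L0 : ℝ) : ∃ C : ℝ, 0 < C ∧ ∀ w ε : ℝ, Par L0 w ε → ∀ a : Surf N L0 w ε,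
    (QB w C 2 a.ψ ∧ (∀ c, QB w C 2 (a.n c)) ∧ QB w C 2 a.L ∧ QB w C 2 a.M ∧ QB w C 2 a.Nn) ∧
      QB w C 2 a.fz1 ∧ QB w C 2 a.fz2 := by
  let ww : FineIdx N L0 → ℝ := fun i => i.w
  have hψ : UB ww 2 (fun i => i.a.ψ) := ⟨1, fun i => i.a.fine_QB_psi' i.par⟩
  have hG1 : ∀ c, UB ww 3 (fun i => ∂₁ (i.a.G c)) := fun c => ⟨N, fun i => i.a.qG1 c⟩
  have hG2 : ∀ c, UB ww 3 (fun i => ∂₂ (i.a.G c)) := fun c => ⟨N, fun i => i.a.qG2 c⟩
  have hG1' : ∀ c, UB ww 2 (fun i => ∂₁ (i.a.G c)) := fun c => (hG1 c).of_le (by norm_num)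
  have hG2' : ∀ c, UB ww 2 (fun i => ∂₂ (i.a.G c)) := fun c => (hG2 c).of_le (by norm_num)
  have hE : UB ww 2 (fun i z => Real.exp (-2 * i.a.ψ z)) := (hψ.const_mul (-2)).exp
  have hn0 : UB ww 2 (fun i => i.a.n 0) :=
    hE.mul (((hG1' 1).mul (hG2' 2)).sub ((hG1' 2).mul (hG2' 1)))
  have hn1 : UB ww 2 (fun i => i.a.n 1) :=
    hE.mul (((hG1' 2).mul (hG2' 0)).sub ((hG1' 0).mul (hG2' 2)))
  have hn2 : UB ww 2 (fun i => i.a.n 2) :=
    hE.mul (((hG1' 0).mul (hG2' 1)).sub ((hG1' 1).mul (hG2' 0)))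
  have hL : UB ww 2 (fun i => i.a.L) := by
    refine (((((hG1 0).d1.mul hn0).add ((hG1 1).d1.mul hn1)).add
      ((hG1 2).d1.mul hn2)).const_mul L0⁻¹).congr fun i z _ => ?_
    simp only [Surf.L, II, dot, D, Surf.n, ww]
    ring
  have hM : UB ww 2 (fun i => i.a.M) := by
    refine (((((hG2 0).d1.mul hn0).add ((hG2 1).d1.mul hn1)).add
      ((hG2 2).d1.mul hn2)).const_mul L0⁻¹).congr fun i z _ => ?_
    simp only [Surf.M, II, dot, D, Surf.n, ww]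
    ring
  have hN : UB ww 2 (fun i => i.a.Nn) := by
    refine (((((hG2 0).d2.mul hn0).add ((hG2 1).d2.mul hn1)).add
      ((hG2 2).d2.mul hn2)).const_mul L0⁻¹).congr fun i z _ => ?_
    simp only [Surf.Nn, II, dot, D, Surf.n, ww]
    ring
  have hc : ∀ c, UB ww 2 (fun i _ => ∂₁ (i.a.G c) 0) := fun c =>
    UB.const (B := N) fun i => (i.a.qG1 c).bound 0 zero_mem_O
  have hz1 : UB ww 2 (fun i => i.a.fz1) :=
    hE.mul ((((hG1' 0).mul (hc 0)).add ((hG1' 1).mul (hc 1))).add ((hG1' 2).mul (hc 2)))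
  have hz2 : UB ww 2 (fun i => i.a.fz2) :=
    hE.mul ((((hG2' 0).mul (hc 0)).add ((hG2' 1).mul (hc 1))).add ((hG2' 2).mul (hc 2)))
  obtain ⟨C0, h0⟩ := hψ
  obtain ⟨C1, h1⟩ := hn0
  obtain ⟨C2, h2⟩ := hn1
  obtain ⟨C3, h3⟩ := hn2
  obtain ⟨C4, h4⟩ := hL
  obtain ⟨C5, h5⟩ := hM
  obtain ⟨C6, h6⟩ := hN
  obtain ⟨C7, h7⟩ := hz1
  obtain ⟨C8, h8⟩ := hz2
  refine ⟨1 + |C0| + |C1| + |C2| + |C3| + |C4| + |C5| + |C6| + |C7| + |C8|, by positivity,
    fun w ε par a => ?_⟩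
  have p0 := le_abs_self C0
  have p1 := le_abs_self C1
  have p2 := le_abs_self C2
  have p3 := le_abs_self C3
  have p4 := le_abs_self C4
  have p5 := le_abs_self C5
  have p6 := le_abs_self C6
  have p7 := le_abs_self C7
  have p8 := le_abs_self C8
  have q0 := abs_nonneg C0
  have q1 := abs_nonneg C1
  have q2 := abs_nonneg C2
  have q3 := abs_nonneg C3
  have q4 := abs_nonneg C4
  have q5 := abs_nonneg C5
  have q6 := abs_nonneg C6
  have q7 := abs_nonneg C7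
  have q8 := abs_nonneg C8
  refine ⟨⟨(h0 ⟨w, ε, par, a⟩).mono (by linarith), fun c => ?_,
    (h4 ⟨w, ε, par, a⟩).mono (by linarith), (h5 ⟨w, ε, par, a⟩).mono (by linarith),
    (h6 ⟨w, ε, par, a⟩).mono (by linarith)⟩, (h7 ⟨w, ε, par, a⟩).mono (by linarith),
    (h8 ⟨w, ε, par, a⟩).mono (by linarith)⟩
  fin_cases c
  · exact (h1 ⟨w, ε, par, a⟩).mono (by linarith)
  · exact (h2 ⟨w, ε, par, a⟩).mono (by linarith)
  · exact (h3 ⟨w, ε, par, a⟩).mono (by linarith)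

/-- uniform scaled bounds (independent of `w`, `ε`) -/
theorem exists_QB (N L0 : ℝ) : ∃ C : ℝ, 0 < C ∧ ∀ w ε : ℝ, Par L0 w ε → ∀ a : Surf N L0 w ε,
    QB w C 2 a.ψ ∧ (∀ c, QB w C 2 (a.n c)) ∧ QB w C 2 a.L ∧ QB w C 2 a.M ∧ QB w C 2 a.Nn := by
  obtain ⟨C, hC, h⟩ := fine_exists_QB N L0
  exact ⟨C, hC, fun w ε par a => (h w ε par a).1⟩

/-- normalised Gauss and Codazzi equations -/
theorem Surf.gauss {N L0 w ε : ℝ} (par : Par L0 w ε) (a : Surf N L0 w ε) {z : P} (hz : z ∈ O) :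
    a.L z * a.Nn z - a.M z ^ 2 = - ((w * L0) ^ 2)⁻¹ * Real.exp (2 * a.ψ z) * lap a.ψ z := by
  have h := a.iso.gauss hz
  have hw := par.hw.ne'
  have hL := par.hL0
  simp only [Surf.L, Surf.M, Surf.Nn, Surf.ψ]
  field_simp
  linear_combination h

lemma Surf.fine_dd_II {N L0 w ε : ℝ} (a : Surf N L0 w ε) {z : P} (hz : z ∈ O) (u v v' : P) :
    dd u (fun x => II v v' a.ψ a.G x / (w * L0)) z = dd u (II v v' a.ψ a.G) z / (w * L0) :=
  dd_div_const _ (diffAt_top isOpen_O (a.iso.sm_II v v') hz)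

theorem Surf.codazzi1 {N L0 w ε : ℝ} (a : Surf N L0 w ε) {z : P} (hz : z ∈ O) :
    ∂₂ a.L z - ∂₁ a.M z = ∂₂ a.ψ z * (a.L z + a.Nn z) := by
  have h := a.iso.codazzi1 hz
  have h1 : ∂₂ a.L z = _ := a.fine_dd_II hz e2 e1 e1
  have h2 : ∂₁ a.M z = _ := a.fine_dd_II hz e1 e1 e2
  rw [h1, h2]
  simp only [Surf.L, Surf.Nn, Surf.ψ]
  rw [← sub_div, h]
  ring
theorem Surf.codazzi2 {N L0 w ε : ℝ} (a : Surf N L0 w ε) {z : P} (hz : z ∈ O) :
    ∂₂ a.M z - ∂₁ a.Nn z = - ∂₁ a.ψ z * (a.L z + a.Nn z) := by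
  have h := a.iso.codazzi2 hz
  have h1 : ∂₂ a.M z = _ := a.fine_dd_II hz e2 e1 e2
  have h2 : ∂₁ a.Nn z = _ := a.fine_dd_II hz e1 e2 e2
  rw [h1, h2]
  simp only [Surf.L, Surf.Nn, Surf.ψ]
  rw [← sub_div, h]
  ring

namespace Surf
variable {N L0 w ε : ℝ}

lemma fine_lap_psi (a : Surf N L0 w ε) {z : P} (hz : z ∈ O) :
    lap a.ψ z = - (ε * w * L0) ^ 2 * kk z + lap a.χ z := by
  have hχ := a.qχ.smooth
  have h1 : ∀ v, ∀ x ∈ O, dd v a.ψ x = (ε * w * L0) ^ 2 * dd v Phi x + dd v a.χ x := by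
    intro v x hx
    have hP : DifferentiableAt ℝ Phi x := contDiff_Phi.differentiable (by simp) x
    rw [← dd_const_mul _ hP, ← dd_add (hP.const_mul _) (diffAt_top isOpen_O hχ hx)]
    rfl
  have h2 : ∀ v, dd v (dd v a.ψ) z
      = (ε * w * L0) ^ 2 * dd v (dd v Phi) z + dd v (dd v a.χ) z := by
    intro v
    have hP : DifferentiableAt ℝ (dd v Phi) z :=
      (contDiff_dd v contDiff_Phi).differentiable (by simp) z
    rw [dd_congr_on isOpen_O (h1 v) hz, dd_add (hP.const_mul _)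
      (diffAt_top isOpen_O (contDiffOn_dd isOpen_O v hχ) hz), dd_const_mul _ hP]
  have h3 := lap_Phi z
  simp only [lap] at h3 ⊢
  rw [h2, h2]
  linear_combination (ε * w * L0) ^ 2 * h3

/-- normalised Laplacian of the perturbation -/
noncomputable def fch (a : Surf N L0 w ε) (z : P) : ℝ := ((ε * w * L0) ^ 2)⁻¹ * lap a.χ z

lemma fine_QB_fch (par : Par L0 w ε) (a : Surf N L0 w ε) : QB 1 (2 / 10 ^ 5) 1 a.fch := by
  have h1 := (a.qχ.d1' one_pos).d1' one_pos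
  have h2 := (a.qχ.d2' one_pos).d2' one_pos
  have h3 := (h1.add h2).const_mul ((ε * w * L0) ^ 2)⁻¹
  refine h3.mono (le_of_eq ?_)
  have hw := par.hw.ne'
  have hL := par.hL0
  have he := par.hε.ne'
  rw [abs_of_nonneg (by positivity)]
  field_simp
  ring

lemma fine_ka (par : Par L0 w ε) (a : Surf N L0 w ε) {z : P} (hz : z ∈ O) :
    a.ka z = ε ^ 2 * ((kk z - a.fch z) * (Real.exp (2 * a.ψ z) * a.rh z)) := by
  have hw := par.hw.ne'
  have hL := par.hL0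
  have he := par.hε.ne'
  simp only [ka, rh, fch]
  rw [a.gauss par hz, a.fine_lap_psi hz, div_eq_mul_inv]
  generalize (a.L z ^ 2)⁻¹ = t
  field_simp
  ring

lemma fine_sm_xi (a : Surf N L0 w ε) : ContDiffOn ℝ ∞ a.xi O := by
  have h := a.iso.sm_nrm
  exact (((((h 0).mul contDiffOn_const).add ((h 1).mul contDiffOn_const)).add
    ((h 2).mul contDiffOn_const)).neg).div_const _

lemma fine_dd_xi (a : Surf N L0 w ε) {z : P} (hz : z ∈ O) (v : P) :
    dd v a.xi z = - (dd v (a.n 0) z * ∂₁ (a.G 0) 0 + dd v (a.n 1) z * ∂₁ (a.G 1) 0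
      + dd v (a.n 2) z * ∂₁ (a.G 2) 0) / (w * L0) := by
  have h : ∀ c, DifferentiableAt ℝ (a.n c) z := fun c => diffAt_top isOpen_O (a.iso.sm_nrm c) hz
  have h0 := h 0
  have h1 := h 1
  have h2 := h 2
  have e : a.xi = fun x => -(a.n 0 x * ∂₁ (a.G 0) 0 + a.n 1 x * ∂₁ (a.G 1) 0
      + a.n 2 x * ∂₁ (a.G 2) 0) / (w * L0) := rfl
  rw [e, dd_div_const _ (by fun_prop), dd_neg, dd_add (by fun_prop) (by fun_prop),
    dd_add (by fun_prop) (by fun_prop), dd_mul_const _ h0, dd_mul_const _ h1, dd_mul_const _ h2]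

lemma fine_d1_xi (a : Surf N L0 w ε) {z : P} (hz : z ∈ O) :
    ∂₁ a.xi z = a.L z * a.fz1 z + a.M z * a.fz2 z := by
  have h : ∀ c, ∂₁ (a.n c) z = _ := fun c => a.iso.wein1 hz c
  rw [a.fine_dd_xi hz, h, h, h]
  simp only [L, M, fz1, fz2, dot, D, ψ]
  ring

lemma fine_d2_xi (a : Surf N L0 w ε) {z : P} (hz : z ∈ O) :
    ∂₂ a.xi z = a.M z * a.fz1 z + a.Nn z * a.fz2 z := by
  have h : ∀ c, ∂₂ (a.n c) z = _ := fun c => a.iso.wein2 hz c
  rw [a.fine_dd_xi hz, h, h, h]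
  simp only [M, Nn, fz1, fz2, dot, D, ψ]
  ring

lemma fine_xi_zero (a : Surf N L0 w ε) : a.xi 0 = 0 := by
  have h : dot (nrm a.ψ a.G) (D e1 a.G) 0 = 0 := nrm_D1
  have e : a.xi 0 = - dot (nrm a.ψ a.G) (D e1 a.G) 0 / (w * L0) := rfl
  rw [e, h]
  simp

lemma fine_fz1_zero (a : Surf N L0 w ε) : a.fz1 0 = 1 := by
  have h := a.iso.h11 0 zero_mem_O
  have e : a.fz1 0 = Real.exp (-2 * a.ψ 0) * dot (D e1 a.G) (D e1 a.G) 0 := rfl
  rw [e, h, ← Real.exp_add]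
  simp [ψ]

lemma fine_fz2_zero (a : Surf N L0 w ε) : a.fz2 0 = 0 := by
  have h := a.iso.h12 0 zero_mem_O
  have e : a.fz2 0 = Real.exp (-2 * a.ψ 0) * dot (D e1 a.G) (D e2 a.G) 0 := by
    simp only [fz2, dot, D]
    ring
  rw [e, h, mul_zero]

end Surf

lemma fine_inv_bound {L : ℝ} (h : |L - 1| ≤ 2 / 10 ^ 5) :
    L ≠ 0 ∧ |L⁻¹| ≤ 10001 / 10000 ∧ |(L ^ 2)⁻¹ - 1| ≤ 41 / 10 ^ 6 := by
  rw [abs_le] at h
  have hL : 0 < L := by linarith [h.1]
  refine ⟨hL.ne', ?_, ?_⟩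
  · rw [abs_of_pos (inv_pos.2 hL), inv_le_comm₀ hL (by norm_num)]
    linarith [h.1]
  · have h2 : 0 < L ^ 2 := by positivity
    rw [abs_le]
    constructor
    · rw [le_sub_iff_add_le, le_inv_comm₀ (by norm_num) h2]
      nlinarith [h.1, h.2]
    · rw [sub_le_iff_le_add, inv_le_comm₀ h2 (by norm_num)]
      nlinarith [h.1, h.2]

lemma fine_abs_kk {z : P} (hz : z ∈ O) : |kk z| ≤ 7 := by
  obtain ⟨h1, h2⟩ := mem_O_iff.1 hz
  rw [abs_lt] at h1 h2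
  rw [abs_le, kk, rr]
  constructor <;> nlinarith [h1.1, h1.2, h2.1, h2.2]

lemma fine_norm_le {z : P} (hz : z ∈ O) : ‖z - 0‖ ≤ 2 := by
  rw [sub_zero]
  exact (mem_ball_zero_iff.1 hz).le

theorem exists_fine (N L0 : ℝ) : ∃ w0 : ℝ, 0 < w0 ∧ ∀ w ε : ℝ, Par L0 w ε → w ≤ w0 →
    ∀ a : Surf N L0 w ε, a.Fine := by
  obtain ⟨C, hC, h⟩ := fine_exists_QB N L0
  refine ⟨min (1 / 10 ^ 6 / C) (1 / 10 ^ 3 / (|L0| + 1)), by positivity, fun w ε par hw0 a => ?_⟩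
  obtain ⟨⟨-, -, qL, qM, qN⟩, qz1, qz2⟩ := h w ε par a
  have hw := par.hw
  have hε := par.hε
  have hε1 := par.hε1
  have hCw : C * w ≤ 1 / 10 ^ 6 := by
    have := hw0.trans (min_le_left _ _)
    rw [le_div_iff₀ hC] at this
    linarith
  have hwL : (w * L0) ^ 2 ≤ 1 / 10 ^ 6 := by
    have h1 := hw0.trans (min_le_right _ _)
    rw [le_div_iff₀ (by positivity)] at h1
    have h2 : |w * L0| ≤ 1 / 10 ^ 3 := by
      rw [abs_mul, abs_of_pos hw]
      nlinarith [abs_nonneg L0]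
    rw [← sq_abs]
    nlinarith [abs_nonneg (w * L0)]
  have hε2 : ε ^ 2 ≤ 1 / 10 ^ 6 := by nlinarith
  have hε2' : |ε ^ 2| ≤ ε ^ 2 := by rw [abs_of_nonneg (sq_nonneg _)]
  have hlam : 7 * (ε * w * L0) ^ 2 ≤ ε ^ 2 / 10 ^ 5 := by
    have : (ε * w * L0) ^ 2 = ε ^ 2 * (w * L0) ^ 2 := by ring
    rw [this]
    nlinarith [sq_nonneg ε]
  have qψ := a.fine_QB_psi.mono hlam
  have qc := a.fine_QB_fch par
  -- pointwise bounds
  have bψ := qψ.bound
  have bψ1 : ∀ z ∈ O, |∂₁ a.ψ z| ≤ ε ^ 2 / 10 ^ 5 := by simpa using qψ.abs_d1_le one_pos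
  have bψ2 : ∀ z ∈ O, |∂₂ a.ψ z| ≤ ε ^ 2 / 10 ^ 5 := by simpa using qψ.abs_d2_le one_pos
  have bc := qc.bound
  have bc1 : ∀ z ∈ O, |∂₁ a.fch z| ≤ 2 / 10 ^ 5 := by simpa using qc.abs_d1_le one_pos
  have bc2 : ∀ z ∈ O, |∂₂ a.fch z| ≤ 2 / 10 ^ 5 := by simpa using qc.abs_d2_le one_pos
  have d1 : ∀ {f : P → ℝ}, QB w C 2 f → ∀ z ∈ O, |∂₁ f z| ≤ 1 / 10 ^ 6 :=
    fun hf z hz => (hf.abs_d1_le hw z hz).trans hCw
  have d2 : ∀ {f : P → ℝ}, QB w C 2 f → ∀ z ∈ O, |∂₂ f z| ≤ 1 / 10 ^ 6 :=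
    fun hf z hz => (hf.abs_d2_le hw z hz).trans hCw
  have d0 : ∀ {f : P → ℝ}, QB w C 2 f → ∀ z ∈ O, |f z - f 0| ≤ 4 / 10 ^ 6 := by
    intro f hf z hz
    refine (hf.abs_sub_le hw zero_mem_O hz).trans ?_
    have h1 := fine_norm_le hz
    have h2 : 0 ≤ C * w := by positivity
    nlinarith [norm_nonneg (z - 0)]
  have bL : ∀ z ∈ O, |a.L z - 1| ≤ 2 / 10 ^ 5 := by
    intro z hz
    have h1 := d0 qL z hz
    have h2 : |a.L 0 - 1| ≤ 1 / 10 ^ 5 := a.hL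
    rw [abs_le] at *
    constructor <;> linarith [h1.1, h1.2, h2.1, h2.2]
  have bL' : ∀ z ∈ O, |a.L z| ≤ 10001 / 10000 := by
    intro z hz
    have h1 := bL z hz
    rw [abs_le] at *
    constructor <;> linarith [h1.1, h1.2]
  have bM : ∀ z ∈ O, |a.M z| ≤ 2 / 10 ^ 5 := by
    intro z hz
    have h1 := d0 qM z hz
    have h2 : |a.M 0| ≤ 1 / 10 ^ 5 := a.hM
    rw [abs_le] at *
    constructor <;> linarith [h1.1, h1.2, h2.1, h2.2]
  have bz1 : ∀ z ∈ O, |a.fz1 z - 1| ≤ 4 / 10 ^ 6 := by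
    intro z hz
    have h1 := d0 qz1 z hz
    rwa [a.fine_fz1_zero] at h1
  have bz1' : ∀ z ∈ O, |a.fz1 z| ≤ 10001 / 10000 := by
    intro z hz
    have h1 := bz1 z hz
    rw [abs_le] at *
    constructor <;> linarith [h1.1, h1.2]
  have bz2 : ∀ z ∈ O, |a.fz2 z| ≤ 4 / 10 ^ 6 := by
    intro z hz
    have h1 := d0 qz2 z hz
    rwa [a.fine_fz2_zero, sub_zero] at h1
  have hL0 : ∀ z ∈ O, a.L z ≠ 0 := fun z hz => (fine_inv_bound (bL z hz)).1
  have biL : ∀ z ∈ O, |(a.L z)⁻¹| ≤ 10001 / 10000 := fun z hz => (fine_inv_bound (bL z hz)).2.1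
  have brh : ∀ z ∈ O, |a.rh z - 1| ≤ 41 / 10 ^ 6 := fun z hz => (fine_inv_bound (bL z hz)).2.2
  have brh' : ∀ z ∈ O, |a.rh z| ≤ 10001 / 10000 := by
    intro z hz
    have h1 := brh z hz
    rw [abs_le] at *
    constructor <;> linarith [h1.1, h1.2]
  have bE : ∀ z ∈ O, |Real.exp (2 * a.ψ z) - 1| ≤ 4 / 10 ^ 11 := by
    intro z hz
    have h1 : |2 * a.ψ z| ≤ 2 / 10 ^ 11 := by
      rw [abs_mul, abs_two]
      linarith [bψ z hz]
    linarith [Real.abs_exp_sub_one_le (h1.trans (by norm_num))]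
  have bE' : ∀ z ∈ O, |Real.exp (2 * a.ψ z)| ≤ 10001 / 10000 := by
    intro z hz
    have h1 := bE z hz
    rw [abs_le] at *
    constructor <;> linarith [h1.1, h1.2]
  have bg : ∀ z ∈ O, |Real.exp (2 * a.ψ z) * a.rh z - 1| ≤ 42 / 10 ^ 6 := by
    intro z hz
    have h1 := bE z hz
    have h2 := brh z hz
    have h3 := brh' z hz
    have e : Real.exp (2 * a.ψ z) * a.rh z - 1
        = (Real.exp (2 * a.ψ z) - 1) * a.rh z + (a.rh z - 1) := by ring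
    rw [e]
    apply le_trans
    · bd
    · norm_num
  have bg' : ∀ z ∈ O, |Real.exp (2 * a.ψ z) * a.rh z| ≤ 10001 / 10000 := by
    intro z hz
    have h1 := bg z hz
    rw [abs_le] at *
    constructor <;> linarith [h1.1, h1.2]
  have bka : ∀ z ∈ O, |a.ka z| ≤ 71 / 10 * ε ^ 2 := by
    intro z hz
    have h1 := bg' z hz
    have h2 := fine_abs_kk hz
    have h3 := bc z hz
    rw [a.fine_ka par hz]
    apply le_trans
    · bd
    · nlinarith [sq_nonneg ε]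
  have bN : ∀ z ∈ O, |a.Nn z| ≤ 1 / 10 ^ 5 := by
    intro z hz
    have h0 := hL0 z hz
    have e : a.Nn z = a.ka z * a.L z + a.M z ^ 2 * (a.L z)⁻¹ := by
      simp only [Surf.ka]
      field_simp
      ring
    have h1 := bka z hz
    have h2 := bL' z hz
    have h3 := bM z hz
    have h4 := biL z hz
    rw [e]
    apply le_trans
    · bd
    · nlinarith
  have bmu : ∀ z ∈ O, |a.mu z| ≤ 21 / 10 ^ 6 := by
    intro z hz
    have h3 := bM z hz
    have h4 := biL z hz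
    rw [Surf.mu, div_eq_mul_inv]
    apply le_trans
    · bd
    · norm_num
  -- smoothness
  have smL := qL.smooth
  have smM := qM.smooth
  have smN := qN.smooth
  have smψ := qψ.smooth
  have smmu : ContDiffOn ℝ ∞ a.mu O := smM.div smL hL0
  have smrh : ContDiffOn ℝ ∞ a.rh O := (smL.pow 2).inv fun z hz => pow_ne_zero 2 (hL0 z hz)
  have smka : ContDiffOn ℝ ∞ a.ka O :=
    ((smL.mul smN).sub (smM.pow 2)).div (smL.pow 2) fun z hz => pow_ne_zero 2 (hL0 z hz)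
  -- derivative formulas
  have frh : ∀ v, ∀ z ∈ O, dd v a.rh z = -2 * dd v a.L z * (a.L z)⁻¹ ^ 3 := by
    intro v z hz
    have hd := diffAt_top isOpen_O smL hz
    have h0 := hL0 z hz
    rw [show a.rh = fun x => (a.L x ^ 2)⁻¹ from rfl, dd_inv (f := fun x => a.L x ^ 2) (by fun_prop) (pow_ne_zero 2 h0),
      dd_sq hd]
    field_simp
  have fmu : ∀ v, ∀ z ∈ O, dd v a.mu z = (dd v a.M z - a.mu z * dd v a.L z) * (a.L z)⁻¹ := by
    intro v z hz
    have h0 := hL0 z hz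
    rw [show a.mu = fun x => a.M x / a.L x from rfl,
      dd_div (diffAt_top isOpen_O smM hz) (diffAt_top isOpen_O smL hz) h0]
    field_simp
  have fka : ∀ z ∈ O, ∂₁ a.ka z = (∂₁ a.Nn z - a.Nn z * (a.L z)⁻¹ * ∂₁ a.L z) * (a.L z)⁻¹
      - 2 * a.mu z * ∂₁ a.mu z := by
    intro z hz
    have h0 := hL0 z hz
    have hdL := diffAt_top isOpen_O smL hz
    have hdM := diffAt_top isOpen_O smM hz
    have hdN := diffAt_top isOpen_O smN hz
    rw [fmu _ z hz, show a.ka = fun x => (a.L x * a.Nn x - a.M x ^ 2) / a.L x ^ 2 from rfl,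
      dd_div (by fun_prop) (by fun_prop) (pow_ne_zero 2 h0), dd_sub (by fun_prop) (by fun_prop),
      dd_mul hdL hdN, dd_sq hdM, dd_sq hdL]
    simp only [Surf.mu]
    field_simp
    ring
  have fka' : ∀ v, ∀ z ∈ O, dd v a.ka z = ε ^ 2 * ((dd v kk z - dd v a.fch z) *
      (Real.exp (2 * a.ψ z) * a.rh z) + (kk z - a.fch z) *
        (Real.exp (2 * a.ψ z) * (2 * dd v a.ψ z) * a.rh z
          + Real.exp (2 * a.ψ z) * dd v a.rh z)) := by
    intro v z hz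
    have h1 : DifferentiableAt ℝ kk z := contDiff_kk.differentiable (by simp) z
    have h2 := diffAt_top isOpen_O qc.smooth hz
    have h3 := diffAt_top isOpen_O smψ hz
    have h4 := diffAt_top isOpen_O smrh hz
    rw [dd_congr_on isOpen_O (fun x hx => a.fine_ka par hx) hz, dd_const_mul _ (by fun_prop),
      dd_mul (by fun_prop) (by fun_prop), dd_sub h1 h2, dd_mul (by fun_prop) h4,
      dd_exp (by fun_prop), dd_const_mul _ h3]
  have brhd : ∀ v, ∀ z ∈ O, |dd v a.L z| ≤ 1 / 10 ^ 6 → |dd v a.rh z| ≤ 21 / 10 ^ 7 := by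
    intro v z hz h1
    have h4 := biL z hz
    rw [frh v z hz]
    apply le_trans
    · bd
    · norm_num
  have bkad : ∀ v, ∀ z ∈ O, ∀ t : ℝ, |t| ≤ 2 → dd v kk z = 2 * t → |dd v a.L z| ≤ 1 / 10 ^ 6 →
      |dd v a.ψ z| ≤ ε ^ 2 / 10 ^ 5 → |dd v a.fch z| ≤ 2 / 10 ^ 5 →
      |dd v a.ka z - 2 * ε ^ 2 * t| ≤ ε ^ 2 * (25 / 10 ^ 5) := by
    intro v z hz t ht hk h1 h2 h3
    have h2' : |dd v a.ψ z| ≤ 1 / 10 ^ 11 := by linarith
    have h4 := brhd v z hz h1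
    have h5 := bg z hz
    have h6 := bg' z hz
    have h7 := fine_abs_kk hz
    have h8 := bc z hz
    have h9 := bE' z hz
    have h10 := brh' z hz
    have e : dd v a.ka z - 2 * ε ^ 2 * t = ε ^ 2 * (2 * t * (Real.exp (2 * a.ψ z) * a.rh z - 1)
        - dd v a.fch z * (Real.exp (2 * a.ψ z) * a.rh z) + (kk z - a.fch z) *
        (Real.exp (2 * a.ψ z) * (2 * dd v a.ψ z) * a.rh z
          + Real.exp (2 * a.ψ z) * dd v a.rh z)) := by
      rw [fka' v z hz, hk]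
      ring
    clear h2
    rw [e, abs_mul, abs_of_nonneg (sq_nonneg ε)]
    refine mul_le_mul_of_nonneg_left ?_ (sq_nonneg ε)
    apply le_trans
    · bd
    · norm_num
  have bka1 : ∀ z ∈ O, |∂₁ a.ka z - 2 * ε ^ 2 * z.1| ≤ ε ^ 2 * (25 / 10 ^ 5) := fun z hz =>
    bkad e1 z hz z.1 (mem_O_iff.1 hz).1.le (d1_kk z) (d1 qL z hz) (bψ1 z hz) (bc1 z hz)
  have bka2 : ∀ z ∈ O, |∂₂ a.ka z - 2 * ε ^ 2 * z.2| ≤ ε ^ 2 * (25 / 10 ^ 5) := fun z hz =>
    bkad e2 z hz z.2 (mem_O_iff.1 hz).2.le (d2_kk z) (d2 qL z hz) (bψ2 z hz) (bc2 z hz)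
  have bxi1 : ∀ z ∈ O, |∂₁ a.xi z - 1| ≤ 1 / 2000 := by
    intro z hz
    have h1 := bL z hz
    have h2 := bz1 z hz
    have h3 := bz1' z hz
    have h4 := bM z hz
    have h5 := bz2 z hz
    have e : ∂₁ a.xi z - 1 = (a.L z - 1) * a.fz1 z + (a.fz1 z - 1) + a.M z * a.fz2 z := by
      rw [a.fine_d1_xi hz]
      ring
    rw [e]
    apply le_trans
    · bd
    · norm_num
  have bxi2 : ∀ z ∈ O, |∂₂ a.xi z| ≤ 1 / 2000 := by
    intro z hz
    have h1 := bN z hz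
    have h3 := bz1' z hz
    have h4 := bM z hz
    have h5 := bz2 z hz
    rw [a.fine_d2_xi hz]
    apply le_trans
    · bd
    · norm_num
  have bxidd : ∀ v, ∀ z ∈ O, |dd v a.L z| ≤ 1 / 10 ^ 6 → |dd v a.M z| ≤ 1 / 10 ^ 6 →
      |dd v a.fz1 z| ≤ 1 / 10 ^ 6 → |dd v a.fz2 z| ≤ 1 / 10 ^ 6 → |dd v (∂₁ a.xi) z| ≤ 1 := by
    intro v z hz h1 h2 h3 h4
    have hdL := diffAt_top isOpen_O smL hz
    have hdM := diffAt_top isOpen_O smM hz
    have hd1 := diffAt_top isOpen_O qz1.smooth hz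
    have hd2 := diffAt_top isOpen_O qz2.smooth hz
    have h5 := bL' z hz
    have h6 := bz1' z hz
    have h7 := bM z hz
    have h8 := bz2 z hz
    rw [dd_congr_on isOpen_O (fun x hx => a.fine_d1_xi hx) hz, dd_add (by fun_prop) (by fun_prop),
      dd_mul hdL hd1, dd_mul hdM hd2]
    apply le_trans
    · bd
    · norm_num
  refine ⟨⟨hε, hε1, smmu, smka, smrh, a.fine_sm_xi, fun z hz => ?_, fun z hz => ?_,
    fun z hz => ?_, fun z hz => ?_, fun z hz => ?_, fun z hz => ?_, fun z hz => ?_,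
    fun z hz => ?_, fun z hz => ?_, fun z hz => ?_, fun z hz => ?_, fun z hz => ?_,
    fun z hz => ?_, fun z hz => ?_, fun z hz => ?_⟩, smL, smM, smN, fun z hz => ?_,
    fun z hz => ?_, fun z hz => ?_, fun z hz => ?_, fun z hz => ?_, fun z hz => ?_, bψ,
    fun z hz => ⟨bψ1 z hz, bψ2 z hz⟩, fun z hz hχ => ?_⟩
  · exact (brh z hz).trans (by norm_num)
  · exact (brhd e1 z hz (d1 qL z hz)).trans (by norm_num)
  · exact (brhd e2 z hz (d2 qL z hz)).trans (by norm_num)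
  · have h0 := hL0 z hz
    have e : Dt a.mu a.rh z + 2 * ∂₁ a.mu z * a.rh z
        = -2 * (a.L z)⁻¹ ^ 3 * (∂₂ a.ψ z * (a.L z + a.Nn z)) := by
      rw [← a.codazzi1 hz, Dt, frh _ z hz, frh _ z hz, fmu _ z hz, Surf.rh]
      field_simp
      ring
    have h1 := biL z hz
    have h2 := bψ2 z hz
    have h3 := bL' z hz
    have h4 := bN z hz
    rw [e]
    apply le_trans
    · bd
    · norm_num
      nlinarith
  · exact (bmu z hz).trans (by norm_num)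
  · have h1 := biL z hz
    have h2 := d1 qM z hz
    have h3 := d1 qL z hz
    have h4 := bmu z hz
    rw [fmu _ z hz]
    apply le_trans
    · bd
    · norm_num
  · have h0 := hL0 z hz
    have e : Dt a.mu a.mu z - ∂₁ a.ka z = (a.ka z * ∂₁ a.L z
        + (- ∂₁ a.ψ z * (a.L z + a.Nn z)) - a.mu z * (∂₂ a.ψ z * (a.L z + a.Nn z)))
          * (a.L z)⁻¹ := by
      rw [← a.codazzi1 hz, ← a.codazzi2 hz, Dt, fka z hz, fmu _ z hz, fmu _ z hz]
      simp only [Surf.ka, Surf.mu]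
      field_simp
      ring
    have h1 := biL z hz
    have h2 := bψ2 z hz
    have h2' := bψ1 z hz
    have h3 := bL' z hz
    have h4 := bN z hz
    have h5 := bka z hz
    have h6 := d1 qL z hz
    have h7 := bmu z hz
    rw [e]
    apply le_trans
    · bd
    · nlinarith [sq_nonneg ε]
  · have hd : ∀ x ∈ O, DifferentiableAt ℝ a.xi x := fun x hx =>
      diffAt_top isOpen_O a.fine_sm_xi hx
    have h1 := abs_sub_le_of_dd_bound (f := fun x => a.xi x - x.1) (B := 1 / 2000)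
      (fun x hx => (hd x hx).sub (by fun_prop))
      (fun x hx => by rw [dd_sub (hd x hx) (by fun_prop), dd_fst]; exact bxi1 x hx)
      (fun x hx => by rw [dd_sub (hd x hx) (by fun_prop), dd_fst]; simpa using bxi2 x hx)
      zero_mem_O hz
    simp only [a.fine_xi_zero, Prod.fst_zero, sub_zero] at h1
    linarith
  · exact (bxi1 z hz).trans (by norm_num)
  · have h0 := hL0 z hz
    have e : Dt a.mu a.xi z = a.ka z * (a.L z * a.fz2 z) := by
      rw [Dt, a.fine_d1_xi hz, a.fine_d2_xi hz]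
      simp only [Surf.ka, Surf.mu]
      field_simp
      ring
    have h1 := bL' z hz
    have h2 := bz2 z hz
    have h3 : |a.L z * a.fz2 z| ≤ 1 := by
      apply le_trans
      · bd
      · norm_num
    rw [e, abs_mul]
    exact mul_le_of_le_one_right (abs_nonneg _) h3
  · exact bxidd e1 z hz (d1 qL z hz) (d1 qM z hz) (d1 qz1 z hz) (d1 qz2 z hz)
  · exact bxidd e2 z hz (d2 qL z hz) (d2 qM z hz) (d2 qz1 z hz) (d2 qz2 z hz)
  · have e : a.ka z - ε ^ 2 * kk z = ε ^ 2 * (kk z * (Real.exp (2 * a.ψ z) * a.rh z - 1)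
        - a.fch z * (Real.exp (2 * a.ψ z) * a.rh z)) := by
      rw [a.fine_ka par hz]
      ring
    have h5 := bg z hz
    have h6 := bg' z hz
    have h7 := fine_abs_kk hz
    have h8 := bc z hz
    rw [e]
    apply le_trans
    · bd
    · nlinarith [sq_nonneg ε]
  · exact (bka1 z hz).trans (by nlinarith [sq_nonneg ε])
  · have e : Dt a.mu a.ka z - 2 * ε ^ 2 * z.2 = (∂₂ a.ka z - 2 * ε ^ 2 * z.2)
        - a.mu z * ((∂₁ a.ka z - 2 * ε ^ 2 * z.1) + 2 * (ε ^ 2 * z.1)) := by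
      rw [Dt]
      ring
    have h1 := bka1 z hz
    have h2 := bka2 z hz
    have h3 := bmu z hz
    have h4 := (mem_O_iff.1 hz).1.le
    rw [e]
    apply le_trans
    · bd
    · norm_num
      nlinarith [sq_nonneg ε]
  · exact (bL z hz).trans (by norm_num)
  · exact (bM z hz).trans (by norm_num)
  · exact (bN z hz).trans (by norm_num)
  · exact ⟨(d1 qL z hz).trans (by norm_num), (d2 qL z hz).trans (by norm_num)⟩
  · exact ⟨(d1 qM z hz).trans (by norm_num), (d2 qM z hz).trans (by norm_num)⟩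
  · exact ⟨(d1 qN z hz).trans (by norm_num), (d2 qN z hz).trans (by norm_num)⟩
  · have h1 : ∀ v, dd v (dd v a.χ) z = 0 := fun v =>
      dd_eq_zero_of_eventually (hχ.eventually_nhds.mono fun x hx => dd_eq_zero_of_eventually hx)
    have h2 : a.fch z = 0 := by simp [Surf.fch, lap, h1]
    have e : a.ka z - ε ^ 2 * kk z = ε ^ 2 * (Real.exp (2 * a.ψ z) * a.rh z - 1) * kk z := by
      rw [a.fine_ka par hz, h2]
      ring
    rw [e, abs_mul, abs_mul, abs_of_nonneg (sq_nonneg ε)]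
    refine mul_le_mul_of_nonneg_right ?_ (abs_nonneg _)
    nlinarith [bg z hz, sq_nonneg ε]

end Crest.Agent.R220
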