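import Crest.Agent.R220.Defs

/-! # Row 220: Gauss, Weingarten and Codazzi equations in conformal coordinates -/

set_option autoImplicit false

open Set MeasureTheory Filter Topology
open scoped ContDiff

namespace Crest.Agent.R220

variable {U : Set P} {ψ : P → ℝ} {G : Fin 3 → P → ℝ} {z : P}

lemma Iso.mono (h : Iso U ψ G) {U' : Set P} (hU' : IsOpen U') (hsub : U' ⊆ U) : Iso U' ψ G := by
  exact ⟨hU', h.smψ.mono hsub, fun c => (h.smG c).mono hsub, fun z hz => h.h11 z (hsub hz),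
    fun z hz => h.h12 z (hsub hz), fun z hz => h.h22 z (hsub hz)⟩

lemma Iso.congr (h : Iso U ψ G) {ψ' : P → ℝ} (hψ : ∀ z ∈ U, ψ' z = ψ z) : Iso U ψ' G := by
  exact ⟨h.isOpen, h.smψ.congr hψ, h.smG, fun z hz => by rw [hψ z hz]; exact h.h11 z hz, h.h12,
    fun z hz => by rw [hψ z hz]; exact h.h22 z hz⟩

lemma nrm_congr {ψ' : P → ℝ} (hψ : ψ' z = ψ z) (c : Fin 3) : nrm ψ' G c z = nrm ψ G c z := by
  simp only [nrm, hψ]

lemma II_congr {ψ' : P → ℝ} (hψ : ψ' z = ψ z) (v w : P) : II v w ψ' G z = II v w ψ G z := by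
  simp only [II, dot, nrm_congr hψ]

lemma gm_smD (hU : IsOpen U) {a : Fin 3 → P → ℝ} (ha : ∀ c, ContDiffOn ℝ ∞ (a c) U) (v : P)
    (c : Fin 3) : ContDiffOn ℝ ∞ (D v a c) U := contDiffOn_dd hU v (ha c)

lemma gm_smdot {a b : Fin 3 → P → ℝ} (ha : ∀ c, ContDiffOn ℝ ∞ (a c) U)
    (hb : ∀ c, ContDiffOn ℝ ∞ (b c) U) : ContDiffOn ℝ ∞ (dot a b) U :=
  (((ha 0).mul (hb 0)).add ((ha 1).mul (hb 1))).add ((ha 2).mul (hb 2))

lemma gm_dd_dot (hU : IsOpen U) {a b : Fin 3 → P → ℝ} (ha : ∀ c, ContDiffOn ℝ ∞ (a c) U)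
    (hb : ∀ c, ContDiffOn ℝ ∞ (b c) U) (hz : z ∈ U) (v : P) :
    dd v (dot a b) z = dot (D v a) b z + dot a (D v b) z := by
  have da := fun c => diffAt_top hU (ha c) hz
  have db := fun c => diffAt_top hU (hb c) hz
  have e : dot a b = fun x => (a 0 x * b 0 x + a 1 x * b 1 x) + a 2 x * b 2 x := rfl
  rw [e, dd_add (((da 0).fun_mul (db 0)).fun_add ((da 1).fun_mul (db 1))) ((da 2).fun_mul (db 2)),
    dd_add ((da 0).fun_mul (db 0)) ((da 1).fun_mul (db 1)), dd_mul (da 0) (db 0),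
    dd_mul (da 1) (db 1), dd_mul (da 2) (db 2)]
  simp only [dot, D]
  ring

lemma gm_exp_mul (t : ℝ) : Real.exp (2 * t) * Real.exp (-2 * t) = 1 := by
  rw [← Real.exp_add]; simp

lemma gm_dd_exp (h : Iso U ψ G) (hz : z ∈ U) (v : P) :
    dd v (fun x => Real.exp (2 * ψ x)) z = 2 * Real.exp (2 * ψ z) * dd v ψ z := by
  have hψ := diffAt_top h.isOpen h.smψ hz
  rw [dd_exp (hψ.const_mul 2), dd_const_mul 2 hψ]; ring

lemma gm_d11 (h : Iso U ψ G) (hz : z ∈ U) (v : P) :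
    dot (D v (D e1 G)) (D e1 G) z = Real.exp (2 * ψ z) * dd v ψ z := by
  have s1 := gm_smD h.isOpen h.smG e1
  have h1 := dd_congr_on (v := v) h.isOpen h.h11 hz
  rw [gm_dd_dot h.isOpen s1 s1 hz, gm_dd_exp h hz] at h1
  simp only [dot] at h1 ⊢
  linarith

lemma gm_d22 (h : Iso U ψ G) (hz : z ∈ U) (v : P) :
    dot (D v (D e2 G)) (D e2 G) z = Real.exp (2 * ψ z) * dd v ψ z := by
  have s2 := gm_smD h.isOpen h.smG e2
  have h1 := dd_congr_on (v := v) h.isOpen h.h22 hz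
  rw [gm_dd_dot h.isOpen s2 s2 hz, gm_dd_exp h hz] at h1
  simp only [dot] at h1 ⊢
  linarith

lemma gm_d12 (h : Iso U ψ G) (hz : z ∈ U) (v : P) :
    dot (D v (D e1 G)) (D e2 G) z + dot (D e1 G) (D v (D e2 G)) z = 0 := by
  have s1 := gm_smD h.isOpen h.smG e1
  have s2 := gm_smD h.isOpen h.smG e2
  have h1 := dd_congr_on (v := v) h.isOpen h.h12 hz
  rw [gm_dd_dot h.isOpen s1 s2 hz, dd_const] at h1
  exact h1

lemma gm_symm (h : Iso U ψ G) (hz : z ∈ U) (c : Fin 3) :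
    D e2 (D e1 G) c z = D e1 (D e2 G) c z := dd_comm_on h.isOpen e2 e1 (h.smG c) hz

lemma gm_11_1 (h : Iso U ψ G) (hz : z ∈ U) :
    dot (D e1 (D e1 G)) (D e1 G) z = Real.exp (2 * ψ z) * ∂₁ ψ z := gm_d11 h hz e1

lemma gm_12_1 (h : Iso U ψ G) (hz : z ∈ U) :
    dot (D e1 (D e2 G)) (D e1 G) z = Real.exp (2 * ψ z) * ∂₂ ψ z := by
  have := gm_d11 h hz e2
  simp only [dot, gm_symm h hz] at this ⊢
  exact this

lemma gm_12_2 (h : Iso U ψ G) (hz : z ∈ U) :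
    dot (D e1 (D e2 G)) (D e2 G) z = Real.exp (2 * ψ z) * ∂₁ ψ z := gm_d22 h hz e1

lemma gm_22_2 (h : Iso U ψ G) (hz : z ∈ U) :
    dot (D e2 (D e2 G)) (D e2 G) z = Real.exp (2 * ψ z) * ∂₂ ψ z := gm_d22 h hz e2

lemma gm_11_2 (h : Iso U ψ G) (hz : z ∈ U) :
    dot (D e1 (D e1 G)) (D e2 G) z = -(Real.exp (2 * ψ z) * ∂₂ ψ z) := by
  have h1 := gm_d12 h hz e1
  have h2 := gm_12_1 h hz
  simp only [dot] at h1 h2 ⊢
  linarith

lemma gm_22_1 (h : Iso U ψ G) (hz : z ∈ U) :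
    dot (D e2 (D e2 G)) (D e1 G) z = -(Real.exp (2 * ψ z) * ∂₁ ψ z) := by
  have h1 := gm_d12 h hz e2
  have h2 := gm_12_2 h hz
  simp only [dot, gm_symm h hz] at h1 h2 ⊢
  linarith

lemma gm_expand_alg {a0 a1 a2 b0 b1 b2 x0 x1 x2 E Ei : ℝ} (hE : E * Ei = 1)
    (h11 : a0 * a0 + a1 * a1 + a2 * a2 = E) (h12 : a0 * b0 + a1 * b1 + a2 * b2 = 0)
    (h22 : b0 * b0 + b1 * b1 + b2 * b2 = E) :
    x0 = Ei * (x0 * a0 + x1 * a1 + x2 * a2) * a0 + Ei * (x0 * b0 + x1 * b1 + x2 * b2) * b0 +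
      (x0 * (Ei * (a1 * b2 - a2 * b1)) + x1 * (Ei * (a2 * b0 - a0 * b2)) +
        x2 * (Ei * (a0 * b1 - a1 * b0))) * (Ei * (a1 * b2 - a2 * b1)) := by
  have key : ((a0 * a0 + a1 * a1 + a2 * a2) * (b0 * b0 + b1 * b1 + b2 * b2) -
      (a0 * b0 + a1 * b1 + a2 * b2) ^ 2) * x0 =
      ((x0 * a0 + x1 * a1 + x2 * a2) * (b0 * b0 + b1 * b1 + b2 * b2) -
        (x0 * b0 + x1 * b1 + x2 * b2) * (a0 * b0 + a1 * b1 + a2 * b2)) * a0 +
      ((x0 * b0 + x1 * b1 + x2 * b2) * (a0 * a0 + a1 * a1 + a2 * a2) -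
        (x0 * a0 + x1 * a1 + x2 * a2) * (a0 * b0 + a1 * b1 + a2 * b2)) * b0 +
      (x0 * (a1 * b2 - a2 * b1) + x1 * (a2 * b0 - a0 * b2) + x2 * (a0 * b1 - a1 * b0)) *
        (a1 * b2 - a2 * b1) := by ring
  rw [h11, h12, h22] at key
  linear_combination Ei ^ 2 * key + (-x0 * (1 + E * Ei) +
    Ei * ((x0 * a0 + x1 * a1 + x2 * a2) * a0 + (x0 * b0 + x1 * b1 + x2 * b2) * b0)) * hE

lemma Iso.sm_nrm (h : Iso U ψ G) (c : Fin 3) : ContDiffOn ℝ ∞ (nrm ψ G c) U := by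
  have s1 := gm_smD h.isOpen h.smG e1
  have s2 := gm_smD h.isOpen h.smG e2
  have hc : ContDiffOn ℝ ∞ (cross (D e1 G) (D e2 G) c) U := by
    fin_cases c
    · exact ((s1 1).mul (s2 2)).sub ((s1 2).mul (s2 1))
    · exact ((s1 2).mul (s2 0)).sub ((s1 0).mul (s2 2))
    · exact ((s1 0).mul (s2 1)).sub ((s1 1).mul (s2 0))
  exact (contDiffOn_const.mul h.smψ).exp.mul hc

lemma Iso.sm_II (h : Iso U ψ G) (v w : P) : ContDiffOn ℝ ∞ (II v w ψ G) U := by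
  exact gm_smdot (gm_smD h.isOpen (gm_smD h.isOpen h.smG w) v) h.sm_nrm

lemma Iso.nrm_nrm (h : Iso U ψ G) (hz : z ∈ U) : dot (nrm ψ G) (nrm ψ G) z = 1 := by
  have h11 := h.h11 z hz
  have h12 := h.h12 z hz
  have h22 := h.h22 z hz
  have hE := gm_exp_mul (ψ z)
  simp only [dot, nrm, cross, Matrix.cons_val_zero, Matrix.cons_val_one, Matrix.cons_val] at *
  generalize Real.exp (2 * ψ z) = E at *
  generalize Real.exp (-2 * ψ z) = Ei at *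
  generalize D e1 G 0 z = a0 at *
  generalize D e1 G 1 z = a1 at *
  generalize D e1 G 2 z = a2 at *
  generalize D e2 G 0 z = b0 at *
  generalize D e2 G 1 z = b1 at *
  generalize D e2 G 2 z = b2 at *
  have key : (a1 * b2 - a2 * b1) ^ 2 + (a2 * b0 - a0 * b2) ^ 2 + (a0 * b1 - a1 * b0) ^ 2 =
      (a0 * a0 + a1 * a1 + a2 * a2) * (b0 * b0 + b1 * b1 + b2 * b2) -
      (a0 * b0 + a1 * b1 + a2 * b2) ^ 2 := by ring
  rw [h11, h12, h22] at key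
  linear_combination Ei ^ 2 * key + (1 + E * Ei) * hE

lemma nrm_D1 : dot (nrm ψ G) (D e1 G) z = 0 := by
  simp only [dot, nrm, cross, Matrix.cons_val_zero, Matrix.cons_val_one, Matrix.cons_val]
  ring

lemma nrm_D2 : dot (nrm ψ G) (D e2 G) z = 0 := by
  simp only [dot, nrm, cross, Matrix.cons_val_zero, Matrix.cons_val_one, Matrix.cons_val]
  ring

lemma Iso.abs_nrm_le (h : Iso U ψ G) (hz : z ∈ U) (c : Fin 3) : |nrm ψ G c z| ≤ 1 := by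
  have h1 := h.nrm_nrm hz
  simp only [dot] at h1
  rw [← sq_le_one_iff_abs_le_one]
  have h0 := mul_self_nonneg (nrm ψ G 0 z)
  have h2 := mul_self_nonneg (nrm ψ G 1 z)
  have h3 := mul_self_nonneg (nrm ψ G 2 z)
  fin_cases c
  · change nrm ψ G 0 z ^ 2 ≤ 1
    nlinarith
  · change nrm ψ G 1 z ^ 2 ≤ 1
    nlinarith
  · change nrm ψ G 2 z ^ 2 ≤ 1
    nlinarith

/-- expansion of any vector in the orthogonal frame `(G₁, G₂, n)` -/
lemma Iso.expand (h : Iso U ψ G) (hz : z ∈ U) (a : Fin 3 → P → ℝ) (c : Fin 3) :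
    a c z = Real.exp (-2 * ψ z) * dot a (D e1 G) z * ∂₁ (G c) z
      + Real.exp (-2 * ψ z) * dot a (D e2 G) z * ∂₂ (G c) z + dot a (nrm ψ G) z * nrm ψ G c z := by
  have h11 := h.h11 z hz
  have h12 := h.h12 z hz
  have h22 := h.h22 z hz
  have hE := gm_exp_mul (ψ z)
  simp only [dot, D] at h11 h12 h22
  fin_cases c
  · have := gm_expand_alg (x0 := a 0 z) (x1 := a 1 z) (x2 := a 2 z) hE h11 h12 h22
    simp only [dot, nrm, cross, D, Matrix.cons_val_zero, Matrix.cons_val_one, Matrix.cons_val,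
      Fin.zero_eta, Fin.isValue]
    exact this
  · have := gm_expand_alg (x0 := a 1 z) (x1 := a 2 z) (x2 := a 0 z)
      (a0 := ∂₁ (G 1) z) (a1 := ∂₁ (G 2) z) (a2 := ∂₁ (G 0) z)
      (b0 := ∂₂ (G 1) z) (b1 := ∂₂ (G 2) z) (b2 := ∂₂ (G 0) z) hE (by linarith) (by linarith)
      (by linarith)
    simp only [dot, nrm, cross, D, Matrix.cons_val_zero, Matrix.cons_val_one, Matrix.cons_val,
      Fin.mk_one, Fin.isValue]
    linear_combination this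
  · have := gm_expand_alg (x0 := a 2 z) (x1 := a 0 z) (x2 := a 1 z)
      (a0 := ∂₁ (G 2) z) (a1 := ∂₁ (G 0) z) (a2 := ∂₁ (G 1) z)
      (b0 := ∂₂ (G 2) z) (b1 := ∂₂ (G 0) z) (b2 := ∂₂ (G 1) z) hE (by linarith) (by linarith)
      (by linarith)
    simp only [dot, nrm, cross, D, Matrix.cons_val_zero, Matrix.cons_val_one, Matrix.cons_val,
      Fin.reduceFinMk, Fin.isValue]
    linear_combination this

lemma Iso.II_symm (h : Iso U ψ G) (hz : z ∈ U) : II e2 e1 ψ G z = II e1 e2 ψ G z := by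
  simp only [II, dot, gm_symm h hz]

lemma Iso.gauss11 (h : Iso U ψ G) (hz : z ∈ U) (c : Fin 3) :
    ∂₁ (∂₁ (G c)) z = ∂₁ ψ z * ∂₁ (G c) z - ∂₂ ψ z * ∂₂ (G c) z + II e1 e1 ψ G z * nrm ψ G c z := by
  have h1 := h.expand hz (D e1 (D e1 G)) c
  rw [gm_11_1 h hz, gm_11_2 h hz] at h1
  have hE := gm_exp_mul (ψ z)
  change ∂₁ (∂₁ (G c)) z = _ + II e1 e1 ψ G z * _ at h1
  linear_combination h1 + (∂₁ ψ z * ∂₁ (G c) z - ∂₂ ψ z * ∂₂ (G c) z) * hE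

lemma Iso.gauss12 (h : Iso U ψ G) (hz : z ∈ U) (c : Fin 3) :
    ∂₁ (∂₂ (G c)) z = ∂₂ ψ z * ∂₁ (G c) z + ∂₁ ψ z * ∂₂ (G c) z + II e1 e2 ψ G z * nrm ψ G c z := by
  have h1 := h.expand hz (D e1 (D e2 G)) c
  rw [gm_12_1 h hz, gm_12_2 h hz] at h1
  have hE := gm_exp_mul (ψ z)
  change ∂₁ (∂₂ (G c)) z = _ + II e1 e2 ψ G z * _ at h1
  linear_combination h1 + (∂₂ ψ z * ∂₁ (G c) z + ∂₁ ψ z * ∂₂ (G c) z) * hE

lemma Iso.gauss21 (h : Iso U ψ G) (hz : z ∈ U) (c : Fin 3) :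
    ∂₂ (∂₁ (G c)) z = ∂₂ ψ z * ∂₁ (G c) z + ∂₁ ψ z * ∂₂ (G c) z + II e1 e2 ψ G z * nrm ψ G c z := by
  rw [dd_comm_on h.isOpen e2 e1 (h.smG c) hz]
  exact h.gauss12 hz c

lemma Iso.gauss22 (h : Iso U ψ G) (hz : z ∈ U) (c : Fin 3) :
    ∂₂ (∂₂ (G c)) z = - ∂₁ ψ z * ∂₁ (G c) z + ∂₂ ψ z * ∂₂ (G c) z
      + II e2 e2 ψ G z * nrm ψ G c z := by
  have h1 := h.expand hz (D e2 (D e2 G)) c
  rw [gm_22_1 h hz, gm_22_2 h hz] at h1
  have hE := gm_exp_mul (ψ z)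
  change ∂₂ (∂₂ (G c)) z = _ + II e2 e2 ψ G z * _ at h1
  linear_combination h1 + (- ∂₁ ψ z * ∂₁ (G c) z + ∂₂ ψ z * ∂₂ (G c) z) * hE

lemma gm_wein (h : Iso U ψ G) (hz : z ∈ U) (v : P) (c : Fin 3) :
    dd v (nrm ψ G c) z =
      - Real.exp (-2 * ψ z) * (II v e1 ψ G z * ∂₁ (G c) z + II v e2 ψ G z * ∂₂ (G c) z) := by
  have s1 := gm_smD h.isOpen h.smG e1
  have s2 := gm_smD h.isOpen h.smG e2
  have h0 := dd_congr_on (v := v) h.isOpen (fun x hx => h.nrm_nrm hx) hz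
  rw [gm_dd_dot h.isOpen h.sm_nrm h.sm_nrm hz, dd_const] at h0
  have h1 := dd_congr_on (v := v) h.isOpen (fun x (_ : x ∈ U) => nrm_D1 (ψ := ψ) (G := G) (z := x)) hz
  rw [gm_dd_dot h.isOpen h.sm_nrm s1 hz, dd_const] at h1
  have h2 := dd_congr_on (v := v) h.isOpen (fun x (_ : x ∈ U) => nrm_D2 (ψ := ψ) (G := G) (z := x)) hz
  rw [gm_dd_dot h.isOpen h.sm_nrm s2 hz, dd_const] at h2
  have h3 := h.expand hz (D v (nrm ψ G)) c
  have e0 : dot (D v (nrm ψ G)) (nrm ψ G) z = 0 := by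
    simp only [dot] at h0 ⊢; linarith
  have e1' : dot (D v (nrm ψ G)) (D e1 G) z = - II v e1 ψ G z := by
    simp only [II, dot] at h1 ⊢; linarith
  have e2' : dot (D v (nrm ψ G)) (D e2 G) z = - II v e2 ψ G z := by
    simp only [II, dot] at h2 ⊢; linarith
  rw [e0, e1', e2'] at h3
  change dd v (nrm ψ G c) z = _ at h3
  rw [h3]; ring

lemma gm_third (h : Iso U ψ G) (hz : z ∈ U) (c : Fin 3) :
    D e2 (D e1 (D e1 G)) c z = D e1 (D e1 (D e2 G)) c z := by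
  change ∂₂ (∂₁ (∂₁ (G c))) z = ∂₁ (∂₁ (∂₂ (G c))) z
  rw [dd_comm_on h.isOpen e2 e1 (contDiffOn_dd h.isOpen e1 (h.smG c)) hz]
  exact dd_congr_on h.isOpen (fun x hx => dd_comm_on h.isOpen e2 e1 (h.smG c) hx) hz

lemma gm_third' (h : Iso U ψ G) (hz : z ∈ U) (c : Fin 3) :
    D e2 (D e1 (D e2 G)) c z = D e1 (D e2 (D e2 G)) c z :=
  dd_comm_on h.isOpen e2 e1 (contDiffOn_dd h.isOpen e2 (h.smG c)) hz

lemma Iso.wein1 (h : Iso U ψ G) (hz : z ∈ U) (c : Fin 3) :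
    ∂₁ (nrm ψ G c) z =
      - Real.exp (-2 * ψ z) * (II e1 e1 ψ G z * ∂₁ (G c) z + II e1 e2 ψ G z * ∂₂ (G c) z) := by
  exact gm_wein h hz e1 c

lemma Iso.wein2 (h : Iso U ψ G) (hz : z ∈ U) (c : Fin 3) :
    ∂₂ (nrm ψ G c) z =
      - Real.exp (-2 * ψ z) * (II e1 e2 ψ G z * ∂₁ (G c) z + II e2 e2 ψ G z * ∂₂ (G c) z) := by
  rw [gm_wein h hz e2 c, h.II_symm hz]

lemma gm_dot_wein1 (h : Iso U ψ G) (hz : z ∈ U) (a : Fin 3 → P → ℝ) :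
    dot a (D e1 (nrm ψ G)) z = - Real.exp (-2 * ψ z) *
      (II e1 e1 ψ G z * dot a (D e1 G) z + II e1 e2 ψ G z * dot a (D e2 G) z) := by
  simp only [dot, D, h.wein1 hz]; ring

lemma gm_dot_wein2 (h : Iso U ψ G) (hz : z ∈ U) (a : Fin 3 → P → ℝ) :
    dot a (D e2 (nrm ψ G)) z = - Real.exp (-2 * ψ z) *
      (II e1 e2 ψ G z * dot a (D e1 G) z + II e2 e2 ψ G z * dot a (D e2 G) z) := by
  simp only [dot, D, h.wein2 hz]; ring

/-- Gauss equation -/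
lemma Iso.gauss (h : Iso U ψ G) (hz : z ∈ U) :
    II e1 e1 ψ G z * II e2 e2 ψ G z - II e1 e2 ψ G z ^ 2 = - Real.exp (2 * ψ z) * lap ψ z := by
  have s1 := gm_smD h.isOpen h.smG e1
  have s2 := gm_smD h.isOpen h.smG e2
  have s11 := gm_smD h.isOpen s1 e1
  have s12 := gm_smD h.isOpen s2 e1
  have hψ := diffAt_top h.isOpen h.smψ hz
  have hψ1 := diffAt_top h.isOpen (contDiffOn_dd h.isOpen e1 h.smψ) hz
  have hψ2 := diffAt_top h.isOpen (contDiffOn_dd h.isOpen e2 h.smψ) hz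
  have hE : DifferentiableAt ℝ (fun x => Real.exp (2 * ψ x)) z := (hψ.const_mul 2).exp
  have h1 := dd_congr_on (v := e2) h.isOpen (fun x hx => gm_11_2 h hx) hz
  rw [gm_dd_dot h.isOpen s11 s2 hz, dd_neg, dd_mul hE hψ2, gm_dd_exp h hz] at h1
  have h2 := dd_congr_on (v := e1) h.isOpen (fun x hx => gm_12_2 h hx) hz
  rw [gm_dd_dot h.isOpen s12 s2 hz, dd_mul hE hψ1, gm_dd_exp h hz] at h2
  have h3 : dot (D e2 (D e1 (D e1 G))) (D e2 G) z = dot (D e1 (D e1 (D e2 G))) (D e2 G) z := by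
    simp only [dot, gm_third h hz]
  have h4 : dot (D e1 (D e1 G)) (D e2 (D e2 G)) z =
      - ∂₁ ψ z * dot (D e1 (D e1 G)) (D e1 G) z + ∂₂ ψ z * dot (D e1 (D e1 G)) (D e2 G) z +
        II e2 e2 ψ G z * II e1 e1 ψ G z := by
    have e : ∀ c, D e2 (D e2 G) c z = _ := fun c => h.gauss22 hz c
    conv_lhs => simp only [dot, e]
    conv_rhs => rw [show II e1 e1 ψ G z = dot (D e1 (D e1 G)) (nrm ψ G) z from rfl]
    simp only [dot, D]; ring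
  have h5 : dot (D e1 (D e2 G)) (D e1 (D e2 G)) z =
      ∂₂ ψ z * dot (D e1 (D e2 G)) (D e1 G) z + ∂₁ ψ z * dot (D e1 (D e2 G)) (D e2 G) z +
        II e1 e2 ψ G z * dot (D e1 (D e2 G)) (nrm ψ G) z := by
    have e : ∀ c, D e1 (D e2 G) c z = ∂₂ ψ z * D e1 G c z + ∂₁ ψ z * D e2 G c z +
        II e1 e2 ψ G z * nrm ψ G c z := fun c => h.gauss12 hz c
    simp only [dot]
    linear_combination D e1 (D e2 G) 0 z * e 0 + D e1 (D e2 G) 1 z * e 1 + D e1 (D e2 G) 2 z * e 2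
  rw [gm_11_1 h hz, gm_11_2 h hz] at h4
  rw [gm_12_1 h hz, gm_12_2 h hz,
    show dot (D e1 (D e2 G)) (nrm ψ G) z = II e1 e2 ψ G z from rfl] at h5
  unfold lap
  linear_combination h1 - h2 - h3 - h4 + h5

lemma Iso.codazzi1 (h : Iso U ψ G) (hz : z ∈ U) :
    ∂₂ (II e1 e1 ψ G) z - ∂₁ (II e1 e2 ψ G) z = ∂₂ ψ z * (II e1 e1 ψ G z + II e2 e2 ψ G z) := by
  have s1 := gm_smD h.isOpen h.smG e1
  have s2 := gm_smD h.isOpen h.smG e2
  have h1 := gm_dd_dot h.isOpen (gm_smD h.isOpen s1 e1) h.sm_nrm hz e2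
  have h2 := gm_dd_dot h.isOpen (gm_smD h.isOpen s2 e1) h.sm_nrm hz e1
  have h3 : dot (D e2 (D e1 (D e1 G))) (nrm ψ G) z = dot (D e1 (D e1 (D e2 G))) (nrm ψ G) z := by
    simp only [dot, gm_third h hz]
  rw [gm_dot_wein2 h hz, gm_11_1 h hz, gm_11_2 h hz] at h1
  rw [gm_dot_wein1 h hz, gm_12_1 h hz, gm_12_2 h hz] at h2
  have hE := gm_exp_mul (ψ z)
  change ∂₂ (II e1 e1 ψ G) z = _ at h1
  change ∂₁ (II e1 e2 ψ G) z = _ at h2
  linear_combination h1 - h2 + h3 + ∂₂ ψ z * (II e1 e1 ψ G z + II e2 e2 ψ G z) * hE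

lemma Iso.codazzi2 (h : Iso U ψ G) (hz : z ∈ U) :
    ∂₂ (II e1 e2 ψ G) z - ∂₁ (II e2 e2 ψ G) z = - ∂₁ ψ z * (II e1 e1 ψ G z + II e2 e2 ψ G z) := by
  have s2 := gm_smD h.isOpen h.smG e2
  have h1 := gm_dd_dot h.isOpen (gm_smD h.isOpen s2 e1) h.sm_nrm hz e2
  have h2 := gm_dd_dot h.isOpen (gm_smD h.isOpen s2 e2) h.sm_nrm hz e1
  have h3 : dot (D e2 (D e1 (D e2 G))) (nrm ψ G) z = dot (D e1 (D e2 (D e2 G))) (nrm ψ G) z := by
    simp only [dot, gm_third' h hz]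
  rw [gm_dot_wein2 h hz, gm_12_1 h hz, gm_12_2 h hz] at h1
  rw [gm_dot_wein1 h hz, gm_22_1 h hz, gm_22_2 h hz] at h2
  have hE := gm_exp_mul (ψ z)
  change ∂₂ (II e1 e2 ψ G) z = _ at h1
  change ∂₁ (II e2 e2 ψ G) z = _ at h2
  linear_combination h1 - h2 + h3 - ∂₁ ψ z * (II e1 e1 ψ G z + II e2 e2 ψ G z) * hE

end Crest.Agent.R220
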