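import Crest.Agent.R220.Defs

/-! # Row 220: calculus of the quantitative bounds `QB` and `UB` -/

set_option autoImplicit false

open Set MeasureTheory Filter Topology
open scoped ContDiff

namespace Crest.Agent.R220

variable {w C C' : ℝ} {k : ℕ} {f g : P → ℝ}

lemma qb_mono_aux (h : QB w C k f) (hC : C ≤ C') : QB w C' k f := by
  induction k generalizing f with
  | zero => exact ⟨h.1, fun z hz => (h.2 z hz).trans hC⟩
  | succ k ih => exact ⟨⟨h.1.1, fun z hz => (h.1.2 z hz).trans hC⟩, ih h.2.1, ih h.2.2⟩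

lemma qb_congr_aux (h : QB w C k f) (hfg : ∀ z ∈ O, g z = f z) : QB w C k g := by
  induction k generalizing f g with
  | zero => exact ⟨h.1.congr hfg, fun z hz => by rw [hfg z hz]; exact h.2 z hz⟩
  | succ k ih =>
    exact ⟨⟨h.1.1.congr hfg, fun z hz => by rw [hfg z hz]; exact h.1.2 z hz⟩,
      ih h.2.1 fun z hz => by rw [dd_congr_on isOpen_O hfg hz],
      ih h.2.2 fun z hz => by rw [dd_congr_on isOpen_O hfg hz]⟩

lemma qb_const_mul_aux (c : ℝ) (hf : QB w C k f) : QB w (|c| * C) k (fun z => c * f z) := by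
  induction k generalizing f with
  | zero =>
    refine ⟨contDiffOn_const.mul hf.1, fun z hz => ?_⟩
    rw [abs_mul]; exact mul_le_mul_of_nonneg_left (hf.2 z hz) (abs_nonneg _)
  | succ k ih =>
    refine ⟨⟨contDiffOn_const.mul hf.1.1, fun z hz => ?_⟩,
      qb_congr_aux (ih hf.2.1) fun z hz => ?_, qb_congr_aux (ih hf.2.2) fun z hz => ?_⟩
    · rw [abs_mul]; exact mul_le_mul_of_nonneg_left (hf.1.2 z hz) (abs_nonneg _)
    · rw [dd_const_mul c (diffAt_top isOpen_O hf.1.1 hz)]; ring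
    · rw [dd_const_mul c (diffAt_top isOpen_O hf.1.1 hz)]; ring

lemma QB.smooth (h : QB w C k f) : ContDiffOn ℝ ∞ f O := by
  cases k with
  | zero => exact h.1
  | succ k => exact h.1.1
lemma QB.bound (h : QB w C k f) : ∀ z ∈ O, |f z| ≤ C := by
  cases k with
  | zero => exact h.2
  | succ k => exact h.1.2
lemma QB.nonneg (h : QB w C k f) : 0 ≤ C := by
  exact (abs_nonneg _).trans (h.bound 0 zero_mem_O)
lemma QB.d1 (h : QB w C (k + 1) f) : QB w C k (fun z => ∂₁ f z / w) := by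
  exact h.2.1
lemma QB.d2 (h : QB w C (k + 1) f) : QB w C k (fun z => ∂₂ f z / w) := by
  exact h.2.2
lemma QB.abs_d1_le (hw : 0 < w) (h : QB w C (k + 1) f) : ∀ z ∈ O, |∂₁ f z| ≤ C * w := by
  intro z hz
  have := h.d1.bound z hz
  rwa [abs_div, abs_of_pos hw, div_le_iff₀ hw] at this
lemma QB.abs_d2_le (hw : 0 < w) (h : QB w C (k + 1) f) : ∀ z ∈ O, |∂₂ f z| ≤ C * w := by
  intro z hz
  have := h.d2.bound z hz
  rwa [abs_div, abs_of_pos hw, div_le_iff₀ hw] at this
/-- unscaled derivative: the constant picks up a factor `w` -/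
lemma QB.d1' (hw : 0 < w) (h : QB w C (k + 1) f) : QB w (C * w) k (∂₁ f) := by
  refine qb_congr_aux (qb_mono_aux (qb_const_mul_aux w h.d1) ?_) fun z _ => ?_
  · rw [abs_of_pos hw, mul_comm]
  · field_simp
lemma QB.d2' (hw : 0 < w) (h : QB w C (k + 1) f) : QB w (C * w) k (∂₂ f) := by
  refine qb_congr_aux (qb_mono_aux (qb_const_mul_aux w h.d2) ?_) fun z _ => ?_
  · rw [abs_of_pos hw, mul_comm]
  · field_simp
lemma QB.mono (h : QB w C k f) (hC : C ≤ C') : QB w C' k f := by
  exact qb_mono_aux h hC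
lemma QB.of_le {j : ℕ} (h : QB w C k f) (hj : j ≤ k) : QB w C j f := by
  induction j generalizing k f with
  | zero => exact ⟨h.smooth, h.bound⟩
  | succ j ih =>
    obtain ⟨k, rfl⟩ : ∃ k', k = k' + 1 := ⟨k - 1, by omega⟩
    exact ⟨⟨h.smooth, h.bound⟩, ih h.d1 (by omega), ih h.d2 (by omega)⟩
lemma QB.congr (h : QB w C k f) (hfg : ∀ z ∈ O, g z = f z) : QB w C k g := by
  exact qb_congr_aux h hfg
lemma QB.const {c : ℝ} (hc : |c| ≤ C) : QB w C k (fun _ => c) := by
  induction k generalizing c with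
  | zero => exact ⟨contDiffOn_const, fun _ _ => hc⟩
  | succ k ih =>
    have h0 : |(0 : ℝ)| ≤ C := by simpa using (abs_nonneg c).trans hc
    exact ⟨⟨contDiffOn_const, fun _ _ => hc⟩, (ih h0).congr fun z _ => by simp,
      (ih h0).congr fun z _ => by simp⟩
lemma QB.add (hf : QB w C k f) (hg : QB w C' k g) : QB w (C + C') k (fun z => f z + g z) := by
  induction k generalizing f g with
  | zero =>
    exact ⟨hf.smooth.add hg.smooth, fun z hz =>
      (abs_add_le _ _).trans (add_le_add (hf.bound z hz) (hg.bound z hz))⟩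
  | succ k ih =>
    refine ⟨⟨hf.smooth.add hg.smooth, fun z hz =>
      (abs_add_le _ _).trans (add_le_add (hf.bound z hz) (hg.bound z hz))⟩,
      (ih hf.d1 hg.d1).congr fun z hz => ?_, (ih hf.d2 hg.d2).congr fun z hz => ?_⟩ <;>
    rw [dd_add (diffAt_top isOpen_O hf.smooth hz) (diffAt_top isOpen_O hg.smooth hz), add_div]
lemma QB.neg (hf : QB w C k f) : QB w C k (fun z => - f z) := by
  have := qb_const_mul_aux (-1) hf
  simp only [abs_neg, abs_one, one_mul] at this
  exact this.congr fun z _ => by ring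
lemma QB.sub (hf : QB w C k f) (hg : QB w C' k g) : QB w (C + C') k (fun z => f z - g z) := by
  exact (hf.add hg.neg).congr fun z _ => by ring
lemma QB.const_mul (c : ℝ) (hf : QB w C k f) : QB w (|c| * C) k (fun z => c * f z) := by
  exact qb_const_mul_aux c hf
lemma QB.mul (hf : QB w C k f) (hg : QB w C' k g) :
    QB w (2 ^ k * C * C') k (fun z => f z * g z) := by
  induction k generalizing f g with
  | zero =>
    refine ⟨hf.smooth.mul hg.smooth, fun z hz => ?_⟩
    rw [abs_mul, pow_zero, one_mul]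
    exact mul_le_mul (hf.bound z hz) (hg.bound z hz) (abs_nonneg _) hf.nonneg
  | succ k ih =>
    have hC := hf.nonneg
    have hC' := hg.nonneg
    have e : 2 ^ k * C * C' + 2 ^ k * C * C' = 2 ^ (k + 1) * C * C' := by ring
    refine ⟨⟨hf.smooth.mul hg.smooth, fun z hz => ?_⟩,
      (((ih hf.d1 (hg.of_le (Nat.le_succ k))).add (ih (hf.of_le (Nat.le_succ k)) hg.d1)).mono
        e.le).congr fun z hz => ?_,
      (((ih hf.d2 (hg.of_le (Nat.le_succ k))).add (ih (hf.of_le (Nat.le_succ k)) hg.d2)).mono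
        e.le).congr fun z hz => ?_⟩
    · rw [abs_mul]
      have h1 : |f z| * |g z| ≤ C * C' :=
        mul_le_mul (hf.bound z hz) (hg.bound z hz) (abs_nonneg _) hC
      have h2 : (1 : ℝ) ≤ 2 ^ (k + 1) := one_le_pow₀ (by norm_num)
      have h3 : 0 ≤ C * C' := mul_nonneg hC hC'
      nlinarith
    · rw [dd_mul (diffAt_top isOpen_O hf.smooth hz) (diffAt_top isOpen_O hg.smooth hz)]; ring
    · rw [dd_mul (diffAt_top isOpen_O hf.smooth hz) (diffAt_top isOpen_O hg.smooth hz)]; ring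
lemma QB.sum {ι : Type*} (s : Finset ι) {F : ι → P → ℝ} (hC : 0 ≤ C)
    (hF : ∀ i ∈ s, QB w C k (F i)) : QB w (s.card * C) k (fun z => ∑ i ∈ s, F i z) := by
  classical
  induction s using Finset.induction_on with
  | empty => simpa using (QB.const (w := w) (k := k) (c := 0) (C := 0) (by simp))
  | insert a s ha ih =>
    have h1 := (hF a (Finset.mem_insert_self _ _)).add
      (ih fun i hi => hF i (Finset.mem_insert_of_mem hi))
    refine (h1.mono (le_of_eq ?_)).congr fun z _ => Finset.sum_insert ha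
    rw [Finset.card_insert_of_notMem ha]; push_cast; ring
lemma QB.exists_exp (C : ℝ) (k : ℕ) :
    ∃ C', ∀ (w : ℝ) (f : P → ℝ), QB w C k f → QB w C' k (fun z => Real.exp (f z)) := by
  induction k with
  | zero =>
    refine ⟨Real.exp C, fun w f h => ⟨h.smooth.exp, fun z hz => ?_⟩⟩
    rw [abs_of_pos (Real.exp_pos _)]
    exact Real.exp_le_exp.2 ((le_abs_self _).trans (h.bound z hz))
  | succ k ih =>
    obtain ⟨C1, h1⟩ := ih
    refine ⟨max (Real.exp C) (2 ^ k * C1 * C), fun w f h => ⟨⟨h.smooth.exp, fun z hz => ?_⟩,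
      (((h1 w f (h.of_le (Nat.le_succ k))).mul h.d1).mono (le_max_right _ _)).congr fun z hz => ?_,
      (((h1 w f (h.of_le (Nat.le_succ k))).mul h.d2).mono (le_max_right _ _)).congr
        fun z hz => ?_⟩⟩
    · rw [abs_of_pos (Real.exp_pos _)]
      exact (Real.exp_le_exp.2 ((le_abs_self _).trans (h.bound z hz))).trans (le_max_left _ _)
    · rw [dd_exp (diffAt_top isOpen_O h.smooth hz)]; ring
    · rw [dd_exp (diffAt_top isOpen_O h.smooth hz)]; ring
/-- change of the scale parameter -/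
lemma QB.rescale {w' : ℝ} (hw' : 0 < w') (hww : w' ≤ w) (h : QB w C k f) :
    QB w' (C * (w / w') ^ k) k f := by
  have hw : 0 < w := hw'.trans_le hww
  have hr : 1 ≤ w / w' := (one_le_div hw').2 hww
  induction k generalizing f with
  | zero => exact ⟨h.smooth, by simpa using h.bound⟩
  | succ k ih =>
    have e : |w / w'| * (C * (w / w') ^ k) = C * (w / w') ^ (k + 1) := by
      rw [abs_of_pos (by positivity)]; ring
    refine ⟨⟨h.smooth, fun z hz => (h.bound z hz).trans ?_⟩,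
      (((ih h.d1).const_mul (w / w')).mono e.le).congr fun z _ => by field_simp,
      (((ih h.d2).const_mul (w / w')).mono e.le).congr fun z _ => by field_simp⟩
    exact le_mul_of_one_le_right h.nonneg (one_le_pow₀ hr)
lemma QB.rescale_up {w' : ℝ} (hw : 0 < w) (hww : w ≤ w') (h : QB w C k f) : QB w' C k f := by
  have hw' : 0 < w' := hw.trans_le hww
  have hr : w / w' ≤ 1 := (div_le_one hw').2 hww
  induction k generalizing f with
  | zero => exact h
  | succ k ih =>
    have e : |w / w'| * C ≤ C := by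
      rw [abs_of_pos (by positivity)]
      exact mul_le_of_le_one_left h.nonneg hr
    exact ⟨⟨h.smooth, h.bound⟩,
      (((ih h.d1).const_mul (w / w')).mono e).congr fun z _ => by field_simp,
      (((ih h.d2).const_mul (w / w')).mono e).congr fun z _ => by field_simp⟩
/-- Lipschitz bound -/
lemma QB.abs_sub_le (hw : 0 < w) (h : QB w C (k + 1) f) {x y : P} (hx : x ∈ O) (hy : y ∈ O) :
    |f y - f x| ≤ 2 * (C * w) * ‖y - x‖ := by
  exact abs_sub_le_of_dd_bound (fun z hz => diffAt_top isOpen_O h.smooth hz) (h.abs_d1_le hw)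
    (h.abs_d2_le hw) hx hy

/-! ### uniform versions -/
section UB
variable {I : Type} {ww : I → ℝ} {F G : I → P → ℝ}
lemma UB.of_le {j : ℕ} (h : UB ww k F) (hj : j ≤ k) : UB ww j F := by
  obtain ⟨C, h⟩ := h
  exact ⟨C, fun a => (h a).of_le hj⟩
lemma UB.congr (h : UB ww k F) (hFG : ∀ a, ∀ z ∈ O, G a z = F a z) : UB ww k G := by
  obtain ⟨C, h⟩ := h
  exact ⟨C, fun a => (h a).congr (hFG a)⟩
lemma UB.d1 (h : UB ww (k + 1) F) : UB ww k (fun a z => ∂₁ (F a) z / ww a) := by
  obtain ⟨C, h⟩ := h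
  exact ⟨C, fun a => (h a).d1⟩
lemma UB.d2 (h : UB ww (k + 1) F) : UB ww k (fun a z => ∂₂ (F a) z / ww a) := by
  obtain ⟨C, h⟩ := h
  exact ⟨C, fun a => (h a).d2⟩
lemma UB.const {c : I → ℝ} {B : ℝ} (hc : ∀ a, |c a| ≤ B) : UB ww k (fun a _ => c a) := by
  exact ⟨B, fun a => QB.const (hc a)⟩
lemma UB.add (hF : UB ww k F) (hG : UB ww k G) : UB ww k (fun a z => F a z + G a z) := by
  obtain ⟨C, hF⟩ := hF
  obtain ⟨C', hG⟩ := hG
  exact ⟨_, fun a => (hF a).add (hG a)⟩
lemma UB.sub (hF : UB ww k F) (hG : UB ww k G) : UB ww k (fun a z => F a z - G a z) := by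
  obtain ⟨C, hF⟩ := hF
  obtain ⟨C', hG⟩ := hG
  exact ⟨_, fun a => (hF a).sub (hG a)⟩
lemma UB.neg (hF : UB ww k F) : UB ww k (fun a z => - F a z) := by
  obtain ⟨C, hF⟩ := hF
  exact ⟨_, fun a => (hF a).neg⟩
lemma UB.mul (hF : UB ww k F) (hG : UB ww k G) : UB ww k (fun a z => F a z * G a z) := by
  obtain ⟨C, hF⟩ := hF
  obtain ⟨C', hG⟩ := hG
  exact ⟨_, fun a => (hF a).mul (hG a)⟩
lemma UB.const_mul (c : ℝ) (hF : UB ww k F) : UB ww k (fun a z => c * F a z) := by
  obtain ⟨C, hF⟩ := hF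
  exact ⟨_, fun a => (hF a).const_mul c⟩
lemma UB.exp (hF : UB ww k F) : UB ww k (fun a z => Real.exp (F a z)) := by
  obtain ⟨C, hF⟩ := hF
  obtain ⟨C', h⟩ := QB.exists_exp C k
  exact ⟨C', fun a => h _ _ (hF a)⟩
end UB

/-! ### composition with affine maps -/

lemma contDiff_aff (c v1 v2 : P) (w : ℝ) : ContDiff ℝ ∞ (aff c v1 v2 w) := by
  unfold aff
  fun_prop

lemma qb_dd_comp_aff {c v1 v2 z : P} (hf : DifferentiableAt ℝ f (aff c v1 v2 w z)) (v : P) :
    dd v (fun x => f (aff c v1 v2 w x)) z =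
      fderiv ℝ f (aff c v1 v2 w z) ((w * v.1) • v1 + (w * v.2) • v2) := by
  have h1 : HasFDerivAt (aff c v1 v2 w)
      ((w • ContinuousLinearMap.fst ℝ ℝ ℝ).smulRight v1 +
        (w • ContinuousLinearMap.snd ℝ ℝ ℝ).smulRight v2) z := by
    have h2 := ((w • ContinuousLinearMap.fst ℝ ℝ ℝ).smulRight v1 +
        (w • ContinuousLinearMap.snd ℝ ℝ ℝ).smulRight v2).hasFDerivAt (x := z)
    have h3 := h2.const_add c
    have h5 : aff c v1 v2 w = fun x => c + ((w • ContinuousLinearMap.fst ℝ ℝ ℝ).smulRight v1 +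
        (w • ContinuousLinearMap.snd ℝ ℝ ℝ).smulRight v2) x := by
      funext x
      simp [aff, add_assoc]
    rw [h5]
    exact h3
  have h4 := hf.hasFDerivAt.comp z h1
  rw [show (fun x => f (aff c v1 v2 w x)) = f ∘ aff c v1 v2 w from rfl, dd_of_hasFDerivAt h4]
  simp

lemma d1_comp_aff {c v1 v2 z : P} (hf : DifferentiableAt ℝ f (aff c v1 v2 w z)) :
    ∂₁ (fun x => f (aff c v1 v2 w x)) z = w * dd v1 f (aff c v1 v2 w z) := by
  rw [qb_dd_comp_aff hf]
  simp [dd]

lemma d2_comp_aff {c v1 v2 z : P} (hf : DifferentiableAt ℝ f (aff c v1 v2 w z)) :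
    ∂₂ (fun x => f (aff c v1 v2 w x)) z = w * dd v2 f (aff c v1 v2 w z) := by
  rw [qb_dd_comp_aff hf]
  simp [dd]

/-- bounds on iterated derivatives give `QB` bounds for the composition with an affine map
(induction on `k` generalizing `f`; use `norm_iteratedFDeriv_clm_apply_const` and
`norm_iteratedFDeriv_fderiv`). -/
lemma QB_comp_aff {U : Set P} (hU : IsOpen U) {c v1 v2 : P} (hw : w ≠ 0) (h1 : ‖v1‖ ≤ 1)
    (h2 : ‖v2‖ ≤ 1) (hmap : ∀ z ∈ O, aff c v1 v2 w z ∈ U) (hf : ContDiffOn ℝ ∞ f U)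
    (hb : ∀ j ≤ k, ∀ z ∈ O, ‖iteratedFDeriv ℝ j f (aff c v1 v2 w z)‖ ≤ C) :
    QB w C k (fun z => f (aff c v1 v2 w z)) := by
  induction k generalizing f with
  | zero =>
    refine ⟨hf.comp (contDiff_aff c v1 v2 w).contDiffOn hmap, fun z hz => ?_⟩
    simpa using hb 0 le_rfl z hz
  | succ k ih =>
    have key : ∀ v : P, ‖v‖ ≤ 1 → ∀ j ≤ k, ∀ z ∈ O,
        ‖iteratedFDeriv ℝ j (dd v f) (aff c v1 v2 w z)‖ ≤ C := by
      intro v hv j hj z hz
      have hx := hmap z hz
      have h3 : ContDiffAt ℝ ∞ (fderiv ℝ f) (aff c v1 v2 w z) :=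
        ((hf _ hx).contDiffAt (hU.mem_nhds hx)).fderiv_right (m := ∞) (by simp)
      have h4 := norm_iteratedFDeriv_clm_apply_const (n := j) (c := v) h3 (by exact_mod_cast le_top)
      rw [norm_iteratedFDeriv_fderiv] at h4
      have h5 := hb (j + 1) (by omega) z hz
      have h6 := norm_nonneg (iteratedFDeriv ℝ (j + 1) f (aff c v1 v2 w z))
      refine le_trans h4 ?_
      nlinarith
    refine ⟨⟨hf.comp (contDiff_aff c v1 v2 w).contDiffOn hmap, fun z hz => ?_⟩,
      (ih (contDiffOn_dd hU v1 hf) (key v1 h1)).congr fun z hz => ?_,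
      (ih (contDiffOn_dd hU v2 hf) (key v2 h2)).congr fun z hz => ?_⟩
    · simpa using hb 0 (by omega) z hz
    · rw [d1_comp_aff (diffAt_top hU hf (hmap z hz))]; field_simp
    · rw [d2_comp_aff (diffAt_top hU hf (hmap z hz))]; field_simp

/-- a smooth function has bounded iterated derivatives on a compact subset of its open domain -/
lemma exists_bound_iteratedFDeriv {U B : Set P} (hU : IsOpen U) (hB : IsCompact B) (hBU : B ⊆ U)
    (hf : ContDiffOn ℝ ∞ f U) (k : ℕ) :
    ∃ C, 0 ≤ C ∧ ∀ j ≤ k, ∀ x ∈ B, ‖iteratedFDeriv ℝ j f x‖ ≤ C := by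
  have key : ∀ j : ℕ, ∃ C, ∀ x ∈ B, ‖iteratedFDeriv ℝ j f x‖ ≤ C := by
    intro j
    refine hB.exists_bound_of_continuousOn fun x hx => ?_
    exact (((hf x (hBU hx)).contDiffAt (hU.mem_nhds (hBU hx))).continuousAt_iteratedFDeriv
      (by exact_mod_cast le_top)).continuousWithinAt
  choose D hD using key
  refine ⟨∑ j ∈ Finset.range (k + 1), |D j|, Finset.sum_nonneg fun _ _ => abs_nonneg _,
    fun j hj x hx => (hD j x hx).trans ((le_abs_self _).trans ?_)⟩
  exact Finset.single_le_sum (f := fun j => |D j|) (fun _ _ => abs_nonneg _)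
    (Finset.mem_range.2 (by omega))

end Crest.Agent.R220
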