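import Crest.Agent.R220.Geom
import Crest.Agent.R220.QB

/-! # Row 220: rotating and rescaling a surface -/

set_option autoImplicit false

open Set MeasureTheory Filter Topology
open scoped ContDiff

namespace Crest.Agent.R220

/-- the rotated and rescaled surface -/
noncomputable def rotG (F : Fin 3 → P → ℝ) (c : P) (a b w : ℝ) : Fin 3 → P → ℝ :=
  fun i z => F i (aff c (a, b) (-b, a) w z) / w

lemma rot_d1 {U : Set P} (hU : IsOpen U) {f : P → ℝ} (hf : ContDiffOn ℝ ∞ f U) {c : P}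
    {a b w : ℝ} {z : P} (hz : aff c (a, b) (-b, a) w z ∈ U) :
    ∂₁ (fun x => f (aff c (a, b) (-b, a) w x)) z =
      w * (a * ∂₁ f (aff c (a, b) (-b, a) w z) + b * ∂₂ f (aff c (a, b) (-b, a) w z)) := by
  rw [d1_comp_aff (diffAt_top hU hf hz), dd_eq]

lemma rot_d2 {U : Set P} (hU : IsOpen U) {f : P → ℝ} (hf : ContDiffOn ℝ ∞ f U) {c : P}
    {a b w : ℝ} {z : P} (hz : aff c (a, b) (-b, a) w z ∈ U) :
    ∂₂ (fun x => f (aff c (a, b) (-b, a) w x)) z =
      w * (-b * ∂₁ f (aff c (a, b) (-b, a) w z) + a * ∂₂ f (aff c (a, b) (-b, a) w z)) := by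
  rw [d2_comp_aff (diffAt_top hU hf hz), dd_eq]

lemma rot_smooth {U : Set P} {f : P → ℝ} (hf : ContDiffOn ℝ ∞ f U) {c : P} {a b w : ℝ}
    (hmap : ∀ z ∈ O, aff c (a, b) (-b, a) w z ∈ U) :
    ContDiffOn ℝ ∞ (fun x => f (aff c (a, b) (-b, a) w x)) O :=
  hf.comp (contDiff_aff c (a, b) (-b, a) w).contDiffOn hmap

lemma rotG_d1 {U : Set P} {φ : P → ℝ} {F : Fin 3 → P → ℝ} (h : Iso U φ F) {c : P} {a b w : ℝ}
    (hw : 0 < w) (hmap : ∀ z ∈ O, aff c (a, b) (-b, a) w z ∈ U) (i : Fin 3) {z : P} (hz : z ∈ O) :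
    ∂₁ (rotG F c a b w i) z =
      a * ∂₁ (F i) (aff c (a, b) (-b, a) w z) + b * ∂₂ (F i) (aff c (a, b) (-b, a) w z) := by
  unfold rotG
  rw [dd_div_const w (diffAt_top isOpen_O (rot_smooth (h.smG i) hmap) hz),
    rot_d1 h.isOpen (h.smG i) (hmap z hz)]
  field_simp

lemma rotG_d2 {U : Set P} {φ : P → ℝ} {F : Fin 3 → P → ℝ} (h : Iso U φ F) {c : P} {a b w : ℝ}
    (hw : 0 < w) (hmap : ∀ z ∈ O, aff c (a, b) (-b, a) w z ∈ U) (i : Fin 3) {z : P} (hz : z ∈ O) :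
    ∂₂ (rotG F c a b w i) z =
      -b * ∂₁ (F i) (aff c (a, b) (-b, a) w z) + a * ∂₂ (F i) (aff c (a, b) (-b, a) w z) := by
  unfold rotG
  rw [dd_div_const w (diffAt_top isOpen_O (rot_smooth (h.smG i) hmap) hz),
    rot_d2 h.isOpen (h.smG i) (hmap z hz)]
  field_simp

lemma aff_zero' (c v1 v2 : P) (w : ℝ) : aff c v1 v2 w 0 = c := by simp [aff]

theorem Iso.rot {U : Set P} {φ : P → ℝ} {F : Fin 3 → P → ℝ} (h : Iso U φ F) {c : P} {a b w : ℝ}
    (hab : a ^ 2 + b ^ 2 = 1) (hw : 0 < w) (hmap : ∀ z ∈ O, aff c (a, b) (-b, a) w z ∈ U) :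
    Iso O (fun z => φ (aff c (a, b) (-b, a) w z)) (rotG F c a b w) ∧
    II e1 e1 (fun z => φ (aff c (a, b) (-b, a) w z)) (rotG F c a b w) 0 / w =
      a ^ 2 * II e1 e1 φ F c + 2 * a * b * II e1 e2 φ F c + b ^ 2 * II e2 e2 φ F c ∧
    II e1 e2 (fun z => φ (aff c (a, b) (-b, a) w z)) (rotG F c a b w) 0 / w =
      - a * b * II e1 e1 φ F c + (a ^ 2 - b ^ 2) * II e1 e2 φ F c + a * b * II e2 e2 φ F c := by
  have d1 := fun i z hz => rotG_d1 h hw hmap i (z := z) hz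
  have d2 := fun i z hz => rotG_d2 h hw hmap i (z := z) hz
  have s1 := fun i => contDiffOn_dd h.isOpen e1 (h.smG i)
  have s2 := fun i => contDiffOn_dd h.isOpen e2 (h.smG i)
  have hc : aff c (a, b) (-b, a) w 0 ∈ U := hmap 0 zero_mem_O
  have hc' : c ∈ U := by rwa [aff_zero'] at hc
  have t1 := fun i => diffAt_top isOpen_O (rot_smooth (s1 i) hmap) zero_mem_O
  have t2 := fun i => diffAt_top isOpen_O (rot_smooth (s2 i) hmap) zero_mem_O
  have d11 : ∀ i, ∂₁ (∂₁ (rotG F c a b w i)) 0 =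
      w * (a * (a * ∂₁ (∂₁ (F i)) c + b * ∂₁ (∂₂ (F i)) c) +
        b * (a * ∂₁ (∂₂ (F i)) c + b * ∂₂ (∂₂ (F i)) c)) := by
    intro i
    rw [dd_congr_on isOpen_O (d1 i) zero_mem_O, dd_add ((t1 i).const_mul a) ((t2 i).const_mul b),
      dd_const_mul a (t1 i), dd_const_mul b (t2 i), rot_d1 h.isOpen (s1 i) hc,
      rot_d1 h.isOpen (s2 i) hc, aff_zero', dd_comm_on h.isOpen e2 e1 (h.smG i) hc']
    ring
  have d12 : ∀ i, ∂₁ (∂₂ (rotG F c a b w i)) 0 =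
      w * (-b * (a * ∂₁ (∂₁ (F i)) c + b * ∂₁ (∂₂ (F i)) c) +
        a * (a * ∂₁ (∂₂ (F i)) c + b * ∂₂ (∂₂ (F i)) c)) := by
    intro i
    rw [dd_congr_on isOpen_O (d2 i) zero_mem_O, dd_add ((t1 i).const_mul (-b)) ((t2 i).const_mul a),
      dd_const_mul (-b) (t1 i), dd_const_mul a (t2 i), rot_d1 h.isOpen (s1 i) hc,
      rot_d1 h.isOpen (s2 i) hc, aff_zero', dd_comm_on h.isOpen e2 e1 (h.smG i) hc']
    ring
  have hn : ∀ i, nrm (fun z => φ (aff c (a, b) (-b, a) w z)) (rotG F c a b w) i 0 = nrm φ F i c := by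
    intro i
    have e1' := fun j => d1 j 0 zero_mem_O
    have e2' := fun j => d2 j 0 zero_mem_O
    simp only [aff_zero'] at e1' e2'
    fin_cases i
    · simp only [nrm, cross, D, Fin.zero_eta, Fin.isValue, Matrix.cons_val_zero, e1', e2', aff_zero']
      linear_combination (Real.exp (-2 * φ c) *
        (∂₁ (F 1) c * ∂₂ (F 2) c - ∂₁ (F 2) c * ∂₂ (F 1) c)) * hab
    · simp only [nrm, cross, D, Fin.mk_one, Fin.isValue, Matrix.cons_val_zero, Matrix.cons_val_one,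
        e1', e2', aff_zero']
      linear_combination (Real.exp (-2 * φ c) *
        (∂₁ (F 2) c * ∂₂ (F 0) c - ∂₁ (F 0) c * ∂₂ (F 2) c)) * hab
    · simp only [nrm, cross, D, Fin.reduceFinMk, Fin.isValue, Matrix.cons_val, e1', e2', aff_zero']
      linear_combination (Real.exp (-2 * φ c) *
        (∂₁ (F 0) c * ∂₂ (F 1) c - ∂₁ (F 1) c * ∂₂ (F 0) c)) * hab
  refine ⟨⟨isOpen_O, rot_smooth h.smψ hmap, fun i => (rot_smooth (h.smG i) hmap).div_const w,
    fun z hz => ?_, fun z hz => ?_, fun z hz => ?_⟩, ?_, ?_⟩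
  · have h11 := h.h11 _ (hmap z hz)
    have h12 := h.h12 _ (hmap z hz)
    have h22 := h.h22 _ (hmap z hz)
    simp only [dot, D, d1 _ z hz] at h11 h12 h22 ⊢
    linear_combination a ^ 2 * h11 + 2 * a * b * h12 + b ^ 2 * h22 +
      Real.exp (2 * φ (aff c (a, b) (-b, a) w z)) * hab
  · have h11 := h.h11 _ (hmap z hz)
    have h12 := h.h12 _ (hmap z hz)
    have h22 := h.h22 _ (hmap z hz)
    simp only [dot, D, d1 _ z hz, d2 _ z hz] at h11 h12 h22 ⊢
    linear_combination (-a * b) * h11 + (a ^ 2 - b ^ 2) * h12 + a * b * h22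
  · have h11 := h.h11 _ (hmap z hz)
    have h12 := h.h12 _ (hmap z hz)
    have h22 := h.h22 _ (hmap z hz)
    simp only [dot, D, d2 _ z hz] at h11 h12 h22 ⊢
    linear_combination b ^ 2 * h11 - 2 * a * b * h12 + a ^ 2 * h22 +
      Real.exp (2 * φ (aff c (a, b) (-b, a) w z)) * hab
  · simp only [II, dot, D, d11, hn]
    field_simp
    ring
  · simp only [II, dot, D, d12, hn]
    field_simp
    ring

/-- uniform a priori bounds for all rotated rescaled pieces inside a compact set -/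
theorem Iso.exists_QB_rot {U B : Set P} {φ : P → ℝ} {F : Fin 3 → P → ℝ} (h : Iso U φ F)
    (hB : IsCompact B) (hBU : B ⊆ U) : ∃ N : ℝ, ∀ (c : P) (a b w : ℝ), a ^ 2 + b ^ 2 = 1 → 0 < w →
      (∀ z ∈ O, aff c (a, b) (-b, a) w z ∈ B) →
      ∀ i, QB w N 3 (∂₁ (rotG F c a b w i)) ∧ QB w N 3 (∂₂ (rotG F c a b w i)) := by
  have s1 := fun i => contDiffOn_dd h.isOpen e1 (h.smG i)
  have s2 := fun i => contDiffOn_dd h.isOpen e2 (h.smG i)
  choose C1 hC1 hC1' using fun i => exists_bound_iteratedFDeriv h.isOpen hB hBU (s1 i) 3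
  choose C2 hC2 hC2' using fun i => exists_bound_iteratedFDeriv h.isOpen hB hBU (s2 i) 3
  refine ⟨∑ i, (C1 i + C2 i), fun c a b w hab hw hmap i => ?_⟩
  have hmap' : ∀ z ∈ O, aff c (a, b) (-b, a) w z ∈ U := fun z hz => hBU (hmap z hz)
  have ha : |a| ≤ 1 := by rw [← sq_le_one_iff_abs_le_one]; nlinarith [sq_nonneg b]
  have hb : |b| ≤ 1 := by rw [← sq_le_one_iff_abs_le_one]; nlinarith [sq_nonneg a]
  have hb' : |-b| ≤ 1 := by rwa [abs_neg]
  have n1 : ‖((a, b) : P)‖ ≤ 1 := by rw [norm_eq_max]; exact max_le ha hb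
  have n2 : ‖((-b, a) : P)‖ ≤ 1 := by rw [norm_eq_max]; exact max_le hb' ha
  have q1 := QB_comp_aff (k := 3) (C := C1 i) h.isOpen hw.ne' n1 n2 hmap' (s1 i)
    (fun j hj z hz => hC1' i j hj _ (hmap z hz))
  have q2 := QB_comp_aff (k := 3) (C := C2 i) h.isOpen hw.ne' n1 n2 hmap' (s2 i)
    (fun j hj z hz => hC2' i j hj _ (hmap z hz))
  have hsum : C1 i + C2 i ≤ ∑ i, (C1 i + C2 i) :=
    Finset.single_le_sum (f := fun i => C1 i + C2 i) (fun j _ => add_nonneg (hC1 j) (hC2 j))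
      (Finset.mem_univ i)
  have hle : ∀ x y : ℝ, |x| ≤ 1 → |y| ≤ 1 → |x| * C1 i + |y| * C2 i ≤ ∑ i, (C1 i + C2 i) := by
    intro x y hx hy
    have := mul_le_of_le_one_left (hC1 i) hx
    have := mul_le_of_le_one_left (hC2 i) hy
    linarith
  exact ⟨(((q1.const_mul a).add (q2.const_mul b)).mono (hle a b ha hb)).congr
      (fun z hz => rotG_d1 h hw hmap' i hz),
    (((q1.const_mul (-b)).add (q2.const_mul a)).mono (hle (-b) a hb' ha)).congr
      (fun z hz => rotG_d2 h hw hmap' i hz)⟩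

end Crest.Agent.R220
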