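import Crest.Agent.R220.Core
import Crest.Agent.R220.Rot

/-! # Row 220: auxiliary lemmas for the global construction -/

set_option autoImplicit false

open Set MeasureTheory Filter Topology
open scoped ContDiff

namespace Crest.Agent.R220

/-- the defining function of the parabola -/
def HH (z : P) : ℝ := z.1 ^ 2 - z.2

lemma continuous_HH : Continuous HH := by unfold HH; fun_prop

/-! ### series with small `C^{j+1}` norms -/

lemma series (f : ℕ → P → ℝ) (hf : ∀ j, ContDiff ℝ ∞ (f j))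
    (hb : ∀ j, ∀ k ≤ j + 1, ∀ z, ‖iteratedFDeriv ℝ k (f j) z‖ ≤ (1 / 2 : ℝ) ^ j) :
    ContDiff ℝ ∞ (fun z => ∑' j, f j z) ∧ (∀ z, Summable fun j => f j z) ∧
      ∀ z, (∀ j, ∀ᶠ x in 𝓝 z, f j x = 0) → ∀ v, dd v (fun z => ∑' j, f j z) z = 0 := by
  have hs : Summable fun j : ℕ => (1 / 2 : ℝ) ^ j := summable_geometric_two
  have hsum : ∀ z, Summable fun j => f j z := by
    intro z
    refine Summable.of_norm_bounded hs fun j => ?_
    simpa only [norm_iteratedFDeriv_zero] using hb j 0 (by omega) z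
  refine ⟨?_, hsum, ?_⟩
  · refine contDiff_tsum_of_eventually (N := ⊤) (v := fun _ j => (1 / 2 : ℝ) ^ j) hf
      (fun _ _ => hs) ?_
    intro k _
    rw [Nat.cofinite_eq_atTop]
    filter_upwards [eventually_ge_atTop k] with j hj z
    exact hb j k (by omega) z
  · intro z hz v
    have h1 := fderiv_tsum_apply (𝕜 := ℝ) (f := f) hs
      (fun j => (hf j).differentiable (by simp))
      (fun j x => by simpa only [norm_iteratedFDeriv_one] using hb j 1 (by omega) x) (hsum 0) z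
    have h2 : ∀ j, fderiv ℝ (f j) z = 0 := by
      intro j
      have : f j =ᶠ[𝓝 z] fun _ => 0 := hz j
      rw [this.fderiv_eq]; simp
    rw [dd, h1]; simp [h2]

lemma norm_iter_comp_lin {g : P → ℝ} (hg : ContDiff ℝ ∞ g) (L : P →L[ℝ] P) (c : P) (k : ℕ)
    (z : P) : ‖iteratedFDeriv ℝ k (fun z => g (L (z - c))) z‖ ≤
      ‖iteratedFDeriv ℝ k g (L (z - c))‖ * ‖L‖ ^ k := by
  have h1 := iteratedFDeriv_comp_sub (𝕜 := ℝ) (f := g ∘ L) k c z
  have h2 := L.iteratedFDeriv_comp_right hg (z - c) (i := k) (by exact_mod_cast le_top)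
  have h3 : (fun z => g (L (z - c))) = fun z => (g ∘ L) (z - c) := rfl
  rw [h3, h1, h2]
  refine (ContinuousMultilinearMap.norm_compContinuousLinearMap_le _ _).trans ?_
  simp

lemma exists_small {g : P → ℝ} (hg : ContDiff ℝ ∞ g) (hc : HasCompactSupport g) (m : ℕ) {ε : ℝ}
    (hε : 0 < ε) : ∃ η : ℝ, 0 < η ∧ ∀ k ≤ m, ∀ z,
      ‖iteratedFDeriv ℝ k (fun z => - η * g z) z‖ ≤ ε := by
  have h1 : ∀ k : ℕ, ∃ C : ℝ, ∀ z, ‖iteratedFDeriv ℝ k g z‖ ≤ C := fun k =>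
    (hc.iteratedFDeriv (𝕜 := ℝ) k).exists_bound_of_continuous
      (hg.continuous_iteratedFDeriv (by exact_mod_cast le_top))
  choose C hC using h1
  have hC0 : ∀ k, 0 ≤ C k := fun k => (norm_nonneg _).trans (hC k 0)
  set S := ∑ k ∈ Finset.range (m + 1), C k with hS
  have hS0 : 0 ≤ S := Finset.sum_nonneg fun k _ => hC0 k
  refine ⟨ε / (S + 1), by positivity, fun k hk z => ?_⟩
  have hk' : C k ≤ S := Finset.single_le_sum (f := C) (fun k _ => hC0 k)
    (Finset.mem_range.2 (by omega))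
  have h2 : (fun z => - (ε / (S + 1)) * g z) = (- (ε / (S + 1))) • g := rfl
  rw [h2, iteratedFDeriv_const_smul_apply (hg.contDiffAt.of_le (by exact_mod_cast le_top)),
    norm_smul, norm_neg, Real.norm_of_nonneg (by positivity)]
  calc ε / (S + 1) * ‖iteratedFDeriv ℝ k g z‖ ≤ ε / (S + 1) * (S + 1) := by
        gcongr; linarith [hC k z]
    _ = ε := by field_simp

/-! ### dents -/

lemma exists_dent {e : ℝ} (he : 0 < e) (he1 : e ≤ 1) (m : ℕ) {ε : ℝ} (hε : 0 < ε) :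
    ∃ f : P → ℝ, ContDiff ℝ ∞ f ∧ (∀ k ≤ m, ∀ z, ‖iteratedFDeriv ℝ k f z‖ ≤ ε) ∧
      (∀ z, f z ≤ 0) ∧ f (0, e) < 0 ∧ ∀ z, f z ≠ 0 → HH z ≤ - (e / 2) := by
  set g : P → ℝ := fun z => bump0 ((4 / e) • (z - (0, e))) with hg
  have hgs : ContDiff ℝ ∞ g := contDiff_bump0.comp (by fun_prop)
  have hg0 : ∀ z, z ∉ Metric.closedBall ((0, e) : P) (e / 4) → g z = 0 := by
    intro z hz
    apply bump0_eq_zero
    rw [Metric.mem_closedBall, dist_eq_norm, not_le] at hz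
    rw [norm_smul, Real.norm_of_nonneg (by positivity)]
    calc (1 : ℝ) = 4 / e * (e / 4) := by field_simp
      _ ≤ _ := by gcongr
  have hc : HasCompactSupport g := HasCompactSupport.intro (isCompact_closedBall _ _) hg0
  obtain ⟨η, hη, hb⟩ := exists_small hgs hc m hε
  refine ⟨fun z => - η * g z, contDiff_const.mul hgs, hb, fun z => ?_, ?_, fun z hz => ?_⟩
  · have := bump0_nonneg ((4 / e) • (z - (0, e)))
    simp only [hg]; nlinarith
  · have := bump0_zero_pos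
    simp only [hg, sub_self, smul_zero]; nlinarith
  · have h1 : z ∈ Metric.closedBall ((0, e) : P) (e / 4) := by
      by_contra h
      exact hz (by simp [hg0 z h])
    rw [Metric.mem_closedBall, dist_eq_norm] at h1
    have h2 := (abs_fst_le_norm _).trans h1
    have h3 := (abs_snd_le_norm _).trans h1
    simp only [Prod.fst_sub, Prod.snd_sub, sub_zero, abs_le] at h2 h3
    unfold HH
    nlinarith

/-! ### islands -/

lemma aff_fst (c : P) (a b w : ℝ) (u : P) :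
    (aff c (a, b) (-b, a) w u).1 = c.1 + w * (u.1 * a - u.2 * b) := by
  simp [aff]; ring

lemma aff_snd (c : P) (a b w : ℝ) (u : P) :
    (aff c (a, b) (-b, a) w u).2 = c.2 + w * (u.1 * b + u.2 * a) := by
  simp [aff]; ring

lemma aff_disp {a b w : ℝ} (hab : a ^ 2 + b ^ 2 = 1) (hw : 0 < w) (c : P) {u : P}
    (hu : ‖u‖ ≤ 3) : |(aff c (a, b) (-b, a) w u).1 - c.1| ≤ 6 * w ∧
      |(aff c (a, b) (-b, a) w u).2 - c.2| ≤ 6 * w := by
  have ha : |a| ≤ 1 := by rw [abs_le]; constructor <;> nlinarith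
  have hb : |b| ≤ 1 := by rw [abs_le]; constructor <;> nlinarith
  have h1 := (abs_fst_le_norm u).trans hu
  have h2 := (abs_snd_le_norm u).trans hu
  have key : ∀ x y : ℝ, |x| ≤ 3 → |y| ≤ 1 → |x * y| ≤ 3 := fun x y hx hy => by
    rw [abs_mul]; nlinarith [abs_nonneg x, abs_nonneg y]
  rw [aff_fst, aff_snd, add_sub_cancel_left, add_sub_cancel_left, abs_mul, abs_mul, abs_of_pos hw]
  constructor
  · have := abs_sub (u.1 * a) (u.2 * b)
    nlinarith [key _ _ h1 ha, key _ _ h2 hb]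
  · have := abs_add_le (u.1 * b) (u.2 * a)
    nlinarith [key _ _ h1 hb, key _ _ h2 ha]

lemma HH_aff {a b w q e : ℝ} (hab : a ^ 2 + b ^ 2 = 1) (hw : 0 < w) (_he : 0 < e) (he1 : e ≤ 1)
    (hwe : w ≤ e / (100 * (1 + |q|))) {u : P} (hu : ‖u‖ ≤ 3) :
    4 / 5 * e ≤ HH (aff (q, q ^ 2 - e) (a, b) (-b, a) w u) ∧
      HH (aff (q, q ^ 2 - e) (a, b) (-b, a) w u) ≤ 6 / 5 * e := by
  obtain ⟨h1, h2⟩ := aff_disp hab hw (q, q ^ 2 - e) hu
  set z := aff (q, q ^ 2 - e) (a, b) (-b, a) w u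
  simp only at h1 h2
  have hq := abs_nonneg q
  have h3 : w * (100 * (1 + |q|)) ≤ e := by rwa [le_div_iff₀ (by positivity)] at hwe
  have h4 : HH z = e + 2 * (q * (z.1 - q)) + (z.1 - q) ^ 2 - (z.2 - (q ^ 2 - e)) := by
    unfold HH; ring
  have h5 : |q * (z.1 - q)| ≤ |q| * (6 * w) := by rw [abs_mul]; gcongr
  have h6 : (z.1 - q) ^ 2 ≤ (6 * w) ^ 2 := by
    rw [← sq_abs]; gcongr
  have h7 : w ≤ 1 / 100 := by nlinarith
  have h8 : (6 * w) ^ 2 ≤ w := by nlinarith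
  rw [abs_le] at h5 h2
  rw [h4]
  constructor <;> nlinarith [sq_nonneg (z.1 - q)]

/-- the linear part of the inverse of `aff` -/
noncomputable def linv (a b w : ℝ) : P →L[ℝ] P :=
  ((a / w) • ContinuousLinearMap.fst ℝ ℝ ℝ + (b / w) • ContinuousLinearMap.snd ℝ ℝ ℝ).prod
    ((-b / w) • ContinuousLinearMap.fst ℝ ℝ ℝ + (a / w) • ContinuousLinearMap.snd ℝ ℝ ℝ)

lemma linv_aff {a b w : ℝ} (hab : a ^ 2 + b ^ 2 = 1) (hw : 0 < w) (c u : P) :
    linv a b w (aff c (a, b) (-b, a) w u - c) = u := by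
  ext
  · simp [linv, aff_fst, aff_snd]
    field_simp
    linear_combination u.1 * hab
  · simp [linv, aff_fst, aff_snd]
    field_simp
    linear_combination u.2 * hab

lemma aff_linv {a b w : ℝ} (hab : a ^ 2 + b ^ 2 = 1) (hw : 0 < w) (c z : P) :
    aff c (a, b) (-b, a) w (linv a b w (z - c)) = z := by
  ext
  · simp [linv, aff_fst]
    field_simp
    linear_combination (z.1 - c.1) * hab
  · simp [linv, aff_snd]
    field_simp
    linear_combination (z.2 - c.2) * hab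

lemma exists_island (N q L0 : ℝ) (hL0 : L0 ≠ 0) {a b e : ℝ} (hab : a ^ 2 + b ^ 2 = 1)
    (he : 0 < e) (he1 : e ≤ 1) (m : ℕ) {ε : ℝ} (hε : 0 < ε) :
    ∃ (w : ℝ) (f : P → ℝ), 0 < w ∧ w ≤ e ∧ ContDiff ℝ ∞ f ∧
      (∀ k ≤ m, ∀ z, ‖iteratedFDeriv ℝ k f z‖ ≤ ε) ∧
      (∀ z, f z ≠ 0 → 4 / 5 * e ≤ HH z ∧ HH z ≤ 6 / 5 * e) ∧
      (∀ u ∈ O, 4 / 5 * e ≤ HH (aff (q, q ^ 2 - e) (a, b) (-b, a) w u) ∧
        HH (aff (q, q ^ 2 - e) (a, b) (-b, a) w u) ≤ 6 / 5 * e) ∧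
      ¬ ∃ G : Fin 3 → P → ℝ, Iso O (fun u => f (aff (q, q ^ 2 - e) (a, b) (-b, a) w u)) G ∧
        (∀ c, QB w N 3 (∂₁ (G c)) ∧ QB w N 3 (∂₂ (G c))) ∧
        |II e1 e1 (fun u => f (aff (q, q ^ 2 - e) (a, b) (-b, a) w u)) G 0 / (w * L0) - 1|
          ≤ 1 / 10 ^ 5 ∧
        |II e1 e2 (fun u => f (aff (q, q ^ 2 - e) (a, b) (-b, a) w u)) G 0 / (w * L0)|
          ≤ 1 / 10 ^ 5 := by
  have hq := abs_nonneg q
  obtain ⟨w, hw, hwe, H⟩ := core N L0 (e / (100 * (1 + |q|))) hL0 (by positivity)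
  set L := linv a b w
  set c : P := (q, q ^ 2 - e)
  have hL := norm_nonneg L
  obtain ⟨ψ, hψ, hψ0, hψb, hno⟩ := H m (ε / (1 + ‖L‖) ^ m) (by positivity)
  refine ⟨w, fun z => ψ (L (z - c)), hw, hwe.trans ?_, hψ.comp (by fun_prop), ?_, ?_, ?_, ?_⟩
  · rw [div_le_iff₀ (by positivity)]; nlinarith
  · intro k hk z
    refine (norm_iter_comp_lin hψ L c k z).trans ?_
    calc ‖iteratedFDeriv ℝ k ψ (L (z - c))‖ * ‖L‖ ^ k
        ≤ ε / (1 + ‖L‖) ^ m * (1 + ‖L‖) ^ m := by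
          gcongr
          · exact hψb k hk _
          · calc ‖L‖ ^ k ≤ (1 + ‖L‖) ^ k := by gcongr; linarith
              _ ≤ (1 + ‖L‖) ^ m := pow_le_pow_right₀ (by linarith) hk
      _ = ε := by field_simp
  · intro z hz
    have h1 : ‖L (z - c)‖ ≤ 3 := by
      by_contra h
      exact hz (hψ0 _ (le_of_lt (not_le.1 h)))
    have := HH_aff hab hw he he1 hwe h1
    rwa [aff_linv hab hw] at this
  · intro u hu
    refine HH_aff hab hw he he1 hwe ?_
    have : ‖u‖ < 2 := by simpa [O] using hu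
    linarith
  · have : (fun u => ψ (L (aff c (a, b) (-b, a) w u - c))) = ψ := by
      funext u; rw [linv_aff hab hw]
    simp only [this]
    exact hno

/-! ### the second fundamental form cannot vanish along the parabola -/

lemma const_of_hasDerivAt_zero {f : ℝ → ℝ} {ρ : ℝ} (h : ∀ s, |s| < ρ → HasDerivAt f 0 s)
    {a b : ℝ} (ha : |a| < ρ) (hb : |b| < ρ) : f a = f b := by
  refine IsOpen.is_const_of_deriv_eq_zero (𝕜 := ℝ) (s := Ioo (-ρ) ρ) isOpen_Ioo isPreconnected_Ioo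
    (fun s hs => (h s (abs_lt.2 hs)).differentiableAt.differentiableWithinAt)
    (fun s hs => (h s (abs_lt.2 hs)).deriv) (abs_lt.1 ha) (abs_lt.1 hb)

lemma hasDerivAt_parab {f : P → ℝ} {s : ℝ} (hf : DifferentiableAt ℝ f (s, s ^ 2)) :
    HasDerivAt (fun s : ℝ => f (s, s ^ 2)) (∂₁ f (s, s ^ 2) + 2 * s * ∂₂ f (s, s ^ 2)) s := by
  have h1 : HasDerivAt (fun s : ℝ => ((s, s ^ 2) : P)) ((1, 2 * s) : P) s :=
    (hasDerivAt_id s).prodMk (by simpa using hasDerivAt_pow 2 s)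
  have h2 := hf.hasFDerivAt.comp_hasDerivAt s h1
  rw [fderiv_apply_eq] at h2
  simpa [Function.comp_def] using h2

lemma hasDerivAt_chord {f : P → ℝ} {s y : ℝ} (hf : DifferentiableAt ℝ f (s, y)) :
    HasDerivAt (fun s : ℝ => f (s, y)) (∂₁ f (s, y)) s := by
  have h1 : HasDerivAt (fun s : ℝ => ((s, y) : P)) ((1, 0) : P) s :=
    (hasDerivAt_id s).prodMk (hasDerivAt_const s y)
  have h2 := hf.hasFDerivAt.comp_hasDerivAt s h1
  rw [fderiv_apply_eq] at h2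
  simpa [Function.comp_def] using h2

lemma exists_II_ne {U : Set P} {φ : P → ℝ} {F : Fin 3 → P → ℝ} (h : Iso U φ F) (h0 : (0 : P) ∈ U)
    (hφ0 : ∀ s : ℝ, φ (s, s ^ 2) = 0) (hφ1 : ∀ (s : ℝ) (v : P), dd v φ (s, s ^ 2) = 0)
    (hφn : ∀ z, HH z ≤ 0 → φ z ≤ 0)
    (hd : ∀ ρ : ℝ, 0 < ρ → ∃ t : ℝ, 0 < t ∧ t < ρ ∧ φ (0, t ^ 2) < 0) :
    ∃ x : ℝ, ((x, x ^ 2) : P) ∈ U ∧ ¬ (II e1 e1 φ F (x, x ^ 2) = 0 ∧ II e1 e2 φ F (x, x ^ 2) = 0 ∧
      II e2 e2 φ F (x, x ^ 2) = 0) := by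
  by_contra hcon
  push Not at hcon
  obtain ⟨ρ0, hρ0, hball⟩ := Metric.isOpen_iff.1 h.isOpen 0 h0
  set ρ := min ρ0 1 with hρ
  have hρpos : 0 < ρ := lt_min hρ0 one_pos
  have hρ1 : ρ ≤ 1 := min_le_right _ _
  have hρ2 : ρ ≤ ρ0 := min_le_left _ _
  have hmem : ∀ s t : ℝ, |s| < ρ → |t| < ρ → ((s, t ^ 2) : P) ∈ U := by
    intro s t hs ht
    apply hball
    rw [mem_ball_zero_iff, norm_eq_max, max_lt_iff]
    refine ⟨by simpa using hs.trans_le hρ2, ?_⟩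
    simp only [abs_pow]
    nlinarith [abs_nonneg t]
  have hII : ∀ s : ℝ, |s| < ρ → II e1 e1 φ F (s, s ^ 2) = 0 ∧ II e1 e2 φ F (s, s ^ 2) = 0 ∧
      II e2 e2 φ F (s, s ^ 2) = 0 := fun s hs => hcon s (hmem s s hs hs)
  have hz : |(0 : ℝ)| < ρ := by simpa using hρpos
  -- the gradient is constant along the parabola
  have hG1 : ∀ c, ∀ s : ℝ, |s| < ρ → ∂₁ (F c) (s, s ^ 2) = ∂₁ (F c) 0 := by
    intro c s hs
    have := const_of_hasDerivAt_zero (f := fun s : ℝ => ∂₁ (F c) (s, s ^ 2)) (ρ := ρ) ?_ hs hz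
    · simpa [Prod.mk_zero_zero] using this
    intro s hs
    have hU := hmem s s hs hs
    have h1 := hasDerivAt_parab (diffAt_top h.isOpen (contDiffOn_dd h.isOpen e1 (h.smG c)) hU)
    obtain ⟨a1, a2, -⟩ := hII s hs
    rw [h.gauss11 hU, h.gauss21 hU, hφ1, hφ1, a1, a2] at h1
    simpa using h1
  have hG2 : ∀ c, ∀ s : ℝ, |s| < ρ → ∂₂ (F c) (s, s ^ 2) = ∂₂ (F c) 0 := by
    intro c s hs
    have := const_of_hasDerivAt_zero (f := fun s : ℝ => ∂₂ (F c) (s, s ^ 2)) (ρ := ρ) ?_ hs hz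
    · simpa [Prod.mk_zero_zero] using this
    intro s hs
    have hU := hmem s s hs hs
    have h1 := hasDerivAt_parab (diffAt_top h.isOpen (contDiffOn_dd h.isOpen e2 (h.smG c)) hU)
    obtain ⟨-, a2, a3⟩ := hII s hs
    rw [h.gauss12 hU, h.gauss22 hU, hφ1, hφ1, a2, a3] at h1
    simpa using h1
  obtain ⟨t, ht, htρ, hφt⟩ := hd ρ hρpos
  have ht1 : |t| < ρ := by rwa [abs_of_pos ht]
  have ht2 : |-t| < ρ := by rwa [abs_neg]
  have hF : ∀ c, F c (t, t ^ 2) - F c (-t, t ^ 2) = 2 * t * ∂₁ (F c) 0 := by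
    intro c
    have := const_of_hasDerivAt_zero
      (f := fun s : ℝ => F c (s, s ^ 2) - s * ∂₁ (F c) 0 - s ^ 2 * ∂₂ (F c) 0) (ρ := ρ) ?_ ht1 ht2
    · simp only [even_two, Even.neg_pow] at this
      linarith
    intro s hs
    have hU := hmem s s hs hs
    have h1 := hasDerivAt_parab (diffAt_top h.isOpen (h.smG c) hU)
    rw [hG1 c s hs, hG2 c s hs] at h1
    have h2 := (h1.sub ((hasDerivAt_id s).mul_const (∂₁ (F c) 0))).sub
      ((hasDerivAt_pow 2 s).mul_const (∂₂ (F c) 0))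
    refine h2.congr_deriv ?_
    simp
  have hv : ∂₁ (F 0) 0 ^ 2 + ∂₁ (F 1) 0 ^ 2 + ∂₁ (F 2) 0 ^ 2 = 1 := by
    have h1 := h.h11 0 h0
    have h2 := hφ0 0
    simp only [ne_eq, OfNat.ofNat_ne_zero, not_false_eq_true, zero_pow] at h2
    rw [show (0 : P) = (0, 0) from rfl, h2] at h1
    simp only [dot, D, mul_zero, Real.exp_zero] at h1
    rw [show (0 : P) = (0, 0) from rfl]
    linarith
  set v0 := ∂₁ (F 0) 0
  set v1 := ∂₁ (F 1) 0
  set v2 := ∂₁ (F 2) 0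
  set g : ℝ → ℝ := fun s => s - (v0 * F 0 (s, t ^ 2) + v1 * F 1 (s, t ^ 2) + v2 * F 2 (s, t ^ 2))
    with hg
  set g' : ℝ → ℝ := fun s =>
    1 - (v0 * ∂₁ (F 0) (s, t ^ 2) + v1 * ∂₁ (F 1) (s, t ^ 2) + v2 * ∂₁ (F 2) (s, t ^ 2)) with hg'
  have hgd : ∀ s ∈ Icc (-t) t, HasDerivAt g (g' s) s := by
    intro s hs
    have hU := hmem s t ((abs_le.2 hs).trans_lt htρ) ht1
    have d0 := hasDerivAt_chord (diffAt_top h.isOpen (h.smG 0) hU)
    have d1 := hasDerivAt_chord (diffAt_top h.isOpen (h.smG 1) hU)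
    have d2 := hasDerivAt_chord (diffAt_top h.isOpen (h.smG 2) hU)
    exact (hasDerivAt_id s).sub (((d0.const_mul v0).add (d1.const_mul v1)).add (d2.const_mul v2))
  have hgl : ∀ s ∈ Icc (-t) t, (1 - Real.exp (2 * φ (s, t ^ 2))) / 2 ≤ g' s := by
    intro s hs
    have hU := hmem s t ((abs_le.2 hs).trans_lt htρ) ht1
    have h1 := h.h11 _ hU
    simp only [dot, D] at h1
    simp only [hg']
    nlinarith [sq_nonneg (v0 - ∂₁ (F 0) (s, t ^ 2)), sq_nonneg (v1 - ∂₁ (F 1) (s, t ^ 2)),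
      sq_nonneg (v2 - ∂₁ (F 2) (s, t ^ 2))]
  have hmono : MonotoneOn g (Icc (-t) t) := by
    refine monotoneOn_of_deriv_nonneg (convex_Icc _ _)
      (fun s hs => (hgd s hs).continuousAt.continuousWithinAt)
      (fun s hs => (hgd s (interior_subset hs)).differentiableAt.differentiableWithinAt) ?_
    intro s hs
    have hs' := interior_subset hs
    rw [(hgd s hs').deriv]
    refine le_trans ?_ (hgl s hs')
    have h1 : φ (s, t ^ 2) ≤ 0 := by
      apply hφn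
      simp only [HH]
      nlinarith [hs'.1, hs'.2]
    have h2 : Real.exp (2 * φ (s, t ^ 2)) ≤ 1 := Real.exp_le_one_iff.2 (by linarith)
    linarith
  have hends : g t = g (-t) := by
    have a0 := hF 0
    have a1 := hF 1
    have a2 := hF 2
    simp only [hg]
    linear_combination (-v0) * a0 - v1 * a1 - v2 * a2 - 2 * t * hv
  have hconst : g =ᶠ[𝓝 0] fun _ => g (-t) := by
    filter_upwards [Icc_mem_nhds (show -t < 0 by linarith) ht] with s hs
    have b1 := hmono (left_mem_Icc.2 (by linarith)) hs hs.1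
    have b2 := hmono hs (right_mem_Icc.2 (by linarith)) hs.2
    linarith
  have h00 : (0 : ℝ) ∈ Icc (-t) t := ⟨by linarith, ht.le⟩
  have hder : g' 0 = 0 :=
    (hgd 0 h00).unique ((hasDerivAt_const (0 : ℝ) (g (-t))).congr_of_eventuallyEq hconst)
  have h3 := hgl 0 h00
  have h4 : Real.exp (2 * φ (0, t ^ 2)) < 1 := Real.exp_lt_one_iff.2 (by linarith)
  linarith

/-! ### choice of the principal direction -/

lemma exists_angle {L M N : ℝ} (h : ¬ (L = 0 ∧ M = 0 ∧ N = 0)) : ∃ θ : ℝ,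
    - Real.cos θ * Real.sin θ * L + (Real.cos θ ^ 2 - Real.sin θ ^ 2) * M
      + Real.cos θ * Real.sin θ * N = 0 ∧
    Real.cos θ ^ 2 * L + 2 * Real.cos θ * Real.sin θ * M + Real.sin θ ^ 2 * N ≠ 0 := by
  set m : ℝ → ℝ := fun θ => - Real.cos θ * Real.sin θ * L + (Real.cos θ ^ 2 - Real.sin θ ^ 2) * M
      + Real.cos θ * Real.sin θ * N with hm
  have hc : Continuous m := by simp only [hm]; fun_prop
  have h0 : m 0 = M := by simp [hm]
  have h1 : m (Real.pi / 2) = - M := by simp [hm]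
  obtain ⟨θ, hθ⟩ : ∃ θ, m θ = 0 := by
    rcases le_total 0 M with hM | hM
    · exact intermediate_value_univ (Real.pi / 2) 0 hc ⟨by rw [h1]; linarith, by rw [h0]; linarith⟩
    · exact intermediate_value_univ 0 (Real.pi / 2) hc ⟨by rw [h0]; linarith, by rw [h1]; linarith⟩
  simp only [hm] at hθ
  have hcs := Real.cos_sq_add_sin_sq θ
  by_cases hL : Real.cos θ ^ 2 * L + 2 * Real.cos θ * Real.sin θ * M + Real.sin θ ^ 2 * N = 0
  · refine ⟨θ + Real.pi / 2, ?_, ?_⟩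
    · rw [Real.cos_add_pi_div_two, Real.sin_add_pi_div_two]
      linear_combination (-1) * hθ
    · rw [Real.cos_add_pi_div_two, Real.sin_add_pi_div_two]
      intro hN
      set a := Real.cos θ
      set b := Real.sin θ
      refine h ⟨?_, ?_, ?_⟩
      · linear_combination a ^ 2 * hL - 2 * a * b * hθ + b ^ 2 * hN - (a ^ 2 + b ^ 2 + 1) * L * hcs
      · linear_combination a * b * hL + (a ^ 2 - b ^ 2) * hθ - a * b * hN
          - (a ^ 2 + b ^ 2 + 1) * M * hcs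
      · linear_combination b ^ 2 * hL + 2 * a * b * hθ + a ^ 2 * hN - (a ^ 2 + b ^ 2 + 1) * N * hcs
  · exact ⟨θ, hθ, hL⟩

end Crest.Agent.R220
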