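import Crest.Agent.R220.Core
import Crest.Agent.R220.Rot
import Crest.Agent.R220.GlobalAux

/-! # Row 220: the global construction in the model plane -/

set_option autoImplicit false

open Set MeasureTheory Filter Topology
open scoped ContDiff

namespace Crest.Agent.R220

lemma quarter_sep {i j : ℕ} {x : ℝ} (hi : 4 / 5 * (1 / 4 : ℝ) ^ i ≤ x ∧ x ≤ 6 / 5 * (1 / 4 : ℝ) ^ i)
    (hj : 4 / 5 * (1 / 4 : ℝ) ^ j ≤ x ∧ x ≤ 6 / 5 * (1 / 4 : ℝ) ^ j) : i = j := by
  have key : ∀ a b : ℕ, a < b → (1 / 4 : ℝ) ^ b ≤ (1 / 4 : ℝ) ^ a * (1 / 4) := by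
    intro a b hab
    rw [← pow_succ]
    exact pow_le_pow_of_le_one (by norm_num) (by norm_num) hab
  rcases lt_trichotomy i j with h | h | h
  · have := key i j h
    have h2 : 0 < (1 / 4 : ℝ) ^ i := by positivity
    linarith [hi.1, hj.2]
  · exact h
  · have := key j i h
    have h2 : 0 < (1 / 4 : ℝ) ^ j := by positivity
    linarith [hi.2, hj.1]

theorem global : ∃ φ : P → ℝ, ContDiff ℝ ∞ φ ∧
    ∀ U : Set P, (0 : P) ∈ U → ¬ ∃ F : Fin 3 → P → ℝ, Iso U φ F := by
  classical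
  obtain ⟨u, hu⟩ := TopologicalSpace.exists_dense_seq (ℝ × ℝ × ℝ)
  set e : ℕ → ℝ := fun j => (1 / 4 : ℝ) ^ j with he
  have he0 : ∀ j, 0 < e j := fun j => by simp only [he]; positivity
  have he1 : ∀ j, e j ≤ 1 := fun j => pow_le_one₀ (by norm_num) (by norm_num)
  set q : ℕ → ℝ := fun j => (u (Nat.unpair j).1).1 with hq
  set θ : ℕ → ℝ := fun j => (u (Nat.unpair j).1).2.1 with hθ
  set L : ℕ → ℝ := fun j => if (u (Nat.unpair j).1).2.2 = 0 then 1 else (u (Nat.unpair j).1).2.2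
    with hL
  have hL0 : ∀ j, L j ≠ 0 := by
    intro j
    simp only [hL]
    split_ifs with h
    · exact one_ne_zero
    · exact h
  have hI := fun j : ℕ => exists_island (j : ℝ) (q j) (L j) (hL0 j) (Real.cos_sq_add_sin_sq (θ j))
    (he0 j) (he1 j) (j + 1) (ε := (1 / 2 : ℝ) ^ j) (by positivity)
  choose w f hw hwe hf hfb hfH hfO hno using hI
  have hD := fun j : ℕ => exists_dent (he0 j) (he1 j) (j + 1) (ε := (1 / 2 : ℝ) ^ j) (by positivity)
  choose d hd hdb hdn hdp hdH using hD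
  obtain ⟨sf1, sf2, sf3⟩ := series f hf hfb
  obtain ⟨sd1, sd2, sd3⟩ := series d hd hdb
  set φ : P → ℝ := fun z => (∑' j, f j z) + ∑' j, d j z with hφ
  have hfz : ∀ j z, HH z < 4 / 5 * e j → f j z = 0 := by
    intro j z hz
    by_contra h
    linarith [(hfH j z h).1]
  have hdz : ∀ j z, - (e j / 2) < HH z → d j z = 0 := by
    intro j z hz
    by_contra h
    linarith [hdH j z h]
  have hHZ : ∀ s : ℝ, HH (s, s ^ 2) = 0 := fun s => by simp [HH]
  refine ⟨φ, sf1.add sd1, fun U h0 ⟨F, h⟩ => ?_⟩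
  -- a point of the parabola where the second fundamental form does not vanish
  obtain ⟨x, hxU, hx⟩ := exists_II_ne h h0
    (fun s => by
      have a1 : ∀ j, f j (s, s ^ 2) = 0 := fun j => hfz j _ (by rw [hHZ]; linarith [he0 j])
      have a2 : ∀ j, d j (s, s ^ 2) = 0 := fun j => hdz j _ (by rw [hHZ]; linarith [he0 j])
      simp [hφ, a1, a2])
    (fun s v => by
      simp only [hφ]
      rw [dd_add (sf1.differentiable (by simp) _) (sd1.differentiable (by simp) _), sf3, sd3,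
        add_zero]
      · intro j
        have : ∀ᶠ z in 𝓝 ((s, s ^ 2) : P), - (e j / 2) < HH z :=
          continuous_HH.continuousAt.eventually (lt_mem_nhds (by rw [hHZ]; linarith [he0 j]))
        filter_upwards [this] with z hz using hdz j z hz
      · intro j
        have : ∀ᶠ z in 𝓝 ((s, s ^ 2) : P), HH z < 4 / 5 * e j :=
          continuous_HH.continuousAt.eventually (gt_mem_nhds (by rw [hHZ]; linarith [he0 j]))
        filter_upwards [this] with z hz using hfz j z hz)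
    (fun z hz => by
      have a1 : ∀ j, f j z = 0 := fun j => hfz j _ (by linarith [he0 j])
      have a2 : ∑' j, d j z ≤ 0 := tsum_nonpos fun j => hdn j z
      simpa [hφ, a1] using a2)
    (fun ρ hρ => by
      obtain ⟨j, hj⟩ := exists_pow_lt_of_lt_one hρ (show (1 / 2 : ℝ) < 1 by norm_num)
      refine ⟨(1 / 2 : ℝ) ^ j, by positivity, hj, ?_⟩
      have a0 : ((1 / 2 : ℝ) ^ j) ^ 2 = e j := by
        simp only [he]; rw [← pow_mul, mul_comm, pow_mul]; norm_num
      rw [a0]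
      have a1 : ∀ i, f i (0, e j) = 0 := fun i => hfz i _ (by
        simp only [HH]; linarith [he0 j, he0 i])
      have a2 : ∑' i, d i (0, e j) < 0 := by
        have := (sd2 (0, e j)).neg.tsum_pos (fun i => by linarith [hdn i (0, e j)]) j
          (by linarith [hdp j])
        rw [tsum_neg] at this
        linarith
      simpa [hφ, a1] using a2)
  obtain ⟨θ0, hM0, hL00⟩ := exists_angle hx
  obtain ⟨ρ, hρ, hball⟩ := Metric.nhds_basis_closedBall.mem_iff.1 (h.isOpen.mem_nhds hxU)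
  obtain ⟨N, hN⟩ := h.exists_QB_rot (isCompact_closedBall _ _) hball
  -- the rotated coefficients as functions of the parameters
  set cc : (ℝ × ℝ × ℝ) × ℝ → P := fun p => (p.1.1, p.1.1 ^ 2 - p.2) with hcc
  set Lr : (ℝ × ℝ × ℝ) × ℝ → ℝ := fun p => Real.cos p.1.2.1 ^ 2 * II e1 e1 φ F (cc p)
    + 2 * Real.cos p.1.2.1 * Real.sin p.1.2.1 * II e1 e2 φ F (cc p)
    + Real.sin p.1.2.1 ^ 2 * II e2 e2 φ F (cc p) with hLr
  set Mr : (ℝ × ℝ × ℝ) × ℝ → ℝ := fun p => - Real.cos p.1.2.1 * Real.sin p.1.2.1 * II e1 e1 φ F (cc p)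
    + (Real.cos p.1.2.1 ^ 2 - Real.sin p.1.2.1 ^ 2) * II e1 e2 φ F (cc p)
    + Real.cos p.1.2.1 * Real.sin p.1.2.1 * II e2 e2 φ F (cc p) with hMr
  set L0 := Real.cos θ0 ^ 2 * II e1 e1 φ F (x, x ^ 2)
    + 2 * Real.cos θ0 * Real.sin θ0 * II e1 e2 φ F (x, x ^ 2)
    + Real.sin θ0 ^ 2 * II e2 e2 φ F (x, x ^ 2) with hL0def
  set p0 : (ℝ × ℝ × ℝ) × ℝ := ((x, θ0, L0), 0) with hp0
  have hcc0 : cc p0 = (x, x ^ 2) := by simp [hcc, hp0]
  have hccc : Continuous cc := by simp only [hcc]; fun_prop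
  have hIIc : ∀ v v' : P, ContinuousAt (fun p => II v v' φ F (cc p)) p0 := by
    intro v v'
    refine ContinuousAt.comp (f := cc) ?_ hccc.continuousAt
    rw [hcc0]
    exact (h.sm_II v v').continuousOn.continuousAt (h.isOpen.mem_nhds hxU)
  have hLrc : ContinuousAt Lr p0 := by
    have a1 := hIIc e1 e1
    have a2 := hIIc e1 e2
    have a3 := hIIc e2 e2
    simp only [hLr]
    fun_prop
  have hMrc : ContinuousAt Mr p0 := by
    have a1 := hIIc e1 e1
    have a2 := hIIc e1 e2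
    have a3 := hIIc e2 e2
    simp only [hMr]
    fun_prop
  have hLr0 : Lr p0 = L0 := by simp only [hLr, hcc0]; rfl
  have hMr0 : Mr p0 = 0 := by simp only [hMr, hcc0]; exact hM0
  have hp2 : ContinuousAt (fun p : (ℝ × ℝ × ℝ) × ℝ => p.1.2.2) p0 := by fun_prop
  have E1 : ∀ᶠ p in 𝓝 p0, p.1.2.2 ≠ 0 := hp2.eventually_ne hL00
  have E2 : ∀ᶠ p in 𝓝 p0, |Lr p / p.1.2.2 - 1| < 1 / 10 ^ 5 := by
    have : ContinuousAt (fun p => |Lr p / p.1.2.2 - 1|) p0 :=
      ((hLrc.div hp2 hL00).sub continuousAt_const).abs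
    refine this.eventually (gt_mem_nhds ?_)
    beta_reduce
    rw [hLr0]
    simp only [hp0]
    rw [div_self hL00]; norm_num
  have E3 : ∀ᶠ p in 𝓝 p0, |Mr p / p.1.2.2| < 1 / 10 ^ 5 := by
    have : ContinuousAt (fun p => |Mr p / p.1.2.2|) p0 := (hMrc.div hp2 hL00).abs
    refine this.eventually (gt_mem_nhds ?_)
    beta_reduce
    rw [hMr0]; norm_num
  have E4 : ∀ᶠ p in 𝓝 p0, dist (cc p) (x, x ^ 2) + 6 * p.2 < ρ := by
    have : ContinuousAt (fun p => dist (cc p) (x, x ^ 2) + 6 * p.2) p0 := by fun_prop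
    refine this.eventually (gt_mem_nhds ?_)
    beta_reduce
    rw [hcc0]
    simpa [hp0] using hρ
  obtain ⟨V, hV, W, hW, hVW⟩ := mem_nhds_prod_iff.1 (((E1.and E2).and E3).and E4)
  obtain ⟨i, hi⟩ := hu.mem_nhds hV
  have hlim : Tendsto e atTop (𝓝 0) :=
    tendsto_pow_atTop_nhds_zero_of_lt_one (by norm_num) (by norm_num)
  obtain ⟨J, hJ⟩ := eventually_atTop.1 (hlim.eventually hW)
  obtain ⟨n, hn⟩ := exists_nat_ge N
  set j := Nat.pair i (max J n) with hj
  have hj1 : max J n ≤ j := Nat.right_le_pair _ _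
  have hju : (Nat.unpair j).1 = i := by simp [hj]
  obtain ⟨⟨⟨c1, c2⟩, c3⟩, c4⟩ := hVW (mk_mem_prod hi (hJ j ((le_max_left _ _).trans hj1)))
  have hqj : q j = (u i).1 := by simp only [hq, hju]
  have hθj : θ j = (u i).2.1 := by simp only [hθ, hju]
  have hLj : L j = (u i).2.2 := by simp only [hL, hju]; exact if_neg c1
  have hcj : cc (u i, e j) = (q j, q j ^ 2 - e j) := by simp only [hcc, hqj]
  have hab := Real.cos_sq_add_sin_sq (θ j)
  set A := aff (q j, q j ^ 2 - e j) (Real.cos (θ j), Real.sin (θ j))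
    (-Real.sin (θ j), Real.cos (θ j)) (w j) with hA
  have hmapB : ∀ z ∈ O, A z ∈ Metric.closedBall ((x, x ^ 2) : P) ρ := by
    intro z hz
    have hz3 : ‖z‖ ≤ 3 := by
      have : ‖z‖ < 2 := by simpa [O] using hz
      linarith
    obtain ⟨b1, b2⟩ := aff_disp hab (hw j) (q j, q j ^ 2 - e j) hz3
    have b3 : dist (A z) (q j, q j ^ 2 - e j) ≤ 6 * w j := by
      rw [dist_eq_norm, norm_eq_max]
      exact max_le b1 b2
    rw [Metric.mem_closedBall]
    have b4 := dist_triangle (A z) (q j, q j ^ 2 - e j) (x, x ^ 2)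
    rw [hcj] at c4
    simp only at c4
    linarith [hwe j]
  have hφA : ∀ z ∈ O, f j (A z) = φ (A z) := by
    intro z hz
    have b1 := hfO j z hz
    have b2 : ∀ k, d k (A z) = 0 := fun k => hdz k _ (by linarith [he0 k, he0 j, b1.1])
    have b3 : ∑' k, f k (A z) = f j (A z) := by
      refine tsum_eq_single j fun k hk => ?_
      by_contra hne
      exact hk (quarter_sep (hfH k _ hne) b1)
    simp [hφ, b2, b3]
  obtain ⟨r1, r2, r3⟩ := h.rot hab (hw j) (fun z hz => hball (hmapB z hz))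
  refine hno j ⟨rotG F (q j, q j ^ 2 - e j) (Real.cos (θ j)) (Real.sin (θ j)) (w j),
    r1.congr hφA, fun c => ?_, ?_, ?_⟩
  · have hNj : N ≤ (j : ℝ) := hn.trans (by exact_mod_cast (le_max_right _ _).trans hj1)
    obtain ⟨b1, b2⟩ := hN _ _ _ _ hab (hw j) hmapB c
    exact ⟨b1.mono hNj, b2.mono hNj⟩
  · rw [II_congr (ψ := fun z => φ (A z)) (hφA 0 zero_mem_O), ← div_div, r2, hLj]
    simp only [hLr, hcj, ← hθj] at c2
    exact c2.le
  · rw [II_congr (ψ := fun z => φ (A z)) (hφA 0 zero_mem_O), ← div_div, r3, hLj]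
    simp only [hMr, hcj, ← hθj] at c3
    exact c3.le

end Crest.Agent.R220
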