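import Crest.Agent.R220.Defs

/-! # Row 220: the hyperbolic energy estimate (Lemma C of the blueprint) -/

set_option autoImplicit false

open Set MeasureTheory Filter Topology
open scoped ContDiff

namespace Crest.Agent.R220

lemma hyp_cross {ε c k p q : ℝ} (hε : 0 < ε) (hk : |k| ≤ c * ε) :
    -(c / 2 * (ε ^ 2 * p ^ 2 + q ^ 2)) ≤ k * p * q := by
  obtain ⟨h1, h2⟩ := abs_le.1 hk
  have h3 := mul_nonneg (show 0 ≤ c * ε + k by linarith) (sq_nonneg (ε * p + q))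
  have h4 := mul_nonneg (show 0 ≤ c * ε - k by linarith) (sq_nonneg (ε * p - q))
  have h5 : 0 ≤ ε * (4 * (c / 2 * (ε ^ 2 * p ^ 2 + q ^ 2) + k * p * q)) := by nlinarith
  have h6 := (mul_nonneg_iff_of_pos_left hε).1 h5
  linarith

/-- the source term -/
lemma hyp_source {ε t r p q G1 G2 S : ℝ} (hε : 0 < ε) (hε1 : ε ≤ 1 / 1000) (ht : 0 ≤ t)
    (ht1 : t ≤ 52 / 1000 * ε) (hr : |r| ≤ 1001 / 1000) (hS : 0 ≤ S)
    (h1 : |G1| ≤ ε ^ 2 / 1000 * (|p| + |q|) + S) (h2 : |G2| ≤ ε ^ 2 / 1000 * (|p| + |q|) + S) :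
    -(11 / 100 * (ε ^ 2 * p ^ 2 + q ^ 2) + 6 * (t ^ 2 / ε ^ 2) * S ^ 2) ≤
      r * t * (p * G2 + q * G1) := by
  have hP := abs_nonneg p
  have hQ := abs_nonneg q
  set A := ε ^ 2 / 1000 * (|p| + |q|) + S with hA
  have hA0 : 0 ≤ A := by positivity
  have h3 : |p * G2 + q * G1| ≤ (|p| + |q|) * A := by
    calc |p * G2 + q * G1| ≤ |p * G2| + |q * G1| := abs_add_le _ _
      _ = |p| * |G2| + |q| * |G1| := by rw [abs_mul, abs_mul]
      _ ≤ |p| * A + |q| * A := by gcongr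
      _ = (|p| + |q|) * A := by ring
  have h4 : |r * t * (p * G2 + q * G1)| ≤ 1001 / 1000 * t * ((|p| + |q|) * A) := by
    rw [abs_mul, abs_mul, abs_of_nonneg ht]
    gcongr
  have h5 := neg_abs_le (r * t * (p * G2 + q * G1))
  have hp2 : p ^ 2 = |p| ^ 2 := (sq_abs p).symm
  have hq2 : q ^ 2 = |q| ^ 2 := (sq_abs q).symm
  rw [hp2, hq2]
  set X := |p|
  set Y := |q|
  set u := t / ε with hu
  have htu : t = u * ε := by rw [hu]; field_simp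
  have hu0 : 0 ≤ u := by positivity
  have hu2 : t ^ 2 / ε ^ 2 = u ^ 2 := by rw [hu]; ring
  rw [hu2]
  have hε2 : ε ^ 2 ≤ 1 := by nlinarith
  have h6 : t * (X + Y) * S ≤ 1 / 10 * (ε ^ 2 * X ^ 2 + Y ^ 2) + 5 * u ^ 2 * S ^ 2 := by
    have a1 : u * ε * X * S ≤ 1 / 10 * (ε ^ 2 * X ^ 2) + 5 / 2 * u ^ 2 * S ^ 2 := by
      nlinarith [sq_nonneg (ε * X - 5 * u * S)]
    have a2 : u * Y * S ≤ 1 / 10 * Y ^ 2 + 5 / 2 * u ^ 2 * S ^ 2 := by
      nlinarith [sq_nonneg (Y - 5 * u * S)]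
    have a3 : u * ε * Y * S ≤ u * Y * S := by
      have : 0 ≤ u * Y * S := by positivity
      nlinarith
    rw [htu]; nlinarith
  have h7 : t * ((X + Y) * (ε ^ 2 / 1000 * (X + Y))) ≤ 1 / 1000 * (ε ^ 2 * X ^ 2 + Y ^ 2) := by
    have a1 : (X + Y) * (ε ^ 2 / 1000 * (X + Y)) ≤ 2 / 1000 * (ε ^ 2 * X ^ 2 + Y ^ 2) := by
      have b1 : (X + Y) ^ 2 ≤ 2 * X ^ 2 + 2 * Y ^ 2 := by nlinarith [sq_nonneg (X - Y)]
      have b2 : ε ^ 2 * (X + Y) ^ 2 ≤ ε ^ 2 * (2 * X ^ 2 + 2 * Y ^ 2) :=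
        mul_le_mul_of_nonneg_left b1 (sq_nonneg _)
      have b3 : ε ^ 2 * Y ^ 2 ≤ Y ^ 2 := by nlinarith [sq_nonneg Y]
      nlinarith
    have a2 : t ≤ 1 / 2 := by linarith
    have a3 : 0 ≤ (X + Y) * (ε ^ 2 / 1000 * (X + Y)) := by positivity
    nlinarith
  have h8 : t * ((X + Y) * A) ≤ 101 / 1000 * (ε ^ 2 * X ^ 2 + Y ^ 2) + 5 * u ^ 2 * S ^ 2 := by
    have : t * ((X + Y) * A) = t * ((X + Y) * (ε ^ 2 / 1000 * (X + Y))) + t * (X + Y) * S := by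
      rw [hA]; ring
    linarith
  have h9 : 0 ≤ ε ^ 2 * X ^ 2 + Y ^ 2 := by positivity
  have h10 : 0 ≤ u ^ 2 * S ^ 2 := by positivity
  nlinarith

/-- the pointwise inequality behind `hypEst` -/
lemma hyp_pointwise {ε t t' s ρ ρ1 Dρ ξ1 Dξ Dτ κ m p q G1 G2 S w : ℝ}
    (hε : 0 < ε) (hε1 : ε ≤ 1 / 1000) (ht : 0 ≤ t) (ht' : 0 ≤ t')
    (ht1 : t ≤ 52 / 1000 * ε) (ht1' : t' ≤ 52 / 1000 * ε) (hs : s = 1 ∨ s = -1)
    (hρ : |ρ - 1| ≤ 1 / 1000) (hρ1 : |ρ1| ≤ 1 / 1000) (hDρ : |Dρ| ≤ ε / 1000)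
    (hξ1 : |ξ1 - 1| ≤ 1 / 1000) (hDξ : |Dξ| ≤ 1001 / 1000 * ε ^ 2) (hDτ : |Dτ| ≤ 46 / 100 * ε)
    (hκ1 : κ ≤ -(93 / 100 * ε ^ 2)) (hκ2 : -(1001 / 1000 * ε ^ 2) ≤ κ) (hm : |m| ≤ ε ^ 2 / 50)
    (hS : 0 ≤ S) (hw : 0 ≤ w) (hcase : t ≤ t' / 20 ∨ 1 ≤ w)
    (h1 : |G1| ≤ ε ^ 2 / 1000 * (|p| + |q|) + S) (h2 : |G2| ≤ ε ^ 2 / 1000 * (|p| + |q|) + S) :
    ε ^ 2 / 10 * (t * t' ^ 2 * (p ^ 2 + q ^ 2)) ≤
      (t * t' ^ 2 * (ρ * ξ1 * (q ^ 2 - κ * p ^ 2) - s * ρ1 * t / 2 * (q ^ 2 - κ * p ^ 2)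
          - s * ρ * t * m * p ^ 2 + s * Dρ * t * p * q - 2 * s * ρ * Dτ * p * q
          + s * ρ * t * (p * G2 + q * G1))
        + t ^ 2 * t' * (-(ρ * ξ1 * (q ^ 2 - κ * p ^ 2)) + 2 * ρ * Dξ * p * q))
      + (w * (p ^ 2 + q ^ 2) + t ^ 3 * S ^ 2) := by
  have hsa : |s| = 1 := by rcases hs with rfl | rfl <;> simp
  obtain ⟨hρa, hρb⟩ := abs_le.1 hρ
  obtain ⟨hξa, hξb⟩ := abs_le.1 hξ1
  have hρabs : |ρ| ≤ 1001 / 1000 := abs_le.2 ⟨by linarith, by linarith⟩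
  have hp2 := sq_nonneg p
  have hq2 := sq_nonneg q
  have hε2 : ε ^ 2 ≤ 1 / 1000000 := by nlinarith
  set E := ε ^ 2 * p ^ 2 + q ^ 2 with hE
  have hE0 : 0 ≤ E := by positivity
  have hN1 : 93 / 100 * E ≤ q ^ 2 - κ * p ^ 2 := by
    have := mul_le_mul_of_nonneg_right hκ1 hp2
    rw [hE]; nlinarith
  have hN2 : q ^ 2 - κ * p ^ 2 ≤ 1001 / 1000 * E := by
    have := mul_le_mul_of_nonneg_right hκ2 hp2
    rw [hE]; nlinarith
  set N := q ^ 2 - κ * p ^ 2 with hN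
  have hN0 : 0 ≤ N := by linarith
  have hρξ1 : 998 / 1000 ≤ ρ * ξ1 := by nlinarith
  have hρξ2 : ρ * ξ1 ≤ 1003 / 1000 := by nlinarith
  have ht2 : t ≤ 1 / 10000 := by linarith
  have T1 : 92 / 100 * E ≤ ρ * ξ1 * N := by nlinarith
  have T2 : ρ * ξ1 * N ≤ 101 / 100 * E := by nlinarith
  have T3 : s * ρ1 * t / 2 * N ≤ 1 / 100 * E := by
    have a1 : |s * ρ1 * t / 2| ≤ 1 / 1000 := by
      rw [abs_div, abs_mul, abs_mul, hsa, abs_of_nonneg ht, abs_two]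
      have := mul_le_mul hρ1 ht2 ht (by norm_num)
      linarith
    have a2 := (le_abs_self _).trans a1
    nlinarith
  have T4 : s * ρ * t * m * p ^ 2 ≤ 1 / 100 * E := by
    have a1 : |s * ρ * t * m| ≤ ε ^ 2 / 100 := by
      rw [abs_mul, abs_mul, abs_mul, hsa, abs_of_nonneg ht]
      have b1 : 1 * |ρ| * t ≤ 1 / 2 := by nlinarith [abs_nonneg ρ]
      have b2 := mul_le_mul b1 hm (abs_nonneg _) (by norm_num)
      linarith
    have a2 := (le_abs_self _).trans a1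
    have a3 := mul_le_mul_of_nonneg_right a2 hp2
    rw [hE]; nlinarith
  have T5 : -(1 / 1000 / 2 * E) ≤ s * Dρ * t * p * q := by
    refine hyp_cross hε ?_
    rw [abs_mul, abs_mul, hsa, abs_of_nonneg ht]
    have := mul_le_mul hDρ (show t ≤ 1 by linarith) ht (by positivity)
    linarith
  have T6 : -(1 / 100 / 2 * E) ≤ 2 * ρ * Dξ * p * q := by
    refine hyp_cross hε ?_
    rw [abs_mul, abs_mul, abs_two]
    have b1 := mul_le_mul hρabs hDξ (abs_nonneg _) (by norm_num)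
    nlinarith
  have T7 : -(93 / 100 / 2 * E) ≤ -(2 * s * ρ * Dτ) * p * q := by
    refine hyp_cross hε ?_
    rw [abs_neg, abs_mul, abs_mul, abs_mul, abs_two, hsa]
    have b1 := mul_le_mul hρabs hDτ (abs_nonneg _) (by norm_num)
    nlinarith
  have T8 : -(11 / 100 * E + 6 * (t ^ 2 / ε ^ 2) * S ^ 2) ≤ s * ρ * t * (p * G2 + q * G1) :=
    hyp_source hε hε1 ht ht1 (by rw [abs_mul, hsa, one_mul]; exact hρabs) hS h1 h2
  have ha : 0 ≤ t * t' ^ 2 := by positivity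
  have hb : 0 ≤ t ^ 2 * t' := by positivity
  have M1 : 3 / 10 * E - 6 * (t ^ 2 / ε ^ 2) * S ^ 2 ≤
      ρ * ξ1 * N - s * ρ1 * t / 2 * N - s * ρ * t * m * p ^ 2 + s * Dρ * t * p * q
        - 2 * s * ρ * Dτ * p * q + s * ρ * t * (p * G2 + q * G1) := by linarith
  have M2 : -(102 / 100 * E) ≤ -(ρ * ξ1 * N) + 2 * ρ * Dξ * p * q := by linarith
  have M3 := mul_le_mul_of_nonneg_left M1 ha
  have M4 := mul_le_mul_of_nonneg_left M2 hb
  have M5 : t * t' ^ 2 * (6 * (t ^ 2 / ε ^ 2) * S ^ 2) ≤ t ^ 3 * S ^ 2 := by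
    have a1 : 6 * t' ^ 2 ≤ ε ^ 2 := by nlinarith
    have a2 : 6 * t' ^ 2 / ε ^ 2 ≤ 1 := by rw [div_le_one (by positivity)]; exact a1
    have a3 : t * t' ^ 2 * (6 * (t ^ 2 / ε ^ 2) * S ^ 2) = 6 * t' ^ 2 / ε ^ 2 * (t ^ 3 * S ^ 2) := by
      ring
    rw [a3]
    exact mul_le_of_le_one_left (by positivity) a2
  have M6 : ε ^ 2 * (p ^ 2 + q ^ 2) ≤ E := by rw [hE]; nlinarith
  have M7 := mul_le_mul_of_nonneg_left M6 ha
  have M8 : t ^ 2 * t' * (102 / 100 * E) ≤ 1 / 10 * (t * t' ^ 2 * E) + w * (p ^ 2 + q ^ 2) := by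
    rcases hcase with h | h
    · have a1 : t ^ 2 * t' ≤ t * t' ^ 2 / 20 := by
        have := mul_le_mul_of_nonneg_left h (mul_nonneg ht ht')
        nlinarith
      have a2 := mul_le_mul_of_nonneg_right a1 hE0
      have a3 : 0 ≤ w * (p ^ 2 + q ^ 2) := by positivity
      have a4 : 0 ≤ t * t' ^ 2 * E := by positivity
      nlinarith
    · have a1 : t ^ 2 * t' ≤ 1 / 2 := by
        have b1 : t ^ 2 ≤ 1 := by nlinarith
        have b2 : t' ≤ 1 / 2 := by linarith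
        nlinarith
      have a2 : E ≤ p ^ 2 + q ^ 2 := by rw [hE]; nlinarith
      have a3 := mul_le_mul_of_nonneg_right a1 hE0
      have a4 : 0 ≤ t * t' ^ 2 * E := by positivity
      have a5 : p ^ 2 + q ^ 2 ≤ w * (p ^ 2 + q ^ 2) := le_mul_of_one_le_left (by positivity) h
      nlinarith
  have a4 : 0 ≤ t * t' ^ 2 * E := by positivity
  nlinarith

lemma hyp_pp_one (x : ℝ) : pp 1 x = max x 0 := by simp [pp]

lemma contDiffOn_tau {ε s σ : ℝ} {ξ : P → ℝ} (hξ : ContDiffOn ℝ ∞ ξ O) :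
    ContDiffOn ℝ ∞ (tau ε s σ ξ) O := by
  unfold tau
  fun_prop

/-- location of the support of the multiplier -/
lemma hyp_support {ε s σ τ0 : ℝ} {μ κ ϱ ξ : P → ℝ} (hc : Coef ε μ κ ϱ ξ) (hs : s = 1 ∨ s = -1)
    (hσ : σ = 1 ∨ σ = -1) (hτ : τ0 ≤ ε / 800) {z : P} (hz : z ∈ O)
    (h1 : 0 < τ0 - tau ε s σ ξ z) (h2 : 0 < s * ξ z + ε / 20) :
    |z.1| ≤ 3 / 1000 ∧ |z.2 - σ / 40| ≤ 229 / 1000 ∧ |z.2| ≤ 254 / 1000 := by
  have hε := hc.hε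
  have hε1 := hc.hε1
  unfold tau at h1
  have hsq := sq_nonneg (z.2 - σ / 40)
  have h3 : ε * (z.2 - σ / 40) ^ 2 < ε * (52 / 1000) := by linarith
  have h4 : (z.2 - σ / 40) ^ 2 < 52 / 1000 := lt_of_mul_lt_mul_left h3 hε.le
  have h5 : |z.2 - σ / 40| ≤ 229 / 1000 := by
    exact abs_le.2 (abs_le_of_sq_le_sq' (by nlinarith) (by norm_num))
  have h6 : |ξ z| ≤ ε / 20 := by
    have : 0 ≤ ε * (z.2 - σ / 40) ^ 2 := by positivity
    rcases hs with rfl | rfl <;> exact abs_le.2 ⟨by linarith, by linarith⟩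
  have h7 := hc.ξ0 z hz
  have h8 : ‖z‖ < 2 := by simpa [O] using hz
  obtain ⟨a1, a2⟩ := abs_le.1 h5
  obtain ⟨a3, a4⟩ := abs_le.1 h6
  obtain ⟨a5, a6⟩ := abs_le.1 h7
  refine ⟨abs_le.2 ⟨by linarith, by linarith⟩, h5, ?_⟩
  rcases hσ with rfl | rfl <;> exact abs_le.2 ⟨by linarith, by linarith⟩

theorem hypEst (ε : ℝ) : ∃ C : ℝ, 0 < C ∧ ∀ {μ κ ϱ ξ : P → ℝ}, Coef ε μ κ ϱ ξ →
    ∀ {p q S ϖ : P → ℝ}, ContDiffOn ℝ ∞ p O → ContDiffOn ℝ ∞ q O →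
      ContinuousOn S O → ContinuousOn ϖ O → (∀ z ∈ K, 0 ≤ S z) → (∀ z ∈ K, 0 ≤ ϖ z) →
      (∀ z ∈ K, |F1 μ p q z| ≤ ε ^ 2 / 1000 * (|p z| + |q z|) + S z ∧
        |F2 μ κ p q z| ≤ ε ^ 2 / 1000 * (|p z| + |q z|) + S z) →
    ∀ {s σ τ0 : ℝ}, (s = 1 ∨ s = -1) → (σ = 1 ∨ σ = -1) → τ0 ≤ ε / 800 →
      (∀ z ∈ K, ‖z‖ ≤ 1 / 2 → s * ξ z ≤ - (ε / 1000) → 1 ≤ ϖ z) →
      ∫ z in K, pp 1 (τ0 - tau ε s σ ξ z) * pp 2 (s * ξ z + ε / 20) * (p z ^ 2 + q z ^ 2) ≤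
        C * ((∫ z in K, ϖ z * (p z ^ 2 + q z ^ 2)) +
          ∫ z in K, pp 3 (τ0 - tau ε s σ ξ z) * S z ^ 2) := by
  refine ⟨10 / ε ^ 2 + 1, by positivity, ?_⟩
  intro μ κ ϱ ξ hc p q S ϖ hp hq hS hϖ hS0 hϖ0 hF s σ τ0 hs hσ hτ hw
  have hε := hc.hε
  have hε1 := hc.hε1
  have hτs : ContDiffOn ℝ ∞ (tau ε s σ ξ) O := contDiffOn_tau hc.smξ
  have hg1 : ContDiffOn ℝ 1 (fun z => τ0 - tau ε s σ ξ z) O :=
    contDiffOn_const.sub (ContDiffOn.top_one hτs)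
  have hg2 : ContDiffOn ℝ 1 (fun z => s * ξ z + ε / 20) O :=
    (contDiffOn_const.mul (ContDiffOn.top_one hc.smξ)).add contDiffOn_const
  set β : P → ℝ := fun z => -s * ϱ z * pp 2 (s * ξ z + ε / 20) * pp 2 (τ0 - tau ε s σ ξ z) with hβ
  have hβ1 : ContDiffOn ℝ 1 β O :=
    ((contDiffOn_const.mul (ContDiffOn.top_one hc.smϱ)).mul
      (contDiffOn_pp_comp le_rfl hg2)).mul (contDiffOn_pp_comp le_rfl hg1)
  have hp1 := ContDiffOn.top_one hp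
  have hq1 := ContDiffOn.top_one hq
  have hμ1 := ContDiffOn.top_one hc.smμ
  have hκ1 := ContDiffOn.top_one hc.smκ
  set J2 : P → ℝ := fun z => β z * p z * q z with hJ2
  set J1 : P → ℝ := fun z => -(μ z * (β z * p z * q z)) + β z * (κ z * p z ^ 2 - q z ^ 2) / 2
    with hJ1
  have hJ2c : ContDiffOn ℝ 1 J2 O := (hβ1.mul hp1).mul hq1
  have hJ1c : ContDiffOn ℝ 1 J1 O :=
    (hμ1.mul hJ2c).neg.add ((hβ1.mul ((hκ1.mul (hp1.pow 2)).sub (hq1.pow 2))).div_const 2)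
  have hβ0 : ∀ z ∈ O, z ∉ K → β z = 0 := by
    intro z hz hzK
    by_cases h1 : 0 < τ0 - tau ε s σ ξ z
    · by_cases h2 : 0 < s * ξ z + ε / 20
      · obtain ⟨a1, -, a3⟩ := hyp_support hc hs hσ hτ hz h1 h2
        exact absurd (mem_K_iff.2 ⟨by linarith, by linarith⟩) hzK
      · simp only [hβ, pp_of_nonpos two_ne_zero (not_lt.1 h2), mul_zero, zero_mul]
    · simp only [hβ, pp_of_nonpos two_ne_zero (not_lt.1 h1), mul_zero]
  have hdiv := integral_div_eq_zero hJ1c hJ2c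
    (fun z hz hzK => by simp only [hJ1, hβ0 z hz hzK]; ring)
    (fun z hz hzK => by simp only [hJ2, hβ0 z hz hzK]; ring)
  -- pointwise inequality
  have hpt : ∀ z ∈ K, ε ^ 2 / 10 *
      (pp 1 (τ0 - tau ε s σ ξ z) * pp 2 (s * ξ z + ε / 20) * (p z ^ 2 + q z ^ 2)) ≤
      -(∂₁ J1 z + ∂₂ J2 z) +
        (ϖ z * (p z ^ 2 + q z ^ 2) + pp 3 (τ0 - tau ε s σ ξ z) * S z ^ 2) := by
    intro z hzK
    have hz := K_subset_O hzK
    have dp := diffAt_top isOpen_O hp hz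
    have dq := diffAt_top isOpen_O hq hz
    have dμ := diffAt_top isOpen_O hc.smμ hz
    have dκ := diffAt_top isOpen_O hc.smκ hz
    have dϱ := diffAt_top isOpen_O hc.smϱ hz
    have dξ := diffAt_top isOpen_O hc.smξ hz
    have dτ := diffAt_top isOpen_O hτs hz
    have dβ := diffAt_one isOpen_O hβ1 hz
    have dg1 := diffAt_one isOpen_O hg1 hz
    have dg2 := diffAt_one isOpen_O hg2 hz
    have hτd : ∀ v : P, dd v (tau ε s σ ξ) z = s * dd v ξ z + ε * (2 * (z.2 - σ / 40) * v.2) := by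
      intro v
      unfold tau
      rw [dd_add (by fun_prop) (by fun_prop), dd_const_mul _ dξ, dd_const_mul _ (by fun_prop),
        dd_sq (by fun_prop), dd_sub (by fun_prop) (by fun_prop), dd_snd, dd_const, sub_zero]
    have hβd : ∀ v : P, dd v β z =
        -s * (dd v ϱ z * pp 2 (s * ξ z + ε / 20) * pp 2 (τ0 - tau ε s σ ξ z)
          + ϱ z * (2 * pp 1 (s * ξ z + ε / 20) * (s * dd v ξ z)) * pp 2 (τ0 - tau ε s σ ξ z)
          - ϱ z * pp 2 (s * ξ z + ε / 20) *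
            (2 * pp 1 (τ0 - tau ε s σ ξ z) * dd v (tau ε s σ ξ) z)) := by
      intro v
      have e1' := differentiableAt_pp_comp dg1 (le_refl 2)
      have e2' := differentiableAt_pp_comp dg2 (le_refl 2)
      rw [hβ, dd_mul (by fun_prop) e1', dd_mul (by fun_prop) e2', dd_const_mul _ dϱ,
        dd_pp le_rfl dg1, dd_pp le_rfl dg2, dd_sub (by fun_prop) dτ,
        dd_add (by fun_prop) (by fun_prop), dd_const_mul _ dξ, dd_const, dd_const]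
      push_cast
      ring
    have hJ2d : ∀ v : P, dd v J2 z =
        dd v β z * p z * q z + β z * dd v p z * q z + β z * p z * dd v q z := by
      intro v
      rw [hJ2, dd_mul (by fun_prop) dq, dd_mul dβ dp]; ring
    have hJ1d : ∂₁ J1 z = -(∂₁ μ z * (β z * p z * q z) + μ z * ∂₁ J2 z) +
        (∂₁ β z * (κ z * p z ^ 2 - q z ^ 2) + β z * (∂₁ κ z * p z ^ 2 +
          κ z * (2 * p z * ∂₁ p z) - 2 * q z * ∂₁ q z)) / 2 := by
      rw [hJ1, dd_add (by fun_prop) (by fun_prop), dd_neg, dd_mul dμ (by fun_prop),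
        dd_div_const _ (by fun_prop), dd_mul dβ (by fun_prop), dd_sub (by fun_prop) (by fun_prop),
        dd_mul dκ (by fun_prop), dd_sq dp, dd_sq dq]
    obtain ⟨hF1, hF2⟩ := hF z hzK
    set t := max (τ0 - tau ε s σ ξ z) 0 with ht
    set t' := max (s * ξ z + ε / 20) 0 with ht'
    have hs2 : s ^ 2 = 1 := by rcases hs with rfl | rfl <;> norm_num
    have key : -(∂₁ J1 z + ∂₂ J2 z) =
        t * t' ^ 2 * (ϱ z * ∂₁ ξ z * (q z ^ 2 - κ z * p z ^ 2)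
          - s * ∂₁ ϱ z * t / 2 * (q z ^ 2 - κ z * p z ^ 2)
          - s * ϱ z * t * (Dt μ μ z + ∂₁ κ z / 2) * p z ^ 2
          + s * (Dt μ ϱ z + 2 * ∂₁ μ z * ϱ z) * t * p z * q z
          - 2 * s * ϱ z * (s * Dt μ ξ z + 2 * ε * (z.2 - σ / 40)) * p z * q z
          + s * ϱ z * t * (p z * F2 μ κ p q z + q z * F1 μ p q z))
        + t ^ 2 * t' * (-(ϱ z * ∂₁ ξ z * (q z ^ 2 - κ z * p z ^ 2))
          + 2 * ϱ z * Dt μ ξ z * p z * q z) := by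
      rw [hJ1d, hJ2d, hJ2d, hβd, hβd, hτd, hτd]
      simp only [hβ, pp, F1, F2, Dt, ← ht, ← ht', e1_snd, e2_snd, pow_one]
      rcases hs with rfl | rfl <;> ring
    rw [key]
    simp only [pp, ← ht, ← ht', pow_one]
    have ht0 : 0 ≤ t := le_max_right _ _
    have ht0' : 0 ≤ t' := le_max_right _ _
    have hrest : 0 ≤ ϖ z * (p z ^ 2 + q z ^ 2) + t ^ 3 * S z ^ 2 := by
      have := hϖ0 z hzK; positivity
    by_cases h1 : 0 < τ0 - tau ε s σ ξ z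
    swap
    · have : t = 0 := max_eq_right (not_lt.1 h1)
      rw [this] at hrest ⊢; linarith
    by_cases h2 : 0 < s * ξ z + ε / 20
    swap
    · have : t' = 0 := max_eq_right (not_lt.1 h2)
      rw [this]; linarith
    have e1' : t = τ0 - tau ε s σ ξ z := max_eq_left h1.le
    have e2' : t' = s * ξ z + ε / 20 := max_eq_left h2.le
    obtain ⟨a1, a2, a3⟩ := hyp_support hc hs hσ hτ hz h1 h2
    have hsq : 0 ≤ ε * (z.2 - σ / 40) ^ 2 := by positivity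
    have hε2 : 0 < ε ^ 2 := by positivity
    have hx2 : z.1 ^ 2 ≤ 1 / 1000 := by
      rw [← sq_abs]; nlinarith [abs_nonneg z.1]
    have hy2 : z.2 ^ 2 ≤ 65 / 1000 := by
      rw [← sq_abs]; nlinarith [abs_nonneg z.2]
    obtain ⟨k1, k2⟩ := abs_le.1 (hc.κ0 z hz)
    have hk1 : κ z ≤ -(93 / 100 * ε ^ 2) := by
      have : ε ^ 2 * kk z ≤ ε ^ 2 * (-(934 / 1000)) :=
        mul_le_mul_of_nonneg_left (by unfold kk rr; linarith) hε2.le
      linarith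
    have hk2 : -(1001 / 1000 * ε ^ 2) ≤ κ z := by
      have : ε ^ 2 * (-1) ≤ ε ^ 2 * kk z :=
        mul_le_mul_of_nonneg_left (by unfold kk rr; nlinarith) hε2.le
      linarith
    have hDξ : |Dt μ ξ z| ≤ 1001 / 1000 * ε ^ 2 :=
      (hc.ξD z hz).trans (abs_le.2 ⟨by linarith, by linarith⟩)
    have hsa : |s| = 1 := by rcases hs with rfl | rfl <;> simp
    refine hyp_pointwise hε hε1 ht0 ht0' ?_ ?_ hs (hc.ϱ0 z hz) (hc.ϱ1 z hz) (hc.ϱD z hz)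
      (hc.ξ1 z hz) hDξ ?_ hk1 hk2 ?_ (hS0 z hzK) (hϖ0 z hzK) ?_ hF1 hF2
    · rw [e1']; unfold tau; linarith
    · rw [e2']; unfold tau at h1; linarith
    · refine (abs_add_le _ _).trans ?_
      rw [abs_mul, hsa, one_mul, abs_mul, abs_mul, abs_two, abs_of_pos hε]
      have b1 : 2 * ε * |z.2 - σ / 40| ≤ 2 * ε * (229 / 1000) :=
        mul_le_mul_of_nonneg_left a2 (by positivity)
      nlinarith
    · obtain ⟨b1, b2⟩ := abs_le.1 (hc.μD z hz)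
      obtain ⟨b3, b4⟩ := abs_le.1 (hc.κ1 z hz)
      obtain ⟨b5, b6⟩ := abs_le.1 a1
      have b7 : ε ^ 2 * z.1 ≤ ε ^ 2 * (3 / 1000) := mul_le_mul_of_nonneg_left b6 hε2.le
      have b8 : ε ^ 2 * (-(3 / 1000)) ≤ ε ^ 2 * z.1 := mul_le_mul_of_nonneg_left b5 hε2.le
      exact abs_le.2 ⟨by nlinarith, by nlinarith⟩
    · by_cases h3 : s * ξ z ≤ -(ε / 1000)
      · right
        refine hw z hzK ?_ h3
        rw [norm_eq_max]; exact max_le (by linarith) (by linarith)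
      · left
        rw [e1', e2']; unfold tau; linarith
  -- integrate
  have cp := hp.continuousOn
  have cq := hq.continuousOn
  have cg1 := hg1.continuousOn
  have cg2 := hg2.continuousOn
  have i0 : IntegrableOn (fun z => pp 1 (τ0 - tau ε s σ ξ z) * pp 2 (s * ξ z + ε / 20) *
      (p z ^ 2 + q z ^ 2)) K :=
    ContinuousOn.integrableOn_K ((((continuous_pp 1).comp_continuousOn cg1).mul
      ((continuous_pp 2).comp_continuousOn cg2)).mul ((cp.pow 2).add (cq.pow 2)))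
  have i1 : IntegrableOn (fun z => ∂₁ J1 z + ∂₂ J2 z) K :=
    ContinuousOn.integrableOn_K ((continuousOn_dd isOpen_O _ hJ1c).add
      (continuousOn_dd isOpen_O _ hJ2c))
  have i2 : IntegrableOn (fun z => ϖ z * (p z ^ 2 + q z ^ 2)) K :=
    ContinuousOn.integrableOn_K (hϖ.mul ((cp.pow 2).add (cq.pow 2)))
  have i3 : IntegrableOn (fun z => pp 3 (τ0 - tau ε s σ ξ z) * S z ^ 2) K :=
    ContinuousOn.integrableOn_K (((continuous_pp 3).comp_continuousOn cg1).mul (hS.pow 2))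
  have hint := setIntegral_mono_on (i0.const_mul (ε ^ 2 / 10)) (i1.neg.add (i2.add i3))
    measurableSet_K hpt
  rw [integral_const_mul] at hint
  erw [integral_add i1.neg (i2.add i3), integral_neg, integral_add i2 i3, hdiv] at hint
  have n2 : 0 ≤ ∫ z in K, ϖ z * (p z ^ 2 + q z ^ 2) :=
    setIntegral_nonneg measurableSet_K fun z hz => by have := hϖ0 z hz; positivity
  have n3 : 0 ≤ ∫ z in K, pp 3 (τ0 - tau ε s σ ξ z) * S z ^ 2 :=
    setIntegral_nonneg measurableSet_K fun z hz => mul_nonneg (pp_nonneg _ _) (sq_nonneg _)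
  set I0 := ∫ z in K, pp 1 (τ0 - tau ε s σ ξ z) * pp 2 (s * ξ z + ε / 20) * (p z ^ 2 + q z ^ 2)
  set I2 := ∫ z in K, ϖ z * (p z ^ 2 + q z ^ 2)
  set I3 := ∫ z in K, pp 3 (τ0 - tau ε s σ ξ z) * S z ^ 2
  have h1 : I0 = 10 / ε ^ 2 * (ε ^ 2 / 10 * I0) := by field_simp
  have h2 : 10 / ε ^ 2 * (ε ^ 2 / 10 * I0) ≤ 10 / ε ^ 2 * (I2 + I3) :=
    mul_le_mul_of_nonneg_left (by linarith) (by positivity)
  nlinarith

end Crest.Agent.R220
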