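import Crest.Agent.R220.Fine
import Crest.Agent.R220.Bd

/-! # Row 220: auxiliary lemmas for `Pair.lean` -/

set_option autoImplicit false

open Set MeasureTheory Filter Topology
open scoped ContDiff

namespace Crest.Agent.R220

namespace PairAux

/-! ### real inequalities -/

lemma q'_le {p q q' μ : ℝ} (hμ : |μ| ≤ 1 / 1000) (hq : q = q' - μ * p) :
    |q'| ≤ |q| + |p| / 1000 := by
  have h1 : q' = q + μ * p := by rw [hq]; ring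
  have h2 : |q + μ * p| ≤ |q| + 1 / 1000 * |p| := by
    have hp : |p| ≤ |p| := le_rfl
    have hq : |q| ≤ |q| := le_rfl
    bd
  rw [h1]; linarith

lemma r_le {Lb M Nn p q q' r μ S : ℝ} (hLb : |Lb - 1| ≤ 1 / 10 ^ 4) (hM : |M| ≤ 1 / 10 ^ 4)
    (hN : |Nn| ≤ 1 / 10 ^ 4) (hμ : |μ| ≤ 1 / 1000) (hq' : |q'| ≤ 1 / 10 ^ 4)
    (hq : q = q' - μ * p) (hr : r * Lb = S + 2 * M * q' - Nn * p + q' * q') :
    |r| ≤ (|p| + |q|) / 1000 + 2 * |S| := by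
  have h0 := q'_le hμ hq
  have h1 : |S + 2 * M * q' - Nn * p + q' * q'| ≤
      |S| + |2| * (1 / 10 ^ 4) * |q'| + 1 / 10 ^ 4 * |p| + 1 / 10 ^ 4 * |q'| :=
    bd_add (bd_sub (bd_add le_rfl (bd_mul (bd_mul le_rfl hM) le_rfl)) (bd_mul hN le_rfl))
      (bd_mul hq' le_rfl)
  have hL : 9999 / 10000 ≤ Lb := by have := (abs_le.1 hLb).1; linarith
  rw [← hr, abs_mul, abs_of_pos (by linarith : 0 < Lb), abs_two] at h1
  have h2 : |r| * (9999 / 10000) ≤ |r| * Lb := mul_le_mul_of_nonneg_left hL (abs_nonneg _)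
  have := abs_nonneg p
  have := abs_nonneg q
  have := abs_nonneg S
  linarith

lemma exp_two_le {x : ℝ} (hx : |x| ≤ 1 / 10) : |Real.exp (2 * x)| ≤ 2 := by
  have h1 : |2 * x| ≤ 1 := by rw [abs_mul, abs_two]; linarith
  have h2 := Real.abs_exp_sub_one_le h1
  rw [abs_mul, abs_two] at h2
  rw [abs_of_pos (Real.exp_pos _)]
  have := (abs_le.1 h2).2
  linarith

lemma exp_neg_two_le {x : ℝ} (hx : |x| ≤ 1 / 10) : |Real.exp (-2 * x)| ≤ 2 := by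
  have := exp_two_le (x := -x) (by rwa [abs_neg])
  rwa [show 2 * -x = -2 * x by ring] at this

lemma exp_two_sub_one_le {x : ℝ} (hx : |x| ≤ 1 / 10) : |Real.exp (2 * x) - 1| ≤ 4 * |x| := by
  have h1 : |2 * x| ≤ 1 := by rw [abs_mul, abs_two]; linarith
  have h2 := Real.abs_exp_sub_one_le h1
  rw [abs_mul, abs_two] at h2
  linarith

lemma abs_le_two_of_sq {x y u e : ℝ} (h : x * x + y * y + u * u = e) (he : |e| ≤ 2) :
    |x| ≤ 2 ∧ |y| ≤ 2 ∧ |u| ≤ 2 := by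
  have h2 := (abs_le.1 he).2
  refine ⟨?_, ?_, ?_⟩ <;> refine abs_le.2 ⟨?_, ?_⟩ <;> nlinarith [mul_self_nonneg x,
    mul_self_nonneg y, mul_self_nonneg u]

lemma sq_le_of_abs_le {x c A Λ : ℝ} (hA : A ^ 2 = Λ) (h : |x| ≤ c * A) : x ^ 2 ≤ c ^ 2 * Λ := by
  rw [← hA, ← mul_pow, ← sq_abs]
  exact pow_le_pow_left₀ (abs_nonneg _) h 2

lemma sum3_le {x y : Fin 3 → ℝ} {A B : ℝ} (hx : ∀ c, |x c| ≤ A) (hy : ∀ c, |y c| ≤ B) :
    |x 0 * y 0 + x 1 * y 1 + x 2 * y 2| ≤ 3 * (A * B) :=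
  (bd_add (bd_add (bd_mul (hx 0) (hy 0)) (bd_mul (hx 1) (hy 1))) (bd_mul (hx 2) (hy 2))).trans
    (le_of_eq (by ring))

lemma pot_aux {a1 a2 b1 b2 na nb g2 n1 : Fin 3 → ℝ} {s t X Y Z e e' lam A : ℝ} (hlam : lam ≠ 0)
    (h1 : na 0 * a1 0 + na 1 * a1 1 + na 2 * a1 2 = 0)
    (h2 : na 0 * a2 0 + na 1 * a2 1 + na 2 * a2 2 = 0)
    (h3 : na 0 * na 0 + na 1 * na 1 + na 2 * na 2 = 1)
    (h4 : a1 0 * a1 0 + a1 1 * a1 1 + a1 2 * a1 2 = e')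
    (h5 : a1 0 * a2 0 + a1 1 * a2 1 + a1 2 * a2 2 = 0) (hee : e * e' = 1)
    (hg : ∀ c, g2 c = s * b1 c + t * b2 c + lam * X * nb c)
    (hn : ∀ c, n1 c = - e * (lam * Y * a1 c + lam * Z * a2 c))
    (hs : |s| ≤ 1) (ht : |t| ≤ 1) (hX : |X| ≤ 2) (hY : |Y| ≤ 2) (hZ : |Z| ≤ 2) (he : |e| ≤ 2)
    (hna : ∀ c, |na c| ≤ 1) (ha1 : ∀ c, |a1 c| ≤ 2) (ha2 : ∀ c, |a2 c| ≤ 2)
    (hW1 : ∀ c, |b1 c - a1 c| ≤ A) (hW2 : ∀ c, |b2 c - a2 c| ≤ A)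
    (hnn : ∀ c, |nb c - na c| ≤ 16 * A) :
    |((g2 0 * na 0 + g2 1 * na 1 + g2 2 * na 2) + (b1 0 * n1 0 + b1 1 * n1 1 + b1 2 * n1 2)) / lam
      - (X - Y)| ≤ (6 * |lam⁻¹| + 144) * A := by
  have hl : lam⁻¹ * lam = 1 := inv_mul_cancel₀ hlam
  have key : ((g2 0 * na 0 + g2 1 * na 1 + g2 2 * na 2)
      + (b1 0 * n1 0 + b1 1 * n1 1 + b1 2 * n1 2)) / lam - (X - Y) =
      lam⁻¹ * (s * ((b1 0 - a1 0) * na 0 + (b1 1 - a1 1) * na 1 + (b1 2 - a1 2) * na 2)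
        + t * ((b2 0 - a2 0) * na 0 + (b2 1 - a2 1) * na 1 + (b2 2 - a2 2) * na 2))
      + X * ((nb 0 - na 0) * na 0 + (nb 1 - na 1) * na 1 + (nb 2 - na 2) * na 2)
      - e * (Y * ((b1 0 - a1 0) * a1 0 + (b1 1 - a1 1) * a1 1 + (b1 2 - a1 2) * a1 2)
        + Z * ((b1 0 - a1 0) * a2 0 + (b1 1 - a1 1) * a2 1 + (b1 2 - a1 2) * a2 2)) := by
    rw [div_eq_mul_inv, hg 0, hg 1, hg 2, hn 0, hn 1, hn 2]
    linear_combination lam⁻¹ * s * h1 + lam⁻¹ * t * h2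
      + (X * (nb 0 * na 0 + nb 1 * na 1 + nb 2 * na 2)
        - e * (Y * (b1 0 * a1 0 + b1 1 * a1 1 + b1 2 * a1 2)
          + Z * (b1 0 * a2 0 + b1 1 * a2 1 + b1 2 * a2 2))) * hl
      + X * h3 - e * Y * h4 - Y * hee - e * Z * h5
  rw [key]
  refine (bd_sub (bd_add (bd_mul (le_refl |lam⁻¹|) (bd_add
      (bd_mul hs (sum3_le (x := fun c => b1 c - a1 c) hW1 hna))
      (bd_mul ht (sum3_le (x := fun c => b2 c - a2 c) hW2 hna))))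
      (bd_mul hX (sum3_le (x := fun c => nb c - na c) hnn hna)))
    (bd_mul he (bd_add (bd_mul hY (sum3_le (x := fun c => b1 c - a1 c) hW1 ha1))
      (bd_mul hZ (sum3_le (x := fun c => b1 c - a1 c) hW1 ha2))))).trans (le_of_eq ?_)
  ring

lemma hess_aux {s t lam Xa Xb a1 a2 b1 b2 na nb A B : ℝ} (hs : |s| ≤ 1) (ht : |t| ≤ 1)
    (hX : |Xa| ≤ 2) (hB : |Xb - Xa| ≤ B) (hnb : |nb| ≤ 1) (h1 : |b1 - a1| ≤ A)
    (h2 : |b2 - a2| ≤ A) (hn : |nb - na| ≤ 16 * A) :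
    |(s * b1 + t * b2 + lam * Xb * nb) - (s * a1 + t * a2 + lam * Xa * na)| ≤
      (2 + 32 * |lam|) * (A + B) := by
  have key : (s * b1 + t * b2 + lam * Xb * nb) - (s * a1 + t * a2 + lam * Xa * na) =
      s * (b1 - a1) + t * (b2 - a2) + lam * ((Xb - Xa) * nb + Xa * (nb - na)) := by ring
  have hA : 0 ≤ A := (abs_nonneg _).trans h1
  have hB0 : 0 ≤ B := (abs_nonneg _).trans hB
  have := bd_add (bd_add (bd_mul hs h1) (bd_mul ht h2))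
    (bd_mul (le_refl |lam|) (bd_add (bd_mul hB hnb) (bd_mul hX hn)))
  have e1 : 0 ≤ |lam| * B := by positivity
  rw [key]
  linarith

lemma hess_sq {x y c A p q Λ : ℝ} (hA : A ^ 2 = Λ) (hx : |x| ≤ c * (A + (|p| + |q|)))
    (hy : |y| ≤ c * (A + (|p| + |q|))) : x ^ 2 + y ^ 2 ≤ 6 * c ^ 2 * (p ^ 2 + q ^ 2 + Λ) := by
  have h1 := sq_le_of_abs_le rfl hx
  have h2 := sq_le_of_abs_le rfl hy
  have h3 : (A + (|p| + |q|)) ^ 2 ≤ 3 * (p ^ 2 + q ^ 2 + Λ) := by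
    rw [← hA, ← sq_abs p, ← sq_abs q]
    nlinarith [sq_nonneg (A - |p|), sq_nonneg (A - |q|), sq_nonneg (|p| - |q|)]
  have h4 := mul_le_mul_of_nonneg_left h3 (sq_nonneg c)
  linarith

end PairAux

namespace Surf
variable {N L0 w ε : ℝ}

open PairAux

lemma pa_iso (a : Surf N L0 w ε) : Iso O a.ψ a.G := a.iso

lemma pa_ψ_eq (a b : Surf N L0 w ε) (z : P) : b.ψ z = a.ψ z + dχ a b z := by
  simp only [ψ, psi, dχ]; ring

lemma pa_smχ (a : Surf N L0 w ε) : ContDiffOn ℝ ∞ a.χ O := a.qχ.1.1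

lemma pa_sm_dχ (a b : Surf N L0 w ε) : ContDiffOn ℝ ∞ (dχ a b) O := b.pa_smχ.sub a.pa_smχ

lemma pa_dψ (a b : Surf N L0 w ε) (v : P) {z : P} (hz : z ∈ O) :
    dd v b.ψ z = dd v a.ψ z + dd v (dχ a b) z := by
  rw [show b.ψ = fun x => a.ψ x + dχ a b x from funext (pa_ψ_eq a b)]
  exact dd_add (diffAt_top isOpen_O a.pa_iso.smψ hz) (diffAt_top isOpen_O (pa_sm_dχ a b) hz)

lemma pa_ddψ (a b : Surf N L0 w ε) (v : P) {z : P} (hz : z ∈ O) :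
    dd v (dd v b.ψ) z = dd v (dd v a.ψ) z + dd v (dd v (dχ a b)) z := by
  rw [dd_congr_on isOpen_O (fun x hx => pa_dψ a b v hx) hz]
  exact dd_add (diffAt_top isOpen_O (contDiffOn_dd isOpen_O v a.pa_iso.smψ) hz)
    (diffAt_top isOpen_O (contDiffOn_dd isOpen_O v (pa_sm_dχ a b)) hz)

lemma pa_lapψ (a b : Surf N L0 w ε) {z : P} (hz : z ∈ O) :
    lap b.ψ z = lap a.ψ z + lap (dχ a b) z := by
  simp only [lap, pa_ddψ a b _ hz]; ring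

lemma pa_sm_lap {f : P → ℝ} (hf : ContDiffOn ℝ ∞ f O) : ContDiffOn ℝ ∞ (lap f) O :=
  (contDiffOn_dd isOpen_O e1 (contDiffOn_dd isOpen_O e1 hf)).add
    (contDiffOn_dd isOpen_O e2 (contDiffOn_dd isOpen_O e2 hf))

lemma pa_lam_ne (par : Par L0 w ε) : w * L0 ≠ 0 := mul_ne_zero par.hw.ne' par.hL0

lemma pa_tau_le (h0 : 0 < ε) (h1 : ε ≤ 1 / 1000) : ε ^ 2 / 10 ^ 5 ≤ 1 / 10 ^ 11 := by
  have : ε ^ 2 ≤ (1 / 1000) ^ 2 := pow_le_pow_left₀ h0.le h1 2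
  norm_num at this ⊢; linarith

lemma Fine.pa_ψ {a : Surf N L0 w ε} (ha : a.Fine) {z : P} (hz : z ∈ O) :
    |a.ψ z| ≤ 1 / 10 ^ 11 := (ha.ψ0 z hz).trans (pa_tau_le ha.coef.hε ha.coef.hε1)

lemma Fine.pa_L_ge {a : Surf N L0 w ε} (ha : a.Fine) {z : P} (hz : z ∈ O) :
    9999 / 10000 ≤ a.L z := by
  have := (abs_le.1 (ha.L0' z hz)).1; linarith

lemma Fine.pa_L_ne {a : Surf N L0 w ε} (ha : a.Fine) {z : P} (hz : z ∈ O) : a.L z ≠ 0 := by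
  have := ha.pa_L_ge hz; positivity

lemma Fine.pa_L_abs {a : Surf N L0 w ε} (ha : a.Fine) {z : P} (hz : z ∈ O) :
    |a.L z| ≤ 10001 / 10000 := by
  have := abs_le.1 (ha.L0' z hz)
  refine abs_le.2 ⟨?_, ?_⟩ <;> linarith [this.1, this.2]

lemma Fine.pa_Linv {a : Surf N L0 w ε} (ha : a.Fine) {z : P} (hz : z ∈ O) :
    |(a.L z)⁻¹| ≤ 2 := by
  have h := ha.pa_L_ge hz
  rw [abs_of_pos (by positivity), inv_le_comm₀ (by positivity) (by positivity)]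
  linarith

lemma Fine.pa_D1 {a : Surf N L0 w ε} (ha : a.Fine) {z : P} (hz : z ∈ O) (c : Fin 3) :
    |∂₁ (a.G c) z| ≤ 2 := by
  have h := abs_le_two_of_sq (a.pa_iso.h11 z hz)
    (exp_two_le ((ha.pa_ψ hz).trans (by norm_num)))
  fin_cases c
  · exact h.1
  · exact h.2.1
  · exact h.2.2

lemma Fine.pa_D2 {a : Surf N L0 w ε} (ha : a.Fine) {z : P} (hz : z ∈ O) (c : Fin 3) :
    |∂₂ (a.G c) z| ≤ 2 := by
  have h := abs_le_two_of_sq (a.pa_iso.h22 z hz)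
    (exp_two_le ((ha.pa_ψ hz).trans (by norm_num)))
  fin_cases c
  · exact h.1
  · exact h.2.1
  · exact h.2.2

lemma pa_dχ_le {a b : Surf N L0 w ε} (ha : a.Fine) (hb : b.Fine) {z : P} (hz : z ∈ O) :
    |dχ a b z| ≤ 1 / 10 := by
  have h1 : dχ a b z = b.ψ z - a.ψ z := by rw [pa_ψ_eq a b z]; ring
  have h2 := bd_sub (hb.pa_ψ hz) (ha.pa_ψ hz)
  rw [h1]; refine h2.trans (by norm_num)

lemma pa_II11 (par : Par L0 w ε) (a : Surf N L0 w ε) (z : P) :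
    II e1 e1 a.ψ a.G z = w * L0 * a.L z := by
  rw [L]; field_simp [pa_lam_ne par, par.hw.ne', par.hL0]
lemma pa_II12 (par : Par L0 w ε) (a : Surf N L0 w ε) (z : P) :
    II e1 e2 a.ψ a.G z = w * L0 * a.M z := by
  rw [M]; field_simp [pa_lam_ne par, par.hw.ne', par.hL0]
lemma pa_II22 (par : Par L0 w ε) (a : Surf N L0 w ε) (z : P) :
    II e2 e2 a.ψ a.G z = w * L0 * a.Nn z := by
  rw [Nn]; field_simp [pa_lam_ne par, par.hw.ne', par.hL0]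

/-- the size of `∇(G_b - G_a)` -/
lemma pa_W_le (a b : Surf N L0 w ε) (i : Bool × Fin 3) (z : P) :
    |W a b i z| ≤ Real.sqrt (Lam a b z) := by
  refine Real.abs_le_sqrt ?_
  exact Finset.single_le_sum (f := fun i => W a b i z ^ 2) (fun _ _ => sq_nonneg _)
    (Finset.mem_univ i)

lemma pa_W1_le (a b : Surf N L0 w ε) (c : Fin 3) (z : P) :
    |∂₁ (b.G c) z - ∂₁ (a.G c) z| ≤ Real.sqrt (Lam a b z) := by
  simpa [W] using pa_W_le a b (true, c) z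

lemma pa_W2_le (a b : Surf N L0 w ε) (c : Fin 3) (z : P) :
    |∂₂ (b.G c) z - ∂₂ (a.G c) z| ≤ Real.sqrt (Lam a b z) := by
  simpa [W] using pa_W_le a b (false, c) z

lemma pa_cross_aux {e a1 a2 a3 a4 b1 b2 b3 b4 A : ℝ} (he : |e| ≤ 2) (h1 : |b1 - a1| ≤ A)
    (h2 : |b2 - a2| ≤ A) (h3 : |b3 - a3| ≤ A) (h4 : |b4 - a4| ≤ A) (ha1 : |a1| ≤ 2)
    (ha3 : |a3| ≤ 2) (hb2 : |b2| ≤ 2) (hb4 : |b4| ≤ 2) :
    |e * (b1 * b2 - b3 * b4) - e * (a1 * a2 - a3 * a4)| ≤ 16 * A := by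
  have : e * (b1 * b2 - b3 * b4) - e * (a1 * a2 - a3 * a4) =
      e * ((b1 - a1) * b2 + a1 * (b2 - a2) - (b3 - a3) * b4 - a3 * (b4 - a4)) := by ring
  rw [this]
  refine (bd_mul he (bd_sub (bd_sub (bd_add (bd_mul h1 hb2) (bd_mul ha1 h2)) (bd_mul h3 hb4))
    (bd_mul ha3 h4))).trans (le_of_eq ?_)
  ring

/-- the normals are close when the conformal factors agree -/
lemma pa_n_sub {a b : Surf N L0 w ε} (ha : a.Fine) (hb : b.Fine) {z : P} (hz : z ∈ O)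
    (hχ : a.χ z = b.χ z) (c : Fin 3) :
    |b.n c z - a.n c z| ≤ 16 * Real.sqrt (Lam a b z) := by
  have hψ : b.ψ z = a.ψ z := by rw [pa_ψ_eq a b z, dχ, hχ]; ring
  have he := exp_neg_two_le ((ha.pa_ψ hz).trans (by norm_num : (1 : ℝ) / 10 ^ 11 ≤ 1 / 10))
  simp only [n, nrm, hψ]
  fin_cases c
  · exact pa_cross_aux he (pa_W1_le a b 1 z) (pa_W2_le a b 2 z) (pa_W1_le a b 2 z)
      (pa_W2_le a b 1 z) (ha.pa_D1 hz 1) (ha.pa_D1 hz 2) (hb.pa_D2 hz 2) (hb.pa_D2 hz 1)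
  · exact pa_cross_aux he (pa_W1_le a b 2 z) (pa_W2_le a b 0 z) (pa_W1_le a b 0 z)
      (pa_W2_le a b 2 z) (ha.pa_D1 hz 2) (ha.pa_D1 hz 0) (hb.pa_D2 hz 0) (hb.pa_D2 hz 2)
  · exact pa_cross_aux he (pa_W1_le a b 0 z) (pa_W2_le a b 1 z) (pa_W1_le a b 1 z)
      (pa_W2_le a b 0 z) (ha.pa_D1 hz 0) (ha.pa_D1 hz 1) (hb.pa_D2 hz 1) (hb.pa_D2 hz 0)

/-- derivative of an inner product -/
lemma pa_dd_dot {A B : Fin 3 → P → ℝ} {z : P} (v : P) (hA : ∀ c, DifferentiableAt ℝ (A c) z)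
    (hB : ∀ c, DifferentiableAt ℝ (B c) z) :
    dd v (dot A B) z = dot (D v A) B z + dot A (D v B) z := by
  have : dot A B = fun x => A 0 x * B 0 x + A 1 x * B 1 x + A 2 x * B 2 x := rfl
  rw [this, dd_add (((hA 0).fun_mul (hB 0)).fun_add ((hA 1).fun_mul (hB 1))) ((hA 2).fun_mul (hB 2)),
    dd_add ((hA 0).fun_mul (hB 0)) ((hA 1).fun_mul (hB 1)), dd_mul (hA 0) (hB 0),
    dd_mul (hA 1) (hB 1), dd_mul (hA 2) (hB 2)]
  simp only [dot, D]; ring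

end Surf

end Crest.Agent.R220
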