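import Crest.Agent.R220.Fine
import Crest.Agent.R220.PairAux

/-! # Row 220: the linear system satisfied by the difference of two surfaces -/

set_option autoImplicit false

open Set MeasureTheory Filter Topology
open scoped ContDiff

namespace Crest.Agent.R220

namespace Surf
variable {N L0 w ε : ℝ}

open PairAux

lemma sm_dP {a b : Surf N L0 w ε} (ha : a.Fine) (hb : b.Fine) : ContDiffOn ℝ ∞ (dP a b) O := by
  exact hb.smL.sub ha.smL
lemma sm_dM {a b : Surf N L0 w ε} (ha : a.Fine) (hb : b.Fine) : ContDiffOn ℝ ∞ (dM a b) O := by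
  exact hb.smM.sub ha.smM
lemma sm_dR {a b : Surf N L0 w ε} (ha : a.Fine) (hb : b.Fine) : ContDiffOn ℝ ∞ (dR a b) O := by
  exact hb.smN.sub ha.smN
lemma sm_dQ {a b : Surf N L0 w ε} (ha : a.Fine) (hb : b.Fine) : ContDiffOn ℝ ∞ (dQ a b) O := by
  exact (sm_dM ha hb).sub (ha.coef.smμ.mul (sm_dP ha hb))
lemma sm_dχ (a b : Surf N L0 w ε) : ContDiffOn ℝ ∞ (dχ a b) O := by
  exact pa_sm_dχ a b
lemma sm_uu (a b : Surf N L0 w ε) : ContDiffOn ℝ ∞ (uu a b) O := by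
  have h1 : ∀ c, ContDiffOn ℝ ∞ (D e1 b.G c) O := fun c =>
    contDiffOn_dd isOpen_O e1 (b.iso.smG c)
  have h2 : ∀ c, ContDiffOn ℝ ∞ (a.n c) O := fun c => a.pa_iso.sm_nrm c
  exact ((((h1 0).mul (h2 0)).add ((h1 1).mul (h2 1))).add ((h1 2).mul (h2 2))).div_const _
lemma sm_W (a b : Surf N L0 w ε) (i : Bool × Fin 3) : ContDiffOn ℝ ∞ (W a b i) O := by
  obtain ⟨j, c⟩ := i
  cases j
  · exact (contDiffOn_dd isOpen_O e2 (b.iso.smG c)).sub (contDiffOn_dd isOpen_O e2 (a.iso.smG c))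
  · exact (contDiffOn_dd isOpen_O e1 (b.iso.smG c)).sub (contDiffOn_dd isOpen_O e1 (a.iso.smG c))
lemma sm_Lam (a b : Surf N L0 w ε) : ContDiffOn ℝ ∞ (Lam a b) O := by
  exact ContDiffOn.sum fun i _ => (sm_W a b i).pow 2
lemma Lam_nonneg (a b : Surf N L0 w ε) (z : P) : 0 ≤ Lam a b z := by
  exact Finset.sum_nonneg fun _ _ => sq_nonneg _
lemma Lam_le (a b : Surf N L0 w ε) {z : P} (hz : z ∈ O) : Lam a b z ≤ 24 * N ^ 2 := by
  have h : ∀ i, W a b i z ^ 2 ≤ 4 * N ^ 2 := by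
    rintro ⟨j, c⟩
    have h1 : |W a b (j, c) z| ≤ 2 * N := by
      cases j
      · have := bd_sub ((b.qG2 c).1.2 z hz) ((a.qG2 c).1.2 z hz)
        rw [← two_mul] at this
        exact this
      · have := bd_sub ((b.qG1 c).1.2 z hz) ((a.qG1 c).1.2 z hz)
        rw [← two_mul] at this
        exact this
    have := sq_le_of_abs_le (A := N) rfl h1
    linarith
  have := Finset.sum_le_card_nsmul Finset.univ (fun i => W a b i z ^ 2) (4 * N ^ 2)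
    fun i _ => h i
  simp only [Finset.card_univ, Fintype.card_prod, Fintype.card_bool, Fintype.card_fin,
    nsmul_eq_mul] at this
  rw [Lam]
  push_cast at this
  linarith
lemma W_sub (a b c : Surf N L0 w ε) (i : Bool × Fin 3) (z : P) :
    W a c i z - W a b i z = W b c i z := by
  simp only [W]
  split_ifs <;> ring
lemma continuousOn_sd {f : P → ℝ} (hf : ContDiffOn ℝ ∞ f O) : ContinuousOn (sd f) O := by
  have h1 := contDiffOn_dd isOpen_O e1 hf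
  have h2 := contDiffOn_dd isOpen_O e2 hf
  have h3 := pa_sm_lap hf
  have h4 := contDiffOn_dd isOpen_O e1 h3
  exact (((hf.continuousOn.abs.add h1.continuousOn.abs).add h2.continuousOn.abs).add
    h3.continuousOn.abs).add h4.continuousOn.abs
lemma sd_eq_zero {f : P → ℝ} {z : P} (hf : ∀ᶠ x in 𝓝 z, f x = 0) : sd f z = 0 := by
  have key : ∀ (g : P → ℝ) (v : P), (∀ᶠ x in 𝓝 z, g x = 0) → ∀ᶠ x in 𝓝 z, dd v g x = 0 := by
    intro g v hg
    filter_upwards [hg.eventually_nhds] with x hx using dd_eq_zero_of_eventually hx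
  have h3 : ∀ᶠ x in 𝓝 z, lap f x = 0 := by
    filter_upwards [key _ e1 (key _ e1 hf), key _ e2 (key _ e2 hf)] with x h1 h2
    rw [lap, h1, h2, add_zero]
  rw [sd, hf.self_of_nhds, (key _ e1 hf).self_of_nhds, (key _ e2 hf).self_of_nhds,
    h3.self_of_nhds, (key _ e1 h3).self_of_nhds]
  simp

/-- difference of the Gauss determinants -/
noncomputable def S0 (a b : Surf N L0 w ε) (z : P) : ℝ :=
  (b.L z * b.Nn z - b.M z ^ 2) - (a.L z * a.Nn z - a.M z ^ 2)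

lemma pa_S0_eq (par : Par L0 w ε) (a b : Surf N L0 w ε) {z : P} (hz : z ∈ O) :
    S0 a b z = (Real.exp (2 * dχ a b z) - 1) * (a.L z * a.Nn z - a.M z * a.M z)
      - ((w * L0) ^ 2)⁻¹ * (Real.exp (2 * b.ψ z) * lap (dχ a b) z) := by
  have hga := a.gauss par hz
  have hgb := b.gauss par hz
  have he : Real.exp (2 * b.ψ z) = Real.exp (2 * dχ a b z) * Real.exp (2 * a.ψ z) := by
    rw [← Real.exp_add, pa_ψ_eq a b z]; congr 1; ring
  rw [S0, hgb, ← sq, hga, pa_lapψ a b hz, he]; ring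

lemma pa_r_eq (a b : Surf N L0 w ε) (z : P) :
    dR a b z * b.L z = S0 a b z + 2 * a.M z * dM a b z - a.Nn z * dP a b z
      + dM a b z * dM a b z := by
  simp only [dR, S0, dM, dP]; ring

lemma pa_dM_le {a b : Surf N L0 w ε} (ha : a.Fine) {z : P} (hz : z ∈ O) :
    |dM a b z| ≤ |dQ a b z| + |dP a b z| / 1000 :=
  q'_le (ha.coef.μ0 z hz) rfl

lemma pa_dR_le {a b : Surf N L0 w ε} (ha : a.Fine) (hb : b.Fine)
    (hc : Close a b (ε ^ 2 / 10 ^ 5)) {z : P} (hz : z ∈ K) :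
    |dR a b z| ≤ (|dP a b z| + |dQ a b z|) / 1000 + 2 * |S0 a b z| := by
  have hzO := K_subset_O hz
  refine r_le (hb.L0' z hzO) (ha.M0 z hzO) (ha.N0 z hzO) (ha.coef.μ0 z hzO) ?_ rfl (pa_r_eq a b z)
  exact (hc z hz).2.1.trans ((pa_tau_le ha.coef.hε ha.coef.hε1).trans (by norm_num))

lemma pa_c1 {a b : Surf N L0 w ε} (ha : a.Fine) (hb : b.Fine) {z : P} (hz : z ∈ O) :
    ∂₂ (dP a b) z - ∂₁ (dM a b) z =
      ∂₂ a.ψ z * (dP a b z + dR a b z) + ∂₂ (dχ a b) z * (b.L z + b.Nn z) := by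
  have h1 : ∂₂ (dP a b) z = ∂₂ b.L z - ∂₂ a.L z :=
    dd_sub (diffAt_top isOpen_O hb.smL hz) (diffAt_top isOpen_O ha.smL hz)
  have h2 : ∂₁ (dM a b) z = ∂₁ b.M z - ∂₁ a.M z :=
    dd_sub (diffAt_top isOpen_O hb.smM hz) (diffAt_top isOpen_O ha.smM hz)
  have h3 := a.codazzi1 hz
  have h4 := b.codazzi1 hz
  rw [pa_dψ a b e2 hz] at h4
  rw [h1, h2, dP, dR]; linear_combination h4 - h3

lemma pa_c2 {a b : Surf N L0 w ε} (ha : a.Fine) (hb : b.Fine) {z : P} (hz : z ∈ O) :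
    ∂₂ (dM a b) z - ∂₁ (dR a b) z =
      - (∂₁ a.ψ z * (dP a b z + dR a b z) + ∂₁ (dχ a b) z * (b.L z + b.Nn z)) := by
  have h1 : ∂₂ (dM a b) z = ∂₂ b.M z - ∂₂ a.M z :=
    dd_sub (diffAt_top isOpen_O hb.smM hz) (diffAt_top isOpen_O ha.smM hz)
  have h2 : ∂₁ (dR a b) z = ∂₁ b.Nn z - ∂₁ a.Nn z :=
    dd_sub (diffAt_top isOpen_O hb.smN hz) (diffAt_top isOpen_O ha.smN hz)
  have h3 := a.codazzi2 hz
  have h4 := b.codazzi2 hz
  rw [pa_dψ a b e1 hz] at h4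
  rw [h1, h2, dP, dR]; linear_combination h4 - h3

/-- common bound for the two Codazzi residuals -/
lemma pa_c_le {a b : Surf N L0 w ε} (ha : a.Fine) (hb : b.Fine)
    (hc : Close a b (ε ^ 2 / 10 ^ 5)) {z : P} (hz : z ∈ K) {x y : ℝ} (hx : |x| ≤ ε ^ 2 / 10 ^ 5) :
    |x * (dP a b z + dR a b z) + y * (b.L z + b.Nn z)| ≤
      ε ^ 2 / 10 ^ 5 * (2 * (|dP a b z| + |dQ a b z|) + 2 * |S0 a b z|) + 2 * |y| := by
  have hzO := K_subset_O hz
  have h1 : |dP a b z + dR a b z| ≤ 2 * (|dP a b z| + |dQ a b z|) + 2 * |S0 a b z| := by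
    have := bd_add (le_refl |dP a b z|) (pa_dR_le ha hb hc hz)
    have := abs_nonneg (dP a b z)
    have := abs_nonneg (dQ a b z)
    linarith
  have h2 : |b.L z + b.Nn z| ≤ 2 :=
    (bd_add (hb.pa_L_abs hzO) (hb.N0 z hzO)).trans (by norm_num)
  have := bd_add (bd_mul hx h1) (bd_mul (le_refl |y|) h2)
  linarith

lemma pa_det_le {a : Surf N L0 w ε} (ha : a.Fine) {z : P} (hz : z ∈ O) :
    |a.L z * a.Nn z - a.M z * a.M z| ≤ 1 :=
  (bd_sub (bd_mul (ha.pa_L_abs hz) (ha.N0 z hz)) (bd_mul (ha.M0 z hz) (ha.M0 z hz))).trans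
    (by norm_num)

lemma pa_S0_add_le (par : Par L0 w ε) {a b : Surf N L0 w ε} (ha : a.Fine) (hb : b.Fine) {z : P}
    (hz : z ∈ O) :
    |S0 a b z + ((w * L0) ^ 2)⁻¹ * Real.exp (2 * b.ψ z) * lap (dχ a b) z| ≤ 4 * |dχ a b z| := by
  have h1 : S0 a b z + ((w * L0) ^ 2)⁻¹ * Real.exp (2 * b.ψ z) * lap (dχ a b) z =
      (Real.exp (2 * dχ a b z) - 1) * (a.L z * a.Nn z - a.M z * a.M z) := by
    rw [pa_S0_eq par a b hz]; ring
  rw [h1]
  have := bd_mul (exp_two_sub_one_le (pa_dχ_le ha hb hz)) (pa_det_le ha hz)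
  linarith

lemma pa_S0_le (par : Par L0 w ε) {a b : Surf N L0 w ε} (ha : a.Fine) (hb : b.Fine) {z : P}
    (hz : z ∈ O) :
    |S0 a b z| ≤ 4 * |dχ a b z| + 2 * ((w * L0) ^ 2)⁻¹ * |lap (dχ a b) z| := by
  rw [pa_S0_eq par a b hz]
  have he := exp_two_le ((hb.pa_ψ hz).trans (by norm_num : (1 : ℝ) / 10 ^ 11 ≤ 1 / 10))
  have hl : |((w * L0) ^ 2)⁻¹| ≤ ((w * L0) ^ 2)⁻¹ := (abs_of_nonneg (by positivity)).le
  have := bd_sub (bd_mul (exp_two_sub_one_le (pa_dχ_le ha hb hz)) (pa_det_le ha hz))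
    (bd_mul hl (bd_mul he (le_refl |lap (dχ a b) z|)))
  linarith

lemma pa_dS0_le (par : Par L0 w ε) {a b : Surf N L0 w ε} (ha : a.Fine) (hb : b.Fine) {z : P}
    (hz : z ∈ O) :
    |∂₁ (S0 a b) z| ≤ 4 * |dχ a b z| + 4 * |∂₁ (dχ a b) z| +
      2 * ((w * L0) ^ 2)⁻¹ * (|lap (dχ a b) z| + |∂₁ (lap (dχ a b)) z|) := by
  have dL := diffAt_top isOpen_O ha.smL hz
  have dM' := diffAt_top isOpen_O ha.smM hz
  have dN := diffAt_top isOpen_O ha.smN hz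
  have dX := diffAt_top isOpen_O (sm_dχ a b) hz
  have dψ := diffAt_top isOpen_O b.pa_iso.smψ hz
  have dl := diffAt_top isOpen_O (pa_sm_lap (sm_dχ a b)) hz
  rw [dd_congr_on isOpen_O (fun x hx => pa_S0_eq par a b hx) hz,
    dd_sub (by fun_prop) (by fun_prop), dd_mul (by fun_prop) (by fun_prop),
    dd_sub (by fun_prop) (by fun_prop), dd_exp (by fun_prop), dd_const_mul _ dX, dd_const,
    dd_sub (by fun_prop) (by fun_prop), dd_mul dL dN, dd_mul dM' dM',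
    dd_const_mul _ (by fun_prop), dd_mul (by fun_prop) dl, dd_exp (by fun_prop),
    dd_const_mul _ dψ]
  have he := exp_two_le ((hb.pa_ψ hz).trans (by norm_num : (1 : ℝ) / 10 ^ 11 ≤ 1 / 10))
  have he' := exp_two_le (pa_dχ_le ha hb hz)
  have hl : |((w * L0) ^ 2)⁻¹| ≤ ((w * L0) ^ 2)⁻¹ := (abs_of_nonneg (by positivity)).le
  have hd : |∂₁ a.L z * a.Nn z + a.L z * ∂₁ a.Nn z - (∂₁ a.M z * a.M z + a.M z * ∂₁ a.M z)| ≤ 1 :=
    (bd_sub (bd_add (bd_mul (ha.L1 z hz).1 (ha.N0 z hz)) (bd_mul (ha.pa_L_abs hz) (ha.N1 z hz).1))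
      (bd_add (bd_mul (ha.M1 z hz).1 (ha.M0 z hz)) (bd_mul (ha.M0 z hz) (ha.M1 z hz).1))).trans
      (by norm_num)
  have h2 : |(2 : ℝ)| ≤ 2 := abs_two.le
  have hψ1 : |∂₁ b.ψ z| ≤ 1 / 2 :=
    (hb.ψ1 z hz).1.trans ((pa_tau_le ha.coef.hε ha.coef.hε1).trans (by norm_num))
  rw [sub_zero]
  refine (bd_sub (bd_add (bd_mul (bd_mul he' (bd_mul h2 le_rfl)) (pa_det_le ha hz))
      (bd_mul (exp_two_sub_one_le (pa_dχ_le ha hb hz)) hd))
    (bd_mul hl (bd_add (bd_mul (bd_mul he (bd_mul h2 hψ1)) le_rfl) (bd_mul he le_rfl)))).trans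
    (le_of_eq ?_)
  ring

lemma pa_F1 {a b : Surf N L0 w ε} (ha : a.Fine) (hb : b.Fine) {z : P} (hz : z ∈ O) :
    F1 a.mu (dP a b) (dQ a b) z = ∂₂ (dP a b) z - ∂₁ (dM a b) z := by
  have dp := diffAt_top isOpen_O (sm_dP ha hb) hz
  have dq := diffAt_top isOpen_O (sm_dM ha hb) hz
  have dμ := diffAt_top isOpen_O ha.coef.smμ hz
  have h1 : ∂₁ (dQ a b) z = ∂₁ (dM a b) z - (∂₁ a.mu z * dP a b z + a.mu z * ∂₁ (dP a b) z) := by
    rw [← dd_mul dμ dp, ← dd_sub dq (dμ.fun_mul dp)]; rfl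
  rw [F1, Dt, h1]; ring

lemma pa_F2 {a b : Surf N L0 w ε} (ha : a.Fine) (hb : b.Fine) {z : P} (hz : z ∈ O) :
    F2 a.mu a.ka (dP a b) (dQ a b) z =
      (∂₂ (dM a b) z - ∂₁ (dR a b) z) - a.mu z * (∂₂ (dP a b) z - ∂₁ (dM a b) z)
      + ((∂₁ (S0 a b) z - (∂₁ (dP a b) z * dR a b z + dP a b z * ∂₁ (dR a b) z
          - (∂₁ (dM a b) z * dM a b z + dM a b z * ∂₁ (dM a b) z))) * (a.L z)⁻¹
        - (S0 a b z - (dP a b z * dR a b z - dM a b z * dM a b z)) *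
          (∂₁ a.L z * ((a.L z)⁻¹ * (a.L z)⁻¹))) := by
  have dp := diffAt_top isOpen_O (sm_dP ha hb) hz
  have dq := diffAt_top isOpen_O (sm_dM ha hb) hz
  have dr := diffAt_top isOpen_O (sm_dR ha hb) hz
  have dμ := diffAt_top isOpen_O ha.coef.smμ hz
  have dκ := diffAt_top isOpen_O ha.coef.smκ hz
  have dL := diffAt_top isOpen_O ha.smL hz
  have h1 : ∀ v, dd v (dQ a b) z =
      dd v (dM a b) z - (dd v a.mu z * dP a b z + a.mu z * dd v (dP a b) z) := by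
    intro v
    rw [← dd_mul dμ dp, ← dd_sub dq (dμ.fun_mul dp)]; rfl
  have h2 : ∀ x ∈ O, S0 a b x = dP a b x * dR a b x - dM a b x * dM a b x +
      a.L x * (dR a b x - 2 * (a.mu x * dM a b x) + (a.ka x + a.mu x * a.mu x) * dP a b x) := by
    intro x hx
    have := ha.pa_L_ne hx
    simp only [S0, dP, dR, dM, mu, ka]
    field_simp
    ring
  have h3 := dd_congr_on (v := e1) isOpen_O h2 hz
  rw [dd_add (by fun_prop) (by fun_prop), dd_sub (by fun_prop) (by fun_prop), dd_mul dp dr,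
    dd_mul dq dq, dd_mul dL (by fun_prop), dd_add (by fun_prop) (by fun_prop),
    dd_sub (by fun_prop) (by fun_prop), dd_const_mul _ (by fun_prop), dd_mul dμ dq,
    dd_mul (by fun_prop) dp, dd_add (by fun_prop) (by fun_prop), dd_mul dμ dμ] at h3
  have hL := ha.pa_L_ne hz
  rw [F2, Dt, Dt, h1, h1, h3, h2 z hz, dQ]
  field_simp
  ring

/-- (T2) residuals of the linear system -/
theorem pair_source (N : ℝ) (par : Par L0 w ε) : ∃ C : ℝ, 0 < C ∧ ∀ a b : Surf N L0 w ε,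
    a.Fine → b.Fine → Close a b (ε ^ 2 / 10 ^ 5) → ∀ z ∈ K,
      |F1 a.mu (dP a b) (dQ a b) z| ≤
        ε ^ 2 / 1000 * (|dP a b z| + |dQ a b z|) + C * sd (dχ a b) z ∧
      |F2 a.mu a.ka (dP a b) (dQ a b) z| ≤
        ε ^ 2 / 1000 * (|dP a b z| + |dQ a b z|) + C * sd (dχ a b) z := by
  set l : ℝ := ((w * L0) ^ 2)⁻¹ with hl
  have hl0 : 0 ≤ l := by positivity
  refine ⟨100 * (1 + l), by positivity, fun a b ha hb hc z hz => ?_⟩
  have hzO := K_subset_O hz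
  obtain ⟨cp, cq, cr, cp1, cq1, cr1⟩ := hc z hz
  have hτ1 : ε ^ 2 / 10 ^ 5 ≤ 1 := (pa_tau_le par.hε par.hε1).trans (by norm_num)
  have hε : ε ^ 2 / 1000 = 100 * (ε ^ 2 / 10 ^ 5) := by ring
  have hc1 := pa_c_le ha hb hc hz (y := ∂₂ (dχ a b) z) (ha.ψ1 z hzO).2
  have hc2 := bd_neg (pa_c_le ha hb hc hz (y := ∂₁ (dχ a b) z) (ha.ψ1 z hzO).1)
  rw [← pa_c1 ha hb hzO] at hc1
  rw [← pa_c2 ha hb hzO] at hc2
  have hS := pa_S0_le par ha hb hzO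
  have hS1 := pa_dS0_le par ha hb hzO
  have hr := pa_dR_le ha hb hc hz
  have hq := pa_dM_le (b := b) ha hzO
  have hF2 := bd_add (bd_sub hc2 (bd_mul (ha.coef.μ0 z hzO) hc1))
    (bd_sub (bd_mul (bd_sub (le_refl |∂₁ (S0 a b) z|) (bd_sub (bd_add (bd_mul cp1 hr)
        (bd_mul (le_refl |dP a b z|) cr1)) (bd_add (bd_mul cq1 hq) (bd_mul hq cq1))))
        (ha.pa_Linv hzO))
      (bd_mul (bd_sub (le_refl |S0 a b z|) (bd_sub (bd_mul (le_refl |dP a b z|) cr)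
        (bd_mul cq hq))) (bd_mul (ha.L1 z hzO).1 (bd_mul (ha.pa_Linv hzO) (ha.pa_Linv hzO)))))
  rw [← pa_F2 ha hb hzO] at hF2
  rw [← pa_F1 ha hb hzO] at hc1
  rw [hε, sd, ← hl] at *
  set τ : ℝ := ε ^ 2 / 10 ^ 5
  have hτ0 : 0 ≤ τ := by positivity
  have e1 : τ * |S0 a b z| ≤ |S0 a b z| := mul_le_of_le_one_left (abs_nonneg _) hτ1
  have e2 : 0 ≤ τ * |dP a b z| := by positivity
  have e3 : 0 ≤ τ * |dQ a b z| := by positivity
  have e4 : 0 ≤ l * |dχ a b z| := by positivity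
  have e5 : 0 ≤ l * |∂₁ (dχ a b) z| := by positivity
  have e6 : 0 ≤ l * |∂₂ (dχ a b) z| := by positivity
  have e7 : 0 ≤ l * |lap (dχ a b) z| := by positivity
  have e8 : 0 ≤ l * |∂₁ (lap (dχ a b)) z| := by positivity
  have := abs_nonneg (dχ a b z)
  have := abs_nonneg (∂₁ (dχ a b) z)
  have := abs_nonneg (∂₂ (dχ a b) z)
  have := abs_nonneg (lap (dχ a b) z)
  have := abs_nonneg (∂₁ (lap (dχ a b)) z)
  constructor <;> linarith

/-- (T3) the potential -/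
theorem pair_potential (N : ℝ) (par : Par L0 w ε) : ∃ C : ℝ, 0 < C ∧ ∀ a b : Surf N L0 w ε,
    a.Fine → b.Fine → ∀ z ∈ O, a.χ z = b.χ z →
      uu a b z ^ 2 ≤ C * Lam a b z ∧ (∂₁ (uu a b) z - dP a b z) ^ 2 ≤ C * Lam a b z ∧
      (Dt a.mu (uu a b) z - dQ a b z) ^ 2 ≤ C * Lam a b z := by
  set k : ℝ := 6 * |(w * L0)⁻¹| + 144 with hk
  have hk0 : 0 < k := by positivity
  refine ⟨(2 * k) ^ 2, by positivity, fun a b ha hb z hz hχ => ?_⟩
  have hlam := pa_lam_ne par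
  set A := Real.sqrt (Lam a b z) with hAdef
  have hA : A ^ 2 = Lam a b z := Real.sq_sqrt (Lam_nonneg a b z)
  have hA0 : 0 ≤ A := Real.sqrt_nonneg _
  have hkA : 0 ≤ k * A := by positivity
  have dG : ∀ c, DifferentiableAt ℝ (D e1 b.G c) z := fun c =>
    diffAt_top isOpen_O (contDiffOn_dd isOpen_O e1 (b.iso.smG c)) hz
  have dn : ∀ c, DifferentiableAt ℝ (a.n c) z := fun c =>
    diffAt_top isOpen_O (a.pa_iso.sm_nrm c) hz
  have ddot : DifferentiableAt ℝ (dot (D e1 b.G) a.n) z :=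
    (((dG 0).fun_mul (dn 0)).fun_add ((dG 1).fun_mul (dn 1))).fun_add ((dG 2).fun_mul (dn 2))
  have du : ∀ v, dd v (uu a b) z =
      (dot (D v (D e1 b.G)) a.n z + dot (D e1 b.G) (D v a.n) z) / (w * L0) := by
    intro v
    rw [← pa_dd_dot v dG dn, ← dd_div_const _ ddot]; rfl
  have hτ : ε ^ 2 / 10 ^ 5 ≤ 1 := (pa_tau_le par.hε par.hε1).trans (by norm_num)
  have hψ1 : |∂₁ b.ψ z| ≤ 1 := (hb.ψ1 z hz).1.trans hτ
  have hψ2 : |∂₂ b.ψ z| ≤ 1 := (hb.ψ1 z hz).2.trans hτ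
  have he := exp_neg_two_le ((ha.pa_ψ hz).trans (by norm_num : (1 : ℝ) / 10 ^ 11 ≤ 1 / 10))
  have hee : Real.exp (-2 * a.ψ z) * Real.exp (2 * a.ψ z) = 1 := by
    rw [← Real.exp_add]; simp
  have hna : ∀ c, |a.n c z| ≤ 1 := fun c => a.pa_iso.abs_nrm_le hz c
  have hLa : |a.L z| ≤ 2 := (ha.pa_L_abs hz).trans (by norm_num)
  have hLb : |b.L z| ≤ 2 := (hb.pa_L_abs hz).trans (by norm_num)
  have hMa : |a.M z| ≤ 2 := (ha.M0 z hz).trans (by norm_num)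
  have hMb : |b.M z| ≤ 2 := (hb.M0 z hz).trans (by norm_num)
  have hNa : |a.Nn z| ≤ 2 := (ha.N0 z hz).trans (by norm_num)
  have n1 : dot a.n (D e1 a.G) z = 0 := nrm_D1
  have n2 : dot a.n (D e2 a.G) z = 0 := nrm_D2
  have u1 : |∂₁ (uu a b) z - dP a b z| ≤ k * A := by
    rw [du]
    refine pot_aux (a1 := fun c => ∂₁ (a.G c) z) (a2 := fun c => ∂₂ (a.G c) z)
      (b1 := fun c => ∂₁ (b.G c) z) (b2 := fun c => ∂₂ (b.G c) z) (na := fun c => a.n c z)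
      (nb := fun c => b.n c z) (g2 := fun c => ∂₁ (∂₁ (b.G c)) z) (n1 := fun c => ∂₁ (a.n c) z)
      (s := ∂₁ b.ψ z) (t := - ∂₂ b.ψ z) hlam n1 n2 (a.pa_iso.nrm_nrm hz) (a.pa_iso.h11 z hz)
      (a.pa_iso.h12 z hz) hee (fun c => ?_) (fun c => ?_) hψ1 (bd_neg hψ2) hLb hLa hMa he hna
      (ha.pa_D1 hz) (ha.pa_D2 hz) (fun c => pa_W1_le a b c z) (fun c => pa_W2_le a b c z)
      (pa_n_sub ha hb hz hχ)
    · rw [b.pa_iso.gauss11 hz c, pa_II11 par, n]; ring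
    · rw [n, a.pa_iso.wein1 hz c, pa_II11 par, pa_II12 par]
  have u2 : |∂₂ (uu a b) z - dM a b z| ≤ k * A := by
    rw [du]
    refine pot_aux (a1 := fun c => ∂₁ (a.G c) z) (a2 := fun c => ∂₂ (a.G c) z)
      (b1 := fun c => ∂₁ (b.G c) z) (b2 := fun c => ∂₂ (b.G c) z) (na := fun c => a.n c z)
      (nb := fun c => b.n c z) (g2 := fun c => ∂₂ (∂₁ (b.G c)) z) (n1 := fun c => ∂₂ (a.n c) z)
      (s := ∂₂ b.ψ z) (t := ∂₁ b.ψ z) hlam n1 n2 (a.pa_iso.nrm_nrm hz) (a.pa_iso.h11 z hz)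
      (a.pa_iso.h12 z hz) hee (fun c => ?_) (fun c => ?_) hψ2 hψ1 hMb hMa hNa he hna
      (ha.pa_D1 hz) (ha.pa_D2 hz) (fun c => pa_W1_le a b c z) (fun c => pa_W2_le a b c z)
      (pa_n_sub ha hb hz hχ)
    · rw [b.pa_iso.gauss21 hz c, pa_II12 par, n]
    · rw [n, a.pa_iso.wein2 hz c, pa_II12 par, pa_II22 par]
  refine ⟨sq_le_of_abs_le hA ?_, sq_le_of_abs_le hA (by linarith), sq_le_of_abs_le hA ?_⟩
  · have h1 : uu a b z = (w * L0)⁻¹ * ((∂₁ (b.G 0) z - ∂₁ (a.G 0) z) * a.n 0 z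
        + (∂₁ (b.G 1) z - ∂₁ (a.G 1) z) * a.n 1 z + (∂₁ (b.G 2) z - ∂₁ (a.G 2) z) * a.n 2 z) := by
      simp only [dot, D] at n1
      simp only [uu, dot, D]
      rw [div_eq_mul_inv]
      linear_combination (w * L0)⁻¹ * n1
    have h2 := bd_mul (le_refl |(w * L0)⁻¹|)
      (sum3_le (x := fun c => ∂₁ (b.G c) z - ∂₁ (a.G c) z) (fun c => pa_W1_le a b c z) hna)
    rw [← h1, ← hAdef] at h2
    have h3 : 0 ≤ |(w * L0)⁻¹| * A := by positivity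
    rw [hk]
    linarith
  · have h1 : Dt a.mu (uu a b) z - dQ a b z =
        (∂₂ (uu a b) z - dM a b z) - a.mu z * (∂₁ (uu a b) z - dP a b z) := by
      rw [Dt, dQ]; ring
    have h2 := bd_sub u2 (bd_mul (ha.coef.μ0 z hz) u1)
    rw [h1]
    linarith

/-- (T4) second derivatives of `G_b - G_a` -/
theorem pair_hess (N : ℝ) (par : Par L0 w ε) : ∃ C : ℝ, 0 < C ∧ ∀ a b : Surf N L0 w ε,
    a.Fine → b.Fine → Close a b (ε ^ 2 / 10 ^ 5) → ∀ z ∈ K, (∀ᶠ x in 𝓝 z, a.χ x = b.χ x) →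
      ∀ i, ∂₁ (W a b i) z ^ 2 + ∂₂ (W a b i) z ^ 2 ≤
        C * (dP a b z ^ 2 + dQ a b z ^ 2 + Lam a b z) := by
  set k : ℝ := 2 + 32 * |w * L0| with hk
  have hk0 : 0 < k := by positivity
  refine ⟨6 * k ^ 2, by positivity, fun a b ha hb hc z hz hχ => ?_⟩
  have hzO := K_subset_O hz
  set A := Real.sqrt (Lam a b z) with hAdef
  have hA : A ^ 2 = Lam a b z := Real.sq_sqrt (Lam_nonneg a b z)
  have hχ0 : ∀ᶠ x in 𝓝 z, dχ a b x = 0 := by
    filter_upwards [hχ] with x hx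
    rw [dχ, hx, sub_self]
  have hsd := sd_eq_zero hχ0
  have hS : S0 a b z = 0 := by
    have h1 := pa_S0_le par ha hb hzO
    have h2 : |dχ a b z| = 0 ∧ |lap (dχ a b) z| = 0 := by
      rw [sd] at hsd
      have := abs_nonneg (dχ a b z)
      have := abs_nonneg (∂₁ (dχ a b) z)
      have := abs_nonneg (∂₂ (dχ a b) z)
      have := abs_nonneg (lap (dχ a b) z)
      have := abs_nonneg (∂₁ (lap (dχ a b)) z)
      constructor <;> linarith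
    rw [h2.1, h2.2] at h1
    exact abs_nonpos_iff.1 (by linarith)
  have hp := abs_nonneg (dP a b z)
  have hq := abs_nonneg (dQ a b z)
  have bp : |b.L z - a.L z| ≤ |dP a b z| + |dQ a b z| := by
    rw [← dP]; linarith
  have bq : |b.M z - a.M z| ≤ |dP a b z| + |dQ a b z| := by
    have := pa_dM_le (b := b) ha hzO
    rw [← dM]; linarith
  have br : |b.Nn z - a.Nn z| ≤ |dP a b z| + |dQ a b z| := by
    have := pa_dR_le ha hb hc hz
    rw [hS, abs_zero] at this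
    rw [← dR]; linarith
  have hψ : ∀ v, dd v b.ψ z = dd v a.ψ z := fun v => by
    rw [pa_dψ a b v hzO, dd_eq_zero_of_eventually hχ0, add_zero]
  have hτ : ε ^ 2 / 10 ^ 5 ≤ 1 := (pa_tau_le par.hε par.hε1).trans (by norm_num)
  have hψ1 : |∂₁ a.ψ z| ≤ 1 := (ha.ψ1 z hzO).1.trans hτ
  have hψ2 : |∂₂ a.ψ z| ≤ 1 := (ha.ψ1 z hzO).2.trans hτ
  have hLa : |a.L z| ≤ 2 := (ha.pa_L_abs hzO).trans (by norm_num)
  have hMa : |a.M z| ≤ 2 := (ha.M0 z hzO).trans (by norm_num)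
  have hNa : |a.Nn z| ≤ 2 := (ha.N0 z hzO).trans (by norm_num)
  have hnb : ∀ c, |b.n c z| ≤ 1 := fun c => b.pa_iso.abs_nrm_le hzO c
  have hn := pa_n_sub ha hb hzO hχ.self_of_nhds
  have dG : ∀ (s : Surf N L0 w ε) (v : P) (c : Fin 3), DifferentiableAt ℝ (dd v (s.G c)) z :=
    fun s v c => diffAt_top isOpen_O (contDiffOn_dd isOpen_O v (s.iso.smG c)) hzO
  rintro ⟨j, c⟩
  have w1 := pa_W1_le a b c z
  have w2 := pa_W2_le a b c z
  cases j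
  · have hW : ∀ v, dd v (W a b (false, c)) z = dd v (∂₂ (b.G c)) z - dd v (∂₂ (a.G c)) z :=
      fun v => by rw [← dd_sub (dG b e2 c) (dG a e2 c)]; rfl
    refine hess_sq hA ?_ ?_
    · rw [hW, b.pa_iso.gauss12 hzO c, a.pa_iso.gauss12 hzO c, pa_II12 par, pa_II12 par, hψ, hψ]
      exact hess_aux hψ2 hψ1 hMa bq (hnb c) w1 w2 (hn c)
    · rw [hW, b.pa_iso.gauss22 hzO c, a.pa_iso.gauss22 hzO c, pa_II22 par, pa_II22 par, hψ, hψ]
      exact hess_aux (bd_neg hψ1) hψ2 hNa br (hnb c) w1 w2 (hn c)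
  · have hW : ∀ v, dd v (W a b (true, c)) z = dd v (∂₁ (b.G c)) z - dd v (∂₁ (a.G c)) z :=
      fun v => by rw [← dd_sub (dG b e1 c) (dG a e1 c)]; rfl
    refine hess_sq hA ?_ ?_
    · rw [hW, b.pa_iso.gauss11 hzO c, a.pa_iso.gauss11 hzO c, pa_II11 par, pa_II11 par, hψ, hψ,
        sub_eq_add_neg (∂₁ a.ψ z * _), sub_eq_add_neg (∂₁ a.ψ z * _), ← neg_mul, ← neg_mul]
      exact hess_aux hψ1 (bd_neg hψ2) hLa bp (hnb c) w1 w2 (hn c)
    · rw [hW, b.pa_iso.gauss21 hzO c, a.pa_iso.gauss21 hzO c, pa_II12 par, pa_II12 par, hψ, hψ]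
      exact hess_aux hψ2 hψ1 hMa bq (hnb c) w1 w2 (hn c)

/-- (T6) facts used in the detection step -/
theorem pair_detect (N : ℝ) (par : Par L0 w ε) : ∃ C : ℝ, 0 < C ∧ ∀ a b : Surf N L0 w ε,
    a.Fine → b.Fine → Close a b (ε ^ 2 / 10 ^ 5) → ∀ z ∈ K,
      |dM a b z| ≤ |dP a b z| + |dQ a b z| ∧
      |dR a b z| ≤ |dP a b z| + |dQ a b z| + 2 * |S0 a b z| ∧
      |∂₂ (dP a b) z - ∂₁ (dM a b) z| ≤
        |dP a b z| + |dQ a b z| + |S0 a b z| + 2 * |∂₂ (dχ a b) z| ∧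
      |∂₂ (dM a b) z - ∂₁ (dR a b) z| ≤
        |dP a b z| + |dQ a b z| + |S0 a b z| + 2 * |∂₁ (dχ a b) z| ∧
      |S0 a b z + ((w * L0) ^ 2)⁻¹ * Real.exp (2 * b.ψ z) * lap (dχ a b) z| ≤ C * |dχ a b z| ∧
      |S0 a b z| ≤ C * (|lap (dχ a b) z| + |dχ a b z|) := by
  set l : ℝ := ((w * L0) ^ 2)⁻¹ with hl
  have hl0 : 0 ≤ l := by positivity
  refine ⟨4 + 2 * l, by positivity, fun a b ha hb hc z hz => ?_⟩
  have hzO := K_subset_O hz
  have hτ1 : ε ^ 2 / 10 ^ 5 ≤ 1 / 2 := (pa_tau_le par.hε par.hε1).trans (by norm_num)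
  have hc1 := pa_c_le ha hb hc hz (y := ∂₂ (dχ a b) z) (ha.ψ1 z hzO).2
  have hc2 := bd_neg (pa_c_le ha hb hc hz (y := ∂₁ (dχ a b) z) (ha.ψ1 z hzO).1)
  rw [← pa_c1 ha hb hzO] at hc1
  rw [← pa_c2 ha hb hzO] at hc2
  have hS := pa_S0_le par ha hb hzO
  have hS' := pa_S0_add_le par ha hb hzO
  have hr := pa_dR_le ha hb hc hz
  have hq := pa_dM_le (b := b) ha hzO
  rw [← hl] at hS hS'
  have := abs_nonneg (dχ a b z)
  have := abs_nonneg (lap (dχ a b) z)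
  have := abs_nonneg (dP a b z)
  have := abs_nonneg (dQ a b z)
  have := abs_nonneg (S0 a b z)
  have e1 : ε ^ 2 / 10 ^ 5 * (2 * (|dP a b z| + |dQ a b z|) + 2 * |S0 a b z|) ≤
      1 / 2 * (2 * (|dP a b z| + |dQ a b z|) + 2 * |S0 a b z|) :=
    mul_le_mul_of_nonneg_right hτ1 (by positivity)
  have e4 : 0 ≤ l * |dχ a b z| := by positivity
  have e7 : 0 ≤ l * |lap (dχ a b) z| := by positivity
  refine ⟨?_, ?_, ?_, ?_, ?_, ?_⟩ <;> linarith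

end Surf
end Crest.Agent.R220
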